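import Vale.Agent.P283R.Dg.St
import Vale.Agent.P283R.H.L5

/-!
# P283R, block DG: inversion of adjunction outside of the support of an effective b-divisor
-/

open Set

noncomputable section

namespace Vale.Agent.P283R.Dg

open Vale.Agent.P287D Vale.Agent.P287D.Ae Vale.Agent.P287D.Loq

variable {K : Type} [Field K] [Algebra ℂ K] {n : ℕ} {Λ G H : BD K}

/-- a bound on the primes outside of the support of `H` holds on all primes, up to a multiple -/
theorem a5l_cover (hK : FF K (n + 1)) (hΛ : Smp Λ) (hb : Big Λ) (hG : G ∈ Car K) (h0 : 0 ≤ H)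
    (hle : ∀ R, On n Λ R → H R = 0 → dsc (n + 1) G R ≤ 0) :
    ∃ k : ℝ, 0 ≤ k ∧ ∀ R, On n Λ R → (⌈dsc (n + 1) G R⌉ : ℝ) ≤ (k • H) R := by
  have i := Api.mod.isb n K hK
  have f1 := Hd.fin_on neg' hK hΛ hb i.2.1
  have f2 := Hd.fin_on neg' hK hΛ hb (i.1 G hG)
  obtain ⟨T, hT⟩ : ∃ T : Finset (Pl K), ∀ R, On n Λ R → R ∉ T → dsc (n + 1) G R = 0 :=
    ⟨(f1.union f2).toFinset, fun R hR hc => by
      simp only [Finite.mem_toFinset, mem_union, mem_ofPred_eq, hR, true_and, not_or, not_not] at hc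
      simp [dsc, hc.1, hc.2]⟩
  obtain ⟨k, hk⟩ := (T.image fun R => (⌈dsc (n + 1) G R⌉ : ℝ) / H R).exists_le
  refine ⟨max k 0, le_max_right _ _, fun R hR => ?_⟩
  rw [Pi.smul_apply, smul_eq_mul]
  have a : 0 ≤ H R := h0 R
  have b := mul_nonneg (le_max_right k 0) a
  by_cases c : H R = 0
  · exact (ceil_np (hle R hR c)).trans b
  by_cases d : R ∈ T
  · exact (div_le_iff₀ (lt_of_le_of_ne a (Ne.symm c))).1
      ((hk _ (Finset.mem_image_of_mem _ d)).trans (le_max_left k 0))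
  · rw [hT R hR d]; simpa using b

/-- **A5L** -/
theorem a5l : A5L := fun n K _ _ Λ G H S hK hΛ hb hG hH h0 hS hB hP hk R R₀ hR c c' z0 => by
  have cG := Gs.dsc_car hΛ hG
  have cH := Gs.dsc_car hΛ hH
  have r0 : 0 ≤ res S H := res'.nn _ K hK S _ cH h0 hS
  obtain ⟨t, k, k0, hk'⟩ := P283R.H.klt_sub (Api.ffs.rsd (n + 1) K hK S) (a1 (n + 1) K hK S G cG).1
    (Λ := res S H) (Aj.res_car S H) (G := fun _ : Unit => res S H)
    (fun _ => Rep.refl r0) fun Q h => hk Q (h ())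
  obtain ⟨k', k1, e1⟩ : ∃ k' : ℝ, 0 ≤ k' ∧ k • ∑ _i ∈ t, res S H = res S (k' • H) :=
    ⟨k * t.card, mul_nonneg k0 (Nat.cast_nonneg _), by
      rw [res'.smul _ K hK S _ _ cH, Finset.sum_const, mul_smul, Nat.cast_smul_eq_nsmul]⟩
  rw [e1] at hk'
  have u := Gs.dsc_smul hΛ k' hH
  have d := Gs.dsc_sub hΛ hG u
  have e : ∀ P, dsc (n + 2) (G - k' • H) P = dsc (n + 2) G P + k' * H P := fun P => by
    simp only [dsc, Pi.sub_apply, Pi.smul_apply, smul_eq_mul]; ring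
  have a4' := (a4 (n + 1) K hK S _ (Gs.dsc_car hΛ d) _ (Gs.dsc_car hΛ u)).1
  rw [sub_add_cancel] at a4'
  rw [a4', add_sub_cancel_right] at hk'
  obtain ⟨m, m0, h⟩ := a5l_cover hK hΛ hb (Gs.dsc_car hΛ d) h0
    fun R a b => by rw [e, b, mul_zero, add_zero]; exact hB R a b
  have := P283R.H.a5_gen hK hΛ hb d (by rw [e, hS, mul_zero, add_zero, hP]) hk'
    (Gs.dsc_smul hΛ m hH) (smul_nonneg m0 h0) (by rw [Pi.smul_apply, hS, smul_zero])
    (fun R a _ => h R a) hR (by rw [Pi.smul_apply, z0, smul_zero]) c c'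
  have z : H R = 0 := le_antisymm (not_lt.1 fun p => (cle_dsc hH h0 c p).ne' z0) (h0 R)
  rwa [e, z, mul_zero, add_zero] at this

end Vale.Agent.P283R.Dg
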