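import Vale.Agent.P283R.Dg.St
import Vale.Agent.P287D.Ad.All

/-!
# P283R, block DG: adjunction over `{p ≠ 0}`
-/

open Set

noncomputable section

namespace Vale.Agent.P283R.Dg

open Vale.Agent.P287D Vale.Agent.P283M

theorem afr59 : AFR := fun hh n K _ _ hK P u p Ψ hΨ β hβ hP hd hb hR Q hQ => by
  have e0 : ev u p ≠ 0 := fun e => hP.2 (by
    rw [e]; simp [Pl.rd, P.ring.zero_mem]; exact map_zero _)
  obtain ⟨H, hH⟩ := hh n K hK u p e0
  have hP0 : H P = 0 := (hH.iff P).2 hP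
  have hc : H ∈ Car K := by
    obtain ⟨l, -, rfl⟩ := hH.smp
    exact Submodule.sum_mem _ fun s _ => Submodule.smul_mem _ _ (Submodule.subset_span ⟨s, rfl⟩)
  obtain ⟨R, ⟨r0, r1⟩, -, -, -, k⟩ := a2 n K hK P Q {Ψ, β, H} 0 0 (toFinite _)
    (by rintro _ (rfl | rfl | rfl) <;> assumption) (zero_mem _)
  have h1 : H R = 0 := by
    rw [r1 H (by simp), (hH.res P hP0 Q).2 hQ, hP0]; simp
  obtain ⟨c1, c2⟩ := hR R ((hH.iff R).1 h1) r0
  have k1 := k Ψ (by simp)
  have k2 := r1 β (by simp)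
  rw [hd] at k1
  rw [hb] at k2
  constructor <;> linarith

end Vale.Agent.P283R.Dg
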