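import Vale.Agent.P283R.Dg.St
import Vale.Agent.P283R.Br.Glue
import Vale.Agent.P283M.Br.Mdc
import Vale.Agent.P283M.Br.Amp

/-!
# P283R, block DG: complements of a fibre, from the places to the scheme and back
-/

open Set CategoryTheory AlgebraicGeometry

noncomputable section

namespace Vale.Agent.P283R.Dg

open Vale.Agent.P287D Vale.Agent.P283M Vale.Agent.P297Z

section

open Vale.Agent.P289 (Pt St toRat DForm dimension)
open Vale.Agent.P283M.Stm Vale.Agent.P283M.Stm.Var Vale.Agent.P283M.Br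

/-- a complement which is given on the places -/
theorem has_of {X Z : Var} {n N : ℕ} {f : X.X ⟶ Z.X} {ω : DForm ℂ X.K (n + 1)} {B : X.QDiv}
    {z : Pt Z.X} {h ψ : X.K} {U : Z.X.Opens} (hK : FF X.K (n + 1)) (fr : Frm ω h) (N1 : 1 ≤ N)
    (hB : Pair (fun _ => True) ⊤ ω B) (zU : z ∈ U) (ψ0 : ψ ≠ 0)
    (H : ∀ (Q : Pl X.K), ∀ y ∈ f ⁻¹ᵁ U, Dom Q.ring y →
      -1 < cn X.K (n + 1) Q + Q.ord h - (N : ℝ)⁻¹ * Q.ord ψ ∧ ∀ (m : ℕ) (g : X.K), 0 < m →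
        LocalEq (logCan ω B) m g y → (Q.ord g : ℝ) / m ≤ (N : ℝ)⁻¹ * Q.ord ψ) :
    HasKltComplement f ω B N z := by
  classical
  have f0 := P283R.Br.form_fin hK fr
  have N0 : (N : ℝ) ≠ 0 := Nat.cast_ne_zero.2 (by omega)
  have N0' : (N : ℚ) ≠ 0 := Nat.cast_ne_zero.2 (by omega)
  let L : X.PrimeDiv → ℚ := fun E => ord ψ E / N - formOrd ω (RingEquiv.refl X.K) E
  have fL : (Function.support L).Finite := by
    refine ((fin X ψ).union f0).subset fun E hE => ?_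
    by_contra k
    rw [mem_union, not_or, mem_ofPred, mem_ofPred, not_not, not_not] at k
    exact hE (by simp only [L, k.1, k.2]; simp)
  have eL : ∀ E : X.PrimeDiv, Finsupp.ofSupportFinite L fL E =
      ord ψ E / N - formOrd ω (RingEquiv.refl X.K) E := fun E => rfl
  have lq : ∀ x, LocalEq (logCan ω (Finsupp.ofSupportFinite L fL)) N ψ x :=
    fun x => ⟨ψ0, fun E hE => by
      rw [logCan, eL E]
      field_simp
      ring⟩
  have ge : ∀ E : X.PrimeDiv, E.1 ∈ f ⁻¹ᵁ U → B E ≤ Finsupp.ofSupportFinite L fL E := by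
    intro E c
    obtain ⟨Q, e, o⟩ := pl_of plc E
    obtain ⟨m, g, m0, hg⟩ := hB.2.1 E.1 trivial
    have a := (H Q _ c e.dom).2 m g m0 hg
    have b := hg.2 E specializes_rfl
    have m0' : (m : ℝ) ≠ 0 := Nat.cast_ne_zero.2 m0.ne'
    rw [o, logCan, ← Rat.cast_inj (α := ℝ)] at b
    push_cast at b
    rw [b, mul_div_cancel_left₀ _ m0'] at a
    rw [eL E, o, ← Rat.cast_le (K := ℝ)]
    push_cast
    rw [div_eq_inv_mul]
    linarith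
  refine ⟨U, Finsupp.ofSupportFinite L fL, ψ, zU, ge,
    ⟨fun E c => (hB.1 E trivial).trans (ge E c), fun x _ => ⟨N, _, N1, lq x⟩,
      fun M E c m g m0 hg => ?_⟩, fun x _ => lq x⟩
  obtain ⟨⟨Q, e⟩, o⟩ := plc X M.Y M.pull (mdc X M).1 E
  have dm := (mdc X M).2 E Q e
  have a := (H Q _ c dm).1
  have b := loc_uniq har plc hg (lq _) dm
  have m0' : (m : ℝ) ≠ 0 := Nat.cast_ne_zero.2 m0.ne'
  have b' : (Q.ord g : ℝ) / m = (N : ℝ)⁻¹ * Q.ord ψ := by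
    field_simp
    linarith
  show (0 : ℝ) < _
  rw [fr _ _ E Q e (o Q e), o Q e, b']
  linarith

end

open Sl Sl.Var
open Vale.Agent.P283M.Br (Dom Is UnAt Base Dif Frm gam)

variable {n N : ℕ} {T S X Z : Sl.Var} {F : T.X ⟶ S.X} {V U : S.X.Opens} {s₀ : Pt S.X}
  {u : Finset T.K} {i : X.X ⟶ T.X} {j : Z.X ⟶ S.X} {f : X.X ⟶ Z.X} {t : T.K} {P : Pl T.K}
  {e : X.K ≃ₐ[ℂ] P.κ} {ω : X.Form (n + 1)} {B : X.QDiv} {h : X.K} {z : Pt Z.X} {G : BD P.κ}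

theorem mem_pre (c : f ≫ j = i ≫ F) {y : Pt X.X} :
    y ∈ pre f (pre j U) ↔ y.map i ∈ pre F U := by
  show j (f y) ∈ U ↔ F (i y) ∈ U
  rw [← Scheme.Hom.comp_apply, ← Scheme.Hom.comp_apply, c]

theorem ord_tw {K : Type} [Field K] [Algebra ℂ K] (Q : Pl K) {a b c : K} (a0 : a ≠ 0) (b0 : b ≠ 0)
    (c0 : c ≠ 0) (N1 : 1 ≤ N) :
    (N : ℝ)⁻¹ * Q.ord (a * (b / c) ^ N) = (N : ℝ)⁻¹ * Q.ord a + Q.ord b - Q.ord c := by
  have N0 : (N : ℝ) ≠ 0 := Nat.cast_ne_zero.2 (by omega)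
  rw [Pl.ord_mul _ a0 (pow_ne_zero _ (div_ne_zero b0 c0)), Pl.ord_pow, Pl.ord_div _ b0 c0]
  push_cast
  field_simp
  ring

/-- from the places to the complement of the fibre -/
theorem bk (trn : TRN) (ctr : CTR) {p : MvPolynomial u ℂ} (N1 : 1 ≤ N) (zr : Zeros i t (all T.X))
    (bs : Base (X := T.o) (Z := S.o) F V s₀ u) (pe : Pe i t P e) (ov : Ov u P)
    (ff : FF P.κ (n + 1)) (UV : U ≤ V) (hU : ∀ x ∈ pre F U, UnAt (X := T.o) (ev u p) x)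
    (c : f ≫ j = i ≫ F) (zU : z.map j ∈ U) (h0 : h ≠ 0) (fr : Frm (X := X.o) ω h)
    (hB : Pair (fun _ => True) (all X.X) ω B) (dic : Dic i (pre F V) P e G ω B h)
    (sc : Sc (n + 1) N u p P G) : HasKltComplement f ω B N z := by
  obtain ⟨hK, -, dn, od, J, J0, hJ⟩ := trn _ _ _ e ff
  obtain ⟨φ, φ0, hφ⟩ := sc
  obtain ⟨φ, rfl⟩ := e.surjective φ
  replace φ0 : φ ≠ 0 := by rintro rfl; exact φ0 (map_zero _)
  refine (has_iff f ω B N z).2 (has_of (X := X.o) (Z := Z.o) (U := pre j U) hK fr N1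
    ((pair_iff _ _ ω B).1 hB) zU (mul_ne_zero φ0 (pow_ne_zero N (div_ne_zero h0 J0)))
    fun (Q' : Pl X.K) y hy dm => ?_)
  obtain ⟨Q, l⟩ := dn Q'
  have yU := (mem_pre c).1 hy
  obtain ⟨a, b⟩ := hφ Q (((ctr T S X F V s₀ u i t P e zr bs pe ov Q Q' l).2 y (UV yU) dm p).2
    (hU _ yU))
  rw [dsc, Pi.sub_apply, Pi.smul_apply, smul_eq_mul, hJ Q Q' l] at b
  rw [dv_apply, (od Q Q' l).1] at a b
  have o := ord_tw Q' φ0 h0 J0 N1
  refine ⟨?_, fun m (g : X.K) m0 hg => ?_⟩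
  · show -1 < cn X.K (n + 1) Q' + Q'.ord h - (N : ℝ)⁻¹ * Q'.ord (φ * (h / J) ^ N)
    linarith
  have k := dic Q Q' y l dm (UV yU) m g m0 hg
  rw [dsc, Pi.sub_apply, hJ Q Q' l] at k
  show (Q'.ord g : ℝ) / m ≤ (N : ℝ)⁻¹ * Q'.ord (φ * (h / J) ^ N)
  linarith

/-- from the complement of the fibre to the places -/
theorem fw (trn : TRN) (ctr : CTR) (nbh : NBH) (ofh : OFH) (N1 : 1 ≤ N)
    (zr : Zeros i t (all T.X)) (hF : Contraction F) (cl : s₀.Closed)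
    (bs : Base (X := T.o) (Z := S.o) F V s₀ u) (pe : Pe i t P e) (ov : Ov u P)
    (ff : FF P.κ (n + 1)) (hj : IsPreimmersion j) (c : f ≫ j = i ≫ F) (zs : z.map j = s₀)
    (h0 : h ≠ 0) (fr : Frm (X := X.o) ω h) (hB : Pair (fun _ => True) (all X.X) ω B)
    (dic : Dic i (pre F V) P e G ω B h) (H : HasKltComplement f ω B N z) :
    ∃ p, Cc p ∧ Sc (n + 1) N u p P G := by
  obtain ⟨-, up, -, od, J, J0, hJ⟩ := trn _ _ _ e ff
  obtain ⟨U₀, Λ, φ, zU, le, hΛ, lq⟩ := H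
  obtain ⟨U₁, oU, eU⟩ := hj.isEmbedding.isInducing.isOpen_iff.1 U₀.isOpen
  have eU' : U₀ = pre j ⟨U₁, oU⟩ := TopologicalSpace.Opens.ext eU.symm
  subst eU'
  obtain ⟨p, cp, hp⟩ := nbh T S F V ⟨U₁, oU⟩ s₀ u hF cl bs (zs ▸ zU)
  by_cases φ0 : φ = 0
  · refine ⟨p, cp, 1, one_ne_zero, fun Q k => ?_⟩
    obtain ⟨Q', l⟩ := up Q
    obtain ⟨a, b⟩ := ctr T S X F V s₀ u i t P e zr bs pe ov Q Q' l
    obtain ⟨y, yV, dm⟩ := a k.1
    exact ((lq y ((mem_pre c).2 (hp _ yV ((b y yV dm p).1 k)))).1 φ0).elim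
  have ψ0 : φ * (J / h) ^ N ≠ 0 := mul_ne_zero φ0 (pow_ne_zero N (div_ne_zero J0 h0))
  refine ⟨p, cp, e (φ * (J / h) ^ N), (map_ne_zero e).2 ψ0, fun Q k => ?_⟩
  obtain ⟨Q', l⟩ := up Q
  obtain ⟨a, b⟩ := ctr T S X F V s₀ u i t P e zr bs pe ov Q Q' l
  obtain ⟨y, yV, dm⟩ := a k.1
  obtain ⟨k1, k2⟩ := ofh _ N X _ ω B Λ φ h N1 φ0 h0 fr le hΛ lq Q' y
    ((mem_pre c).2 (hp _ yV ((b y yV dm p).1 k))) dm
  obtain ⟨m, g, m0, hg⟩ := hB.2.1 y trivial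
  have k3 := dic Q Q' y l dm yV m g m0 hg
  have k4 := k2 m g m0 hg
  have k5 := ord_tw Q' φ0 one_ne_zero h0 N1
  rw [one_div, inv_pow, ← div_eq_mul_inv, Pl.ord_one] at k5
  rw [dsc, Pi.sub_apply, Pi.smul_apply, smul_eq_mul, dv_apply, k5] at k1
  rw [dsc, Pi.sub_apply, hJ Q Q' l] at k3
  rw [dsc, Pi.sub_apply, Pi.smul_apply, smul_eq_mul, hJ Q Q' l, dv_apply, (od Q Q' l).1,
    ord_tw Q' φ0 J0 h0 N1]
  push_cast at k1
  exact ⟨by linarith, by linarith⟩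

end Vale.Agent.P283R.Dg
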