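import Vale.Agent.P283R.Dg.St
import Vale.Agent.P283M.Br.Amp
import Vale.Agent.P283M.Br.Mdc
import Vale.Agent.P283M.Br.Mod

/-!
# P283R, block DG: from a complement to the places
-/

set_option linter.all false

open Set CategoryTheory AlgebraicGeometry

noncomputable section

namespace Vale.Agent.P283R.Dg

open Vale.Agent.P287D Vale.Agent.P283M Vale.Agent.P297Z
open Sl Sl.Var
open Vale.Agent.P283M.Br (Dom Is UnAt Base Dif Frm gam)

/-- **OFH** -/
theorem ofh : OFH := by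
  intro n N Y W ω B Λ φ h N1 φ0 h0 fr le hp hφ Q y hy hQ
  have c : (N : ℝ) ≠ 0 := Nat.cast_ne_zero.2 (by omega)
  refine ⟨?_, fun m g m0 hg => ?_⟩
  · obtain ⟨M, E, rfl, e⟩ := Br.mod Y.o Q y hQ
    have o := (Br.plc Y.o M.Y M.pull (Br.mdc Y.o M).1 E).2 Q e
    have := ((pair_iff _ _ ω Λ).1 hp).2.2 M E hy N φ (by omega) (hφ _ hy)
    rw [fr _ _ E Q e o, o] at this
    rw [dsc, Pi.sub_apply, Pi.smul_apply, smul_eq_mul, dv_apply,
      Pl.ord_div _ φ0 (pow_ne_zero N h0), Pl.ord_pow]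
    push_cast
    have k : (N : ℝ)⁻¹ * (Q.ord φ - N * Q.ord h) = Q.ord φ / N - Q.ord h := by field_simp
    rw [k]
    have t : (0 : ℝ) < 1 + (cn Y.K n Q + Q.ord h - Q.ord φ / N) := this
    linarith
  · have a0 := pow_ne_zero m φ0
    have b0 := pow_ne_zero N hg.1
    have r : RegAt (φ ^ m / g ^ N) y := Br.har Y.o _ y fun E hE => by
      obtain ⟨P, -, e⟩ := Br.pl_of (X := Y.o) Br.plc E
      have a : (Stm.Var.ord (V := Y.o) φ E : ℚ) = N * logCan ω Λ E := (hφ y hy).2 E hE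
      have b : (Stm.Var.ord (V := Y.o) g E : ℚ) = m * logCan ω B E := hg.2 E hE
      have l := le E (hE.mem_open W.isOpen hy)
      rw [e] at a b ⊢
      rw [Pl.ord_div _ a0 b0, Pl.ord_pow, Pl.ord_pow]
      have : (0 : ℚ) ≤ m * P.ord φ - N * P.ord g := by
        have l' : logCan ω B E ≤ logCan ω Λ E := add_le_add_right l _
        have : (0 : ℚ) ≤ m * N * (logCan ω Λ E - logCan ω B E) :=
          mul_nonneg (by positivity) (sub_nonneg.2 l')
        rw [a, b]
        linarith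
      exact_mod_cast this
    have s : 0 ≤ Q.ord (φ ^ m / g ^ N) := Pl.ord_nonneg_of_mem _ (hQ _ r).1
    rw [Pl.ord_div _ a0 b0, Pl.ord_pow, Pl.ord_pow] at s
    have s' : (0 : ℝ) ≤ m * Q.ord φ - N * Q.ord g := by exact_mod_cast s
    have d : (0 : ℝ) < m := Nat.cast_pos.2 m0
    have d' : (0 : ℝ) < N := Nat.cast_pos.2 (by omega)
    rw [div_le_iff₀ d, inv_mul_eq_div, div_mul_eq_mul_div, le_div_iff₀ d']
    linarith

end Vale.Agent.P283R.Dg
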