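import Vale.Agent.P283R.Dg.St
import Vale.Agent.P287D.Iso.Kap
import Vale.Agent.P287D.Cb.Kap

/-!
# P283R, block DG: transport along an isomorphism of function fields
-/

set_option linter.all false

namespace Vale.Agent.P283R.Dg

open Vale.Agent.P287D

theorem trn : TRN := by
  intro n L L' _ _ _ _ e hL
  have h := Semi.of_alg e
  refine ⟨h.ff_iff.1 hL, fun Q => ⟨h.pl.symm Q, h.lies_iff.2 (h.pl.apply_symm_apply Q).symm⟩,
    fun Q' => ⟨_, h.lies Q'⟩, fun Q Q' l => ?_, ?_⟩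
  · obtain rfl := h.lies_iff.1 l
    exact ⟨h.ord_pl Q', fun y => (congrFun (h.pb_kap y) _).symm.trans (h.pb_pl _ _)⟩
  · obtain ⟨f, f0, k⟩ := h.cn_of (n := n) fun a P => Cb.exists_ad a P
    obtain ⟨g, rfl⟩ := h.sur f
    have g0 : g ≠ 0 := fun z => f0 (by rw [z, map_zero])
    refine ⟨g⁻¹, inv_ne_zero g0, fun Q Q' l => ?_⟩
    obtain rfl := h.lies_iff.1 l
    have := congrFun k (h.pl Q')
    rw [h.pb_pl, Pi.add_apply, dv_apply, h.ord_pl] at this
    rw [P297Z.Pl.ord_inv, Int.cast_neg]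
    linarith

end Vale.Agent.P283R.Dg
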