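import Vale.Agent.P283R.Dg.On
import Vale.Agent.P283R.Dg.Trn
import Vale.Agent.P283R.Dg.Ofh
import Vale.Agent.P283R.Dg.Bk
import Vale.Agent.P283M.Br.Bas

/-!
# P283R, block DG: complements pass to the birational models below
-/

open Set CategoryTheory AlgebraicGeometry

noncomputable section

namespace Vale.Agent.P283R.Sl

open Vale.Agent.P287D Vale.Agent.P283M Vale.Agent.P297Z Var
open Vale.Agent.P283M.Br (Dom Is UnAt Frm)
open Vale.Agent.P283M.Am (pl pl_germ pl_reg mem_reg exists_dom)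
open Vale.Agent.P289.H219 (cst app_cst germ_cst)

/-- **BIRS** -/
theorem birs : BIRS := by
  intro d N X X' Z f f' ω ω' B B' z d1 N1 dm w0 w0' hB hB' hf hf' _ ⟨q, cq, bl⟩
    ⟨U, Λ, φ, zU, le, hΛ, lq⟩
  obtain ⟨n, rfl⟩ : ∃ n, d = n + 1 := ⟨d - 1, by omega⟩
  obtain ⟨_, ⟨V, hV, rfl⟩, zV, VU⟩ :=
    Z.X.isBasis_affineOpens.exists_subset_of_mem_open zU U.isOpen
  have hV : IsAffineOpen V := hV
  have zV : z ∈ V := zV
  have VU : ∀ x ∈ pre f' V, x ∈ pre f' U := fun x hx => VU hx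
  obtain ⟨x₀, e₀⟩ := hf.2.2.1.surj z
  obtain ⟨x₁, e₁⟩ := hf'.2.2.1.surj z
  have m₀ : f x₀ ∈ V := e₀ ▸ zV
  have m₁ : f' x₁ ∈ V := e₁ ▸ zV
  have : Nonempty ↑(f ⁻¹ᵁ V) := ⟨⟨x₀, m₀⟩⟩
  have : Nonempty ↑(f' ⁻¹ᵁ V) := ⟨⟨x₁, m₁⟩⟩
  have : Nonempty V := ⟨⟨z, zV⟩⟩
  have := hf'.2.1
  have : AlgebraicGeometry.IsNoetherian X.X := Am.noeth X.o
  have : AlgebraicGeometry.IsNoetherian X'.X := Am.noeth X'.o
  have qp : ∀ a, q (pl f' V a) = pl f V a := fun a => by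
    rw [← pl_germ m₀, ← pl_germ m₁]
    exact cq x₀ x₁ _ _ ((P289.H594.toK_germ V _ m₀ a).trans (P289.H594.toK_germ V _ m₁ a).symm)
  have pc : ∀ {Y : Var} (g : Y.X ⟶ Z.X) [Nonempty ↑(g ⁻¹ᵁ V)], g ≫ Z.str = Y.str → ∀ c,
      pl g V (cst Z.o.str V c) = algebraMap ℂ Y.K c := fun {Y} g _ hg c => by
    change Y.X.germToFunctionField _ ((g.app V).hom (cst Z.o.str V c)) =
      P289.constants Y.o.str c
    rw [app_cst, germ_cst]
    exact congrArg (fun s => P289.constants s c) hg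
  have qc : ∀ c, q (algebraMap ℂ X'.K c) = algebraMap ℂ X.K c := fun c => by
    rw [← pc f' hf'.1, qp, pc f hf.1]
  let e : X'.K ≃ₐ[ℂ] X.K := { q with commutes' := qc }
  have hK : FF X.K (n + 1) := Br.ffd X.o _ dm
  obtain ⟨hK', up, -, od, J, J0, hJ⟩ := Dg.trn _ _ _ e hK
  obtain ⟨h, h0, fr⟩ := Br.frm X.o _ hK ω w0
  obtain ⟨h', h0', fr'⟩ := Br.frm X'.o _ hK' ω' w0'
  have φ0 : φ ≠ 0 := (lq x₁ (VU _ m₁)).1
  have ψ0 : φ * (J / h') ^ N ≠ 0 := mul_ne_zero φ0 (pow_ne_zero N (div_ne_zero J0 h0'))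
  have key : ∀ (Q : Pl X.K) (y : Pt X.X), y ∈ pre f V → Dom (X := X.o) Q.ring y →
      ∃ (Q' : Pl X'.K) (x : Pt X'.X), (∀ a, a ∈ Q'.ring ↔ q a ∈ Q.ring) ∧
        (∀ a, Q.ord (q a) = Q'.ord a) ∧ x ∈ pre f' U ∧ Dom (X := X'.o) Q'.ring x ∧
        dsc (n + 1) ((N : ℝ)⁻¹ • dv (q (φ * (J / h') ^ N))) Q =
          cn X'.K (n + 1) Q' + Q'.ord h' - (N : ℝ)⁻¹ * Q'.ord φ := fun Q y hy dy => by
    obtain ⟨Q', l⟩ := up Q
    have l' : ∀ a, a ∈ Q'.ring ↔ q a ∈ Q.ring := l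
    have o : ∀ a, Q.ord (q a) = Q'.ord a := (od Q Q' l).1
    obtain ⟨x, hx, dx⟩ := exists_dom hV Q'.ring fun a => (l' _).2 (by
      rw [qp]
      exact (dy _ (mem_reg.1 (pl_reg f V a) y hy)).1)
    refine ⟨Q', x, l', o, VU x hx, Br.dom_B (X := X'.o) dx, ?_⟩
    rw [dsc, Pi.sub_apply, Pi.smul_apply, smul_eq_mul, dv_apply, o, hJ Q Q' l,
      Dg.ord_tw Q' φ0 J0 h0' N1]
    ring
  refine (has_iff f ω B N z).2 (P283R.Br.cpl (X := X.o) (Z := Z.o) hK fr h0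
    (fun E => hB.1 E trivial) zV N1 ((map_ne_zero q).2 ψ0) (fun E a (P : Pl X.K) b => ?_)
    fun y a (P : Pl X.K) b => ?_)
  · obtain ⟨P', x, l, o, hx, dx, k⟩ := key P E.1 a b
    obtain ⟨P₁, is, o₁⟩ := Br.pl_of (X := X.o) Br.plc E
    obtain rfl := P283R.Br.pl_eq is b
    obtain ⟨m, g, m0, hg⟩ := hB'.2.1 x trivial
    have k1 := (Dg.ofh _ N X' _ ω' B' Λ φ h' N1 φ0 h0' fr' le hΛ lq P' x hx dx).2 m g m0 hg
    have k2 := bl E x m g (fun a ha => (is _).1 ((l a).1 (dx a ha).1)) hg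
    have o₂ : ∀ a, ord (q a) E = P'.ord a := fun a => (o₁ _).trans (o a)
    have k3 : (formOrd ω' q E : ℝ) = cn X'.K (n + 1) P' + P'.ord h' :=
      fr' X.o q E P' (fun a => (l a).trans (is _)) o₂
    have k4 : (m : ℝ) * (formOrd ω' q E + (B.coeff E : ℝ)) ≤ P'.ord g := by
      rw [← o₂]
      exact_mod_cast k2
    have m1 : (0 : ℝ) < m := Nat.cast_pos.2 m0
    rw [div_le_iff₀ m1] at k1
    have k5 := le_of_mul_le_mul_left ((k4.trans k1).trans_eq (mul_comm _ _)) m1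
    refine k.trans_le ?_
    show _ ≤ -(B.coeff E : ℝ)
    linarith
  · obtain ⟨P', x, -, -, hx, dx, k⟩ := key P y a b
    have k1 := (Dg.ofh _ N X' _ ω' B' Λ φ h' N1 φ0 h0' fr' le hΛ lq P' x hx dx).1
    exact k1.trans_eq (((P283R.Br.dsc_eq (X := X'.o) N1 φ0 h0' P').trans
      (by rw [div_eq_inv_mul]; rfl)).trans k.symm)

end Vale.Agent.P283R.Sl
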