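import Vale.Agent.P287D.Ti.Plt
import Vale.Agent.P287D.Va.Fld

/-!
# P283R, block DG: a function has finitely many critical values
-/

set_option linter.all false

open Set Filter Topology
open Vale.Agent.P297 (Place)
open Vale.Agent.P285N.Brep (jac Fr)
open Vale.Agent.P277Z Vale.Agent.P277Z.FI Vale.Agent.P277Z.F5

noncomputable section

namespace Vale.Agent.P283R.Dg.Cr

open Vale.Agent.P287D Vale.Agent.P287D.Ba Vale.Agent.P287D.Cb

variable {n : ℕ} {K : Type} [Field K] [Algebra ℂ K]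

/-- an element is constant or a member of a transcendence basis -/
theorem ext_basis (h : Algebra.trdeg ℂ K = n) (x : K) : (∃ c, x = algebraMap ℂ K c) ∨
    ∃ (u : Fin n → K) (i : Fin n), u i = x ∧ AlgebraicIndependent ℂ u := by
  by_cases a : IsAlgebraic ℂ x
  · exact .inl ((minpoly.mem_range_of_degree_eq_one ℂ x (IsAlgClosed.degree_eq_one_of_irreducible ℂ
      (minpoly.irreducible a.isIntegral))).imp fun _ => Eq.symm)
  obtain ⟨s, s1, hs⟩ := exists_isTranscendenceBasis_superset (R := ℂ) (s := {x})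
    ((algebraicIndependent_singleton_iff (x := fun z : ({x} : Set K) => id (z : K)) ⟨x, rfl⟩).2 a)
  have c := hs.cardinalMk_eq_trdeg
  rw [h, ← Cardinal.mk_fin, Cardinal.eq] at c
  obtain ⟨e⟩ := c
  exact .inr ⟨fun i => e.symm i, e ⟨x, s1 rfl⟩, by simp, hs.1.comp _ e.symm.injective⟩

variable {y : Fin (n + 1) → K} {D : Fin (n + 1) → Derivation ℂ K K} {t : K}

/-- the function is constant along a logarithmically critical place -/
theorem cst (h : Fr y D) {P : Pl K} (ht : t ∈ P.ring) (hm : ∀ j, Mx P (y j * D j t)) :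
    ∃ c, Mx P (t - algebraMap ℂ K c) := by
  classical
  have hK := ff_of h
  rcases ext_basis (trdeg_κ hK P) (P.rd t) with ⟨c, e⟩ | ⟨v, i, e, hv⟩
  · exact ⟨c, (Cb.rd_eq_zero (sub_mem ht (P.con c))).1 (by
      rw [Cb.rd_sub ht (P.con c), Cb.rd_const, e, sub_self])⟩
  choose u h1 h2 using fun j => Cb.rd_surj (v j)
  have a : Ada P P.t (Function.update u i t) := ⟨P.ord_t, fun j => by
      by_cases k : j = i
      · rw [k, Function.update_self]; exact ht
      · rw [Function.update_of_ne k]; exact h1 j, by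
    rwa [show (fun j => P.rd (Function.update u i t j)) = v from funext fun j => by
      by_cases k : j = i
      · rw [k, Function.update_self, e]
      · rw [Function.update_of_ne k, h2]]⟩
  obtain ⟨E, hE⟩ := a.ad hK
  have l : Lg P (E i.succ) := (a.lf hE).lg i.succ
  have o := hE.fr.dual i.succ i.succ
  rw [if_pos rfl, Fin.cons_succ, Function.update_self, CnA.der_eq h] at o
  refine (not_mx_one (P := P) (o ▸ Finset.sum_induction _ (Mx P) (fun _ _ => Mx.add) Cb.mx_zero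
    fun j _ => ?_)).elim
  have y0 : y j ≠ 0 := (P285N.Ct.ai_of_dual h.dual).ne_zero j
  rw [show E i.succ (y j) * D j t = E i.succ (y j) / y j * (y j * D j t) by field_simp]
  exact (hm j).mul (l _)

theorem const_of (h : Fr y D) (h0 : ∀ j, D j t = 0) : ∃ c, t = algebraMap ℂ K c := by
  have hK := ff_of h
  refine (ext_basis hK.trdeg t).resolve_right fun ⟨u, i, e, hu⟩ => ?_
  obtain ⟨E, hE⟩ := fr_of hK hu
  have o := hE.dual i i
  rw [if_pos rfl, e, CnA.der_eq h] at o
  simp [h0] at o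

theorem mx_const {P : Pl K} {c c' : ℂ} (a : Mx P (t - algebraMap ℂ K c))
    (b : Mx P (t - algebraMap ℂ K c')) : c = c' := by
  have k := b.sub a
  rw [sub_sub_sub_cancel_left, ← map_sub] at k
  have := (Cb.rd_eq_zero k.mem).2 k
  rw [Cb.rd_const] at this
  exact sub_eq_zero.1 ((map_eq_zero _).1 this)

/-- a place has one value of a function -/
theorem fin_val {T : Set (Pl K)} (hT : T.Finite) (t : K) :
    {c : ℂ | ∃ P ∈ T, Mx P (t - algebraMap ℂ K c)}.Finite := by
  rw [show {c : ℂ | ∃ P ∈ T, Mx P (t - algebraMap ℂ K c)} =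
    ⋃ P ∈ T, {c | Mx P (t - algebraMap ℂ K c)} from by ext; simp]
  exact hT.biUnion fun P _ => Subsingleton.finite fun _ a _ b => mx_const a b

theorem mem_of_mx {P : Pl K} {c : ℂ} (a : Mx P (t - algebraMap ℂ K c)) : t ∈ P.ring := by
  simpa using add_mem a.mem (P.con c)

/-- **critical values**, logarithmic form -/
theorem crit1 (h : Fr y D) (t : K) : ∃ C : Set ℂ, C.Finite ∧ ∀ c ∉ C, ∀ R : Pl K,
    t - algebraMap ℂ K c ≠ 0 → 0 < R.ord (t - algebraMap ℂ K c) → ∃ j, ¬ Mx R (y j * D j t) := by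
  classical
  have hK := ff_of h
  by_cases h0 : ∀ j, D j t = 0
  · obtain ⟨c', rfl⟩ := const_of h h0
    refine ⟨∅, finite_empty, fun c _ R a b => (a ?_).elim⟩
    rw [mx_const (P := R) (mx_iff.2 (.inr b)) (c' := c') (by rw [sub_self]; exact Cb.mx_zero),
      sub_self]
  obtain ⟨j₀, h0⟩ := not_forall.1 h0
  have z : Nz (Finset.univ.image fun j => y j * D j t) :=
    ⟨_, Finset.mem_image_of_mem _ (Finset.mem_univ j₀),
      mul_ne_zero ((P285N.Ct.ai_of_dual h.dual).ne_zero j₀) h0⟩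
  obtain ⟨s, κ, T, g, l, -, -, d⟩ := exists_ls hK finite_empty
    (toFinite {mx (Finset.univ.image fun j => y j * D j t), pld t})
    (forall_mem_insert.2 ⟨mx_mem_Car _, forall_eq.2 (pld_car t)⟩)
  refine ⟨_, fin_val T.finite_toSet t, fun c hc R a b => by_contra fun k => hc ?_⟩
  have k' := fun j => not_not.1 (not_exists.1 k j)
  obtain ⟨f, f1, f0, f2⟩ := R.exists_mz z
  obtain ⟨j, -, rfl⟩ := Finset.mem_image.1 f1
  have w : mx (Finset.univ.image fun j => y j * D j t) R < 0 := by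
    rw [mx_apply, f2]
    exact_mod_cast neg_neg_of_pos ((mx_iff.1 (k' j)).resolve_left f0)
  rw [l.exp_apply (d _ (.inl rfl)) R] at w
  obtain ⟨P, p, q⟩ : ∃ P ∈ T, mx (Finset.univ.image fun j => y j * D j t) P * g P R < 0 :=
    by_contra fun e => w.not_ge (Finset.sum_nonneg fun P p => not_lt.1 fun q => e ⟨P, p, q⟩)
  have g0 := l.nn (l.on P p) R
  have g1 : 0 < g P R := g0.lt_of_ne fun e => by
    rw [← show (0 : ℝ) = g P R from e] at q
    simp at q
  have m : P.mz (Finset.univ.image fun j => y j * D j t) < 0 := by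
    have := neg_of_mul_neg_left q g0
    rw [mx_apply] at this
    exact_mod_cast this
  have cl := l.cle (l.on P p) g1 (d _ (.inr rfl)).1
  have tR := mem_of_mx (mx_iff.2 (.inr b))
  have tP : t ∈ P.ring := by_contra fun e =>
    pld_pos.1 (cl _ (.refl (pld_nonneg t)) (pld_pos.2 e)) tR
  obtain ⟨c', hc'⟩ := cst h tP fun j => mx_iff.2 (or_iff_not_imp_left.2 fun e => by
    have := P.le_mz (Finset.mem_image_of_mem (fun j => y j * D j t) (Finset.mem_univ j)) e
    omega)
  refine ⟨P, p, mx_const (P := R) (mx_iff.2 (.inr b)) (c' := c') ?_ ▸ hc'⟩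
  refine mx_iff.2 (or_iff_not_imp_left.2 fun e => ?_)
  have sc : Sec (mx {1, t}) (t - algebraMap ℂ K c') := sec_of_span (sub_mem
    (Submodule.subset_span (by simp)) (by
      rw [Algebra.algebraMap_eq_smul_one]
      exact Submodule.smul_mem _ _ (Submodule.subset_span (by simp))))
  rw [mx_pld] at sc
  have r := cl (dv (t - algebraMap ℂ K c') + pld t) ⟨sc.resolve_left e, by
    rw [add_sub_cancel_right]; exact dv_mem_Prn _⟩ (by
      rw [Pi.add_apply, pld_eq_zero.2 tP, add_zero, dv_apply]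
      exact_mod_cast (mx_iff.1 hc').resolve_left e)
  rw [Pi.add_apply, pld_eq_zero.2 tR, add_zero, dv_apply] at r
  exact_mod_cast r

/-- **critical values** in a frame -/
theorem crit0 (h : Fr y D) (t : K) : ∃ C : Set ℂ, C.Finite ∧ ∀ c ∉ C, ∀ R : Pl K,
    (∀ j, y j ∈ R.ring) → (∀ j, D j t ∈ R.ring) → t - algebraMap ℂ K c ≠ 0 →
    0 < R.ord (t - algebraMap ℂ K c) → ∃ j, R.ord (y j) = 0 ∧ D j t ≠ 0 ∧ R.ord (D j t) = 0 := by
  obtain ⟨C, a, b⟩ := crit1 h t
  refine ⟨C, a, fun c hc R h1 h2 h3 h4 => (b c hc R h3 h4).imp fun j k => ?_⟩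
  have k1 : ¬ Mx R (y j) := fun e => k (mul_comm (D j t) _ ▸ e.mul (h2 j))
  have k2 : ¬ Mx R (D j t) := fun e => k (e.mul (h1 j))
  rw [mx_iff, not_or, not_lt] at k1 k2
  exact ⟨le_antisymm k1.2 (P297Z.Pl.ord_nonneg_of_mem _ (h1 j)), k2.1,
    le_antisymm k2.2 (P297Z.Pl.ord_nonneg_of_mem _ (h2 j))⟩

theorem der_mem {M : Mdl (n + 1) 0 K} (hM : M.Proj) {x : M.F} (hx : M.Coord x y) (h : Fr y D)
    (j : Fin (n + 1)) {f : K} (hf : f ∈ M.O x) : D j f ∈ M.O x := by
  classical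
  rw [← CnA.jac_upd h.dual]
  refine M.jac_mem hx (jac_fr hM h _) fun i => ?_
  by_cases k : i = j
  · rw [k, Function.update_self]; exact hf
  · rw [Function.update_of_ne k]; exact (hx.1 i).1

/-- **critical values** on a model with normal crossings -/
theorem crit {M : Mdl (n + 1) 0 K} (hM : M.Proj) {U : Set (Place K)} (hU : U.Finite)
    (sU : M.Snc U) (t : K) (ht : ∀ x, t ∈ M.O x ∨ t⁻¹ ∈ M.O x) :
    ∃ C : Set ℂ, C.Finite ∧ ∀ c ∉ C, ∀ R : Pl K, t - algebraMap ℂ K c ≠ 0 →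
      0 < R.ord (t - algebraMap ℂ K c) → ∃ (x : M.F) (y : Fin (n + 1) → K)
        (D : Fin (n + 1) → Derivation ℂ K K) (j : Fin (n + 1)), M.Ct x R.toPlace ∧ M.Coord x y ∧
        Fr y D ∧ (∀ P ∈ U, M.On x P → ∃ i, M.Gn x P (y i) ∧ (i = j → R.ord (y i) = 0)) ∧
        D j t ≠ 0 ∧ R.ord (D j t) = 0 := by
  have hL := hloc hM
  choose y y1 y2 using sU.2
  choose D D1 D2 using fun x => fr_coord hM (y1 x)
  choose C C1 C2 using fun x => crit0 (D1 x) t
  have hV : ∀ x₀ : M.F, ∀ᶠ x in 𝓝 x₀,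
      (M.Coord x fun i => y x₀ i - algebraMap ℂ K (M.val (y x₀ i) x)) ∧
      ∀ P ∈ U, M.On x P → ∃ i, M.Gn x P (y x₀ i) := fun x₀ =>
    (M.coord_shift (y1 x₀)).and ((eventually_all_finite hU).2 fun P hP => by
      by_cases h : M.On x₀ P
      · obtain ⟨i, hi⟩ := y2 x₀ P hP h
        exact (hL.near_gn x₀ P _ hi).mono fun x hx h' => ⟨i, hx.1 h'⟩
      · exact (hL.near x₀ P).mono fun x hx h' => absurd (hx h') h)
  have : CompactSpace M.F := isCompact_iff_compactSpace.1 M.cpt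
  obtain ⟨J, hJ⟩ := CompactSpace.elim_nhds_subcover _ hV
  refine ⟨⋃ x ∈ J, C x, J.finite_toSet.biUnion fun x _ => C1 x, fun c hc R a b => ?_⟩
  obtain ⟨x, hx⟩ := ct hM R
  obtain ⟨x₀, h₀, v1, v2⟩ := mem_iUnion₂.1 (hJ.ge (mem_univ x))
  have fr : Fr (fun i => y x₀ i - algebraMap ℂ K (M.val (y x₀ i) x)) (D x₀) :=
    fr_of_dual hM fun i j => by rw [map_sub, Derivation.map_algebraMap, sub_zero, (D1 x₀).dual]
  have tR := mem_of_mx (mx_iff.2 (.inr b))
  obtain ⟨j, j1, j2⟩ := C2 x₀ c (fun e => hc (mem_iUnion₂.2 ⟨x₀, h₀, e⟩)) R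
    (fun j => by simpa using add_mem (hx _ (v1.1 j).1) (R.con (M.val (y x₀ j) x))) (fun j => by
      rcases ht x with e | e
      · exact hx _ (der_mem hM v1 fr j e)
      · have k : D x₀ j t = -t ^ 2 * D x₀ j t⁻¹ := by
          simpa using (D x₀ j).leibniz_inv t⁻¹
        rw [k]
        exact mul_mem (neg_mem (pow_mem tR 2)) (hx _ (der_mem hM v1 fr j e))) a b
  refine ⟨x, _, _, j, hx, v1, fr, fun P hP o => (v2 P hP o).imp fun i hi => ?_, j2⟩
  simp only [hi.van, map_zero, sub_zero]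
  exact ⟨hi, fun e => e ▸ j1⟩

end Vale.Agent.P283R.Dg.Cr
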