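import Vale.Agent.P283R.Dg.Pls
import Vale.Agent.P283R.Dg.Trn
import Vale.Agent.P283R.Az.Fr87
import Vale.Agent.P283R.Az.Loc87

/-!
# P283R, block DG: adjunction to the zero scheme of a function
-/

set_option linter.all false

open Set CategoryTheory AlgebraicGeometry
open Vale.Agent.P289 Vale.Agent.P289.H219 Vale.Agent.P270L Vale.Agent.P283M.Am Vale.Agent.P299.G

noncomputable section

namespace Vale.Agent.P283R.Dg

open Vale.Agent.P287D Vale.Agent.P283M Vale.Agent.P283M.Br Vale.Agent.P283M.Stm.Var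
open Vale.Agent.P297Z Vale.Agent.P283R.Br Vale.Agent.P283R.Az

namespace D87

/-- the adjoint in a frame -/
theorem tier {K : Type} [Field K] [Algebra ℂ K] {n m : ℕ} (hK : FF K (n + 1)) (P : Pl K)
    {t G h : K} {z : Fin n → K} (ht : P.ord t = 1) (G0 : G ≠ 0) (h0 : h ≠ 0) (m0 : 0 < m)
    (hz : ∀ k, z k ∈ P.ring) (hf : P283R.Frm fun k => P.rd (z k))
    (hP : dsc (n + 1) ((m : ℝ)⁻¹ • dv G - dv h) P = 0) :
    ∃ w, w ≠ 0 ∧ P.ord w = 0 ∧ (∀ R : Pl K, (R.ord w : ℝ) = R.ord G +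
      m * (kap (Fin.cons t z : Fin (n + 1) → K) R - cn K (n + 1) R - R.ord h)) ∧
      ∀ Q, dsc n (adj n P ((m : ℝ)⁻¹ • dv G - dv h + dv t)) Q =
        kap (fun k => P.rd (z k)) Q - Q.ord (P.rd w) / m := by
  have t1 : P.ord t ≠ 0 := by omega
  obtain ⟨⟨D, hD⟩, -, a, -⟩ := H.adf0 hK P t1 hz hf
  obtain ⟨J, J0, e⟩ := Aj.kap_cn hD
  have m' : (m : ℝ) ≠ 0 := Nat.cast_ne_zero.2 m0.ne'
  have w0 := div_ne_zero (mul_ne_zero G0 (pow_ne_zero m J0)) (pow_ne_zero m h0)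
  have o : ∀ R : Pl K, (R.ord (G * J ^ m / h ^ m) : ℝ) = R.ord G +
      m * (kap (Fin.cons t z : Fin (n + 1) → K) R - cn K (n + 1) R - R.ord h) := fun R => by
    rw [Pl.ord_div _ (mul_ne_zero G0 (pow_ne_zero m J0)) (pow_ne_zero m h0),
      Pl.ord_mul _ G0 (pow_ne_zero m J0), Pl.ord_pow, Pl.ord_pow, e, Pi.add_apply, dv_apply]
    push_cast
    ring
  have oP : P.ord (G * J ^ m / h ^ m) = 0 := by
    have := o P
    simp only [dsc, Pi.sub_apply, Pi.add_apply, Pi.smul_apply, dv_apply, smul_eq_mul, ht] at a hP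
    have k : (P.ord G : ℝ) = m * (cn K (n + 1) P + P.ord h) := by
      field_simp at hP
      linarith
    push_cast at a
    rw [k, show kap (Fin.cons t z : Fin (n + 1) → K) P = 0 by linarith] at this
    exact_mod_cast this.trans (show _ = (0 : ℝ) by ring)
  refine ⟨_, w0, oP, o, fun Q => ?_⟩
  have := (H.adf hK P (φ := t) (by omega) hz hf oP m (Γ := (m : ℝ)⁻¹ • dv G - dv h + dv t)
    (funext fun R => by
      simp only [Pi.sub_apply, Pi.add_apply, Pi.smul_apply, dv_apply, smul_eq_mul, o]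
      field_simp
      ring)).2.2.2.2 Q
  rw [ld] at this
  linarith

variable {S X : Stm.Var} {n m : ℕ}

theorem ex_prime (hK : FF S.K (n + 1)) : Nonempty S.PrimeDiv := by
  by_contra c
  have r : ∀ g x, RegAt (V := S) g x := fun g x => har S g x fun y => (c ⟨y⟩).elim
  obtain ⟨_, ⟨V, hV, rfl⟩, hx, -⟩ := S.X.isBasis_affineOpens.exists_subset_of_mem_open
    (Set.mem_univ (genericPoint S.X)) isOpen_univ
  obtain ⟨z, -, A, χ, b⟩ := F87.ex_bs hV hx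
  obtain ⟨y, hy, -⟩ := hK
  let a : A := ⟨y 0, (b.mem _).2 fun x _ => r _ x⟩
  have := (b.uz (a - algebraMap ℂ A (χ a))).2 ⟨fun e => hy.transcendental 0 (by
    rw [show y 0 = algebraMap ℂ S.K (χ a) from sub_eq_zero.1 e]
    exact isAlgebraic_algebraMap _), r _ _, r _ _⟩
  simp at this

variable {i : S.X ⟶ X.X} {t G h : X.K} {P : Pl X.K} {j : S.K →+* P.κ}
  {Ω : DForm ℂ X.K (n + 2)} {D : X.QDiv} {B : S.QDiv}

/-- the restriction of the boundary -/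
def Rs (i : S.X ⟶ X.X) (P : Pl X.K) (j : S.K →+* P.κ) (B : S.QDiv) (D : X.QDiv) : Prop :=
  ∀ y : S.PrimeDiv, ∃ (m : ℕ) (a : X.K) (a' : S.K), 0 < m ∧ RegAt a (y.1.map i) ∧
    j a' = P.rd a ∧ LocalEq D m a (y.1.map i) ∧ LocalEq B m a' y.1

theorem ord0 (z : Zr i t P j) {s : Pt S.X} {a : X.K} (r : RegAt a (s.map i)) (k : P.rd a ≠ 0) :
    P.ord a = 0 := by
  have d := mt (Bm.rd_zero_iff P (z.mem r)).2 k
  rw [not_or, not_lt] at d
  exact le_antisymm d.2 (Pl.ord_nonneg_of_mem _ (z.mem r))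

theorem zero (z : Zr i t P j) (hK : FF S.K (n + 1)) (rs : Rs i P j B D) {E : X.PrimeDiv}
    (p : Is (RingEquiv.refl X.K) E P) (e : E.1 = Pt.map i (genericPoint S.X)) : D E = 0 := by
  obtain ⟨y⟩ := ex_prime hK
  obtain ⟨m, a, a', m0, r, k, l, l'⟩ := rs y
  have := l.2 E (e ▸ (genericPoint_specializes y.1).map i.continuous)
  rw [show ord a E = P.ord a from (plc X X _ (fun _ => rfl) E).2 P p a,
    ord0 z r (k ▸ (map_ne_zero j).2 l'.1), Int.cast_zero] at this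
  exact (mul_eq_zero.1 this.symm).resolve_left (Nat.cast_ne_zero.2 m0.ne')

/-- the different vanishes -/
theorem prime (z : Zr i t P j) (hK : FF X.K (n + 2)) (rs : Rs i P j B D) (h0 : h ≠ 0)
    (fr : Br.Frm Ω h) (m0 : 0 < m) (hP : dsc (n + 2) ((m : ℝ)⁻¹ • dv G - dv h) P = 0)
    (y : S.PrimeDiv) (hG : LocalEq (logCan Ω D) m G (y.1.map i)) {Q : Pl P.κ} {Q' : Pl S.K}
    (l : Lies j Q Q') (q : Is (RingEquiv.refl S.K) y Q') :
    dsc (n + 1) (adj (n + 1) P ((m : ℝ)⁻¹ • dv G - dv h + dv t)) Q = -(B y : ℝ) := by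
  obtain ⟨v, v1, v2, v3, v4⟩ := F87.frame z hK y l q
  obtain ⟨w, w0, w1, w2, w3⟩ := tier hK P z.ord hG.1 h0 m0 v1 v2 hP
  obtain ⟨k, a, a', k0, r, e, la, la'⟩ := rs y
  have lw : LocalEq D m w (y.1.map i) := ⟨w0, fun E hE => by
    obtain ⟨R, p, o⟩ := pl_of plc E
    have b := hG.2 E hE
    rw [o, logCan] at b
    have b' : (R.ord G : ℝ) = m * (formOrd Ω (RingEquiv.refl X.K) E + (D E : ℝ)) := by
      exact_mod_cast b
    have c := w2 R
    rw [v4 E hE R p, b', fr _ _ E R p o] at c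
    rw [o, ← Rat.cast_inj (α := ℝ)]
    push_cast
    linarith⟩
  have u0 := div_ne_zero (pow_ne_zero k w0) (pow_ne_zero m la.1)
  have o : ∀ E : X.PrimeDiv, E.1 ⤳ y.1.map i → ord (w ^ k / a ^ m) E = 0 ∧
      ord (w ^ k / a ^ m)⁻¹ E = 0 := fun E hE => by
    obtain ⟨R, p, o⟩ := pl_of plc E
    have b := lw.2 E hE
    have c := la.2 E hE
    rw [o] at b c
    have : R.ord (w ^ k / a ^ m) = 0 := by
      rw [Pl.ord_div _ (pow_ne_zero k w0) (pow_ne_zero m la.1), Pl.ord_pow, Pl.ord_pow,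
        ← Int.cast_inj (α := ℚ)]
      push_cast
      rw [b, c]
      ring
    rw [o, o, Pl.ord_inv, this]
    exact ⟨rfl, rfl⟩
  have u : UnAt (w ^ k / a ^ m) (y.1.map i) :=
    ⟨u0, har X _ _ fun E hE => (o E hE).1.ge, har X _ _ fun E hE => (o E hE).2.ge⟩
  obtain ⟨g, -, g1, g2⟩ := z.dn u.2.1
  have g3 := q.dom.ord (g2.2 u)
  rw [← z.e_one l, g1] at g3
  have a0 : P.rd a ≠ 0 := e ▸ (map_ne_zero j).2 la'.1
  have mw := (Pl.ord_eq_zero_iff P.toPlace w0).1 w1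
  let ρ := Bm.rdh P { P.ring.toSubring with algebraMap_mem' := P.con } fun _ h => h
  have e1 : P.rd (w ^ k) = P.rd w ^ k := map_pow ρ ⟨w, mw.1⟩ k
  have e2 : P.rd (a ^ m) = P.rd a ^ m := map_pow ρ ⟨a, z.mem r⟩ m
  have e3 : P.rd (w ^ k / a ^ m) = P.rd w ^ k / P.rd a ^ m := by
    rw [eq_div_iff (pow_ne_zero m a0), ← e2, ← Bm.rd_mul P (z.mem u.2.1) (pow_mem (z.mem r) m),
      div_mul_cancel₀ _ (pow_ne_zero m la.1), e1]
  have r0 : P.rd w ≠ 0 := fun c => by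
    have := ((Bm.rd_zero_iff P mw.1).1 c).resolve_left w0
    omega
  rw [e3, Pl.ord_div _ (pow_ne_zero k r0) (pow_ne_zero m a0), Pl.ord_pow, Pl.ord_pow, ← e,
    z.e_one l] at g3
  have c := la'.2 y specializes_rfl
  rw [show ord a' y = Q'.ord a' from (plc S S _ (fun _ => rfl) y).2 Q' q a'] at c
  have c' : (Q'.ord a' : ℝ) = k * (B y : ℝ) := by exact_mod_cast c
  have g4 : (k : ℝ) * Q.ord (P.rd w) - m * Q'.ord a' = 0 := by exact_mod_cast g3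
  have m' : (m : ℝ) ≠ 0 := Nat.cast_ne_zero.2 m0.ne'
  have k' : (k : ℝ) ≠ 0 := Nat.cast_ne_zero.2 k0.ne'
  rw [w3, v3, show (Q.ord (P.rd w) : ℝ) = m * B y from mul_left_cancel₀ k' (by
    rw [c'] at g4; linarith), mul_div_cancel_left₀ _ m', zero_sub]

theorem mx_ov {K : Type} [Field K] [Algebra ℂ K] {s : Finset K} {g : K} (h : g ∈ s) (g0 : g ≠ 0)
    {R : Pl K} (k : ∀ a ∈ s, a / g ∈ R.ring) : mx s R = -(R.ord g : ℝ) := by
  have := R.mz_eq h g0 fun g' hg' h0 => by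
    have k := Pl.ord_nonneg_of_mem _ (k g' hg')
    rw [Pl.ord_div _ h0 g0] at k
    omega
  rw [mx_apply, this, Int.cast_neg]

theorem main {e : S.K ≃ₐ[ℂ] P.κ} {h' : S.K} {ω : DForm ℂ S.K (n + 1)} {W : X.X.Opens}
    {Γ : BD X.K} {t₁ t₂ : Finset X.K} (hK : FF X.K (n + 2)) (z : Zr i t P (e : S.K →+* P.κ))
    (rs : Rs i P (e : S.K →+* P.κ) B D) (h0 : h ≠ 0) (fr : Br.Frm Ω h) (h0' : h' ≠ 0)
    (fr' : Br.Frm ω h') (df : Dif (-logCan Ω D) m t₁ t₂ W) (eΓ : Γ = gam m t₁ t₂ h)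
    (hW : Pt.map i (genericPoint S.X) ∈ W) : dsc (n + 2) Γ P = 0 ∧
      ∀ (Q : Pl P.κ) (Q' : Pl S.K) (y : Pt S.X), Lies (e : S.K →+* P.κ) Q Q' → Dom Q'.ring y →
        y.map i ∈ W → ∀ (m' : ℕ) (g' : S.K), 0 < m' → LocalEq (logCan ω B) m' g' y →
          dsc (n + 1) (adj (n + 1) P (Γ + dv t)) Q =
            cn S.K (n + 1) Q' + Q'.ord h' - Q'.ord g' / m' := by
  classical
  have hκ := Bm.ff_κ hK P
  obtain ⟨hY, ex, ex', tr, -⟩ := trn (n + 1) S.K P.κ e hκ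
  have d0 : dsc (n + 2) Γ P = 0 := by
    obtain ⟨E, p, k⟩ := z.div
    rw [eΓ, coef har plc fr df (E := E) (k ▸ hW) p.dom, zero z hY rs p k]
    simp
  refine ⟨d0, fun Q Q' y l dm hy m' g' m0' hg' => ?_⟩
  obtain ⟨g₁, a₁⟩ := df.b1 _ hy
  obtain ⟨g₂, a₂⟩ := df.b2 _ hy
  have hG := localEq_neg plc (df.eq _ hy g₁ g₂ a₁ a₂)
  rw [neg_neg, inv_div] at hG
  let w := t₁.image (· / g₁) ∪ t₂.image (· / g₂)
  have rw' : ∀ a ∈ w, RegAt a (y.map i) := fun a ha => by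
    rcases Finset.mem_union.1 ha with k | k <;> obtain ⟨b, hb, rfl⟩ := Finset.mem_image.1 k
    exacts [a₁.2.2 b hb, a₂.2.2 b hb]
  have eq : ∀ R, Ov w R → Γ R = ((m : ℝ)⁻¹ • dv (g₁ / g₂) - dv h : BD X.K) R := fun R hR => by
    have b₁ := mx_ov a₁.1 a₁.2.1 fun a ha =>
      hR _ (Finset.mem_union_left _ (Finset.mem_image_of_mem _ ha))
    have b₂ := mx_ov a₂.1 a₂.2.1 fun a ha =>
      hR _ (Finset.mem_union_right _ (Finset.mem_image_of_mem _ ha))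
    simp only [eΓ, gam, Pi.sub_apply, Pi.neg_apply, Pi.smul_apply, smul_eq_mul, dv_apply, b₁, b₂,
      Pl.ord_div _ a₁.2.1 a₂.2.1]
    push_cast
    ring
  have oP : Ov w P := fun a ha => z.mem (rw' a ha)
  have cΓ : Γ ∈ Car X.K := eΓ ▸ gam_carQ.car
  have c0 : ((m : ℝ)⁻¹ • dv (g₁ / g₂) - dv h : BD X.K) ∈ Car X.K :=
    sub_mem (Submodule.smul_mem _ _ (dv_mem_Car _)) (dv_mem_Car _)
  have hP : dsc (n + 2) ((m : ℝ)⁻¹ • dv (g₁ / g₂) - dv h) P = 0 := by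
    rw [dsc, Pi.sub_apply, ← eq P oP]
    exact d0
  have e1 : adj (n + 1) P (Γ + dv t) Q =
      adj (n + 1) P ((m : ℝ)⁻¹ • dv (g₁ / g₂) - dv h + dv t) Q := by
    rw [add_comm Γ, add_comm _ (dv t), (a4 _ _ hK P _ (dv_mem_Car t) _ cΓ).1,
      (a4 _ _ hK P _ (dv_mem_Car t) _ c0).1, Pi.add_apply, Pi.add_apply,
      locres hK P w cΓ c0 eq oP Q fun a ha => by
        obtain ⟨b, b1, b2, -⟩ := z.dn (rw' a ha)
        exact b2 ▸ (l b).1 (dm b b1).1]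
  obtain ⟨v, v1, v2⟩ := Bm.exists_basis hK P
  obtain ⟨u, u0, u1, -, u3⟩ := tier hK P z.ord hG.1 h0 df.pos v1 (Cb.fr_of hκ v2.1) hP
  have r0 : P.rd u ≠ 0 := fun c => by
    have := ((Bm.rd_zero_iff P ((Pl.ord_eq_zero_iff P.toPlace u0).1 u1).1).1 c).resolve_left u0
    omega
  obtain ⟨u', eu⟩ := e.surjective (P.rd u)
  have u0' : u' ≠ 0 := fun c => r0 (by rw [← eu, c, map_zero])
  choose v' ev' using fun k => e.surjective (P.rd (v k))
  obtain ⟨J, J0, eJ⟩ := Cb.kap_cn hY (z := v') ((e.toAlgHom.algebraicIndependent_iff e.injective).1 (by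
    rw [show (e.toAlgHom ∘ v') = fun k => P.rd (v k) from funext ev']
    exact v2.1))
  have mR : (m : ℝ) ≠ 0 := Nat.cast_ne_zero.2 df.pos.ne'
  have G0 := div_ne_zero (mul_ne_zero u0' (pow_ne_zero m h0')) (pow_ne_zero m J0)
  have key : ∀ R R', Lies (e : S.K →+* P.κ) R R' →
      dsc (n + 1) (adj (n + 1) P ((m : ℝ)⁻¹ • dv (g₁ / g₂) - dv h + dv t)) R =
        cn S.K (n + 1) R' + R'.ord h' - R'.ord (u' * h' ^ m / J ^ m) / m := fun R R' k => by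
    rw [u3, ← funext ev', (tr R R' k).2, ← eu, (tr R R' k).1, eJ, Pi.add_apply, dv_apply,
      Pl.ord_div _ (mul_ne_zero u0' (pow_ne_zero m h0')) (pow_ne_zero m J0),
      Pl.ord_mul _ u0' (pow_ne_zero m h0'), Pl.ord_pow, Pl.ord_pow]
    push_cast
    field_simp
    ring
  have lq : LocalEq (logCan ω B) m (u' * h' ^ m / J ^ m) y := ⟨G0, fun E hE => by
    obtain ⟨R', q, o⟩ := pl_of plc E
    obtain ⟨R, k⟩ := ex' R'
    have a := prime z hK rs h0 fr df.pos hP E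
      ⟨hG.1, fun E' hE' => hG.2 E' (hE'.trans (hE.map i.continuous))⟩ k q
    rw [key R R' k] at a
    rw [o, logCan, ← Rat.cast_inj (α := ℝ)]
    push_cast
    rw [fr' _ _ E R' q o]
    field_simp at a
    linarith⟩
  have b := loc_uniq har plc lq hg' dm
  have mR' : (m' : ℝ) ≠ 0 := Nat.cast_ne_zero.2 m0'.ne'
  rw [dsc, Pi.sub_apply, e1, ← Pi.sub_apply, ← dsc, key Q Q' l]
  congr 1
  field_simp
  linarith

theorem zr_mk [IsPreimmersion i] {e : S.K ≃ₐ[ℂ] P.κ} (t0 : t ≠ 0) (o : P.ord t = 1)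
    (c : (Pt.map i (genericPoint S.X)).CodimOne) (d : Dom P.ring (Pt.map i (genericPoint S.X)))
    (vl : ∀ (s : Pt S.X) (b : St X.X (s.map i)),
      e (toRat (val (i.stalkMap s) b)) = P.rd (toRat b))
    (k : ∀ s : Pt S.X, ∃ a : St X.X (s.map i), toRat a = t ∧
      ∀ b, val (i.stalkMap s) b = 0 ↔ a ∣ b) : Zr i t P (e : S.K →+* P.κ) := by
  obtain ⟨P₁, p, -⟩ := pl_of plc (X := X) ⟨_, c⟩
  obtain rfl := pl_eq p d
  have r : ∀ s : Pt S.X, RegAt t (s.map i) := fun s => let ⟨a, e, _⟩ := k s; ⟨a, e⟩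
  refine ⟨e.surjective, e.commutes, t0, ⟨_, p, rfl⟩, vl, ?_, ?_, r,
    (Bm.rd_zero_iff P₁ ((p t).2 (r _))).2 (.inr (by rw [o]; norm_num))⟩
  · rintro s _ ⟨b', rfl⟩
    obtain ⟨b, rfl⟩ := i.stalkMap_surjective s b'
    exact ⟨_, ⟨b, rfl⟩, vl s b⟩
  · rintro s _ ⟨b, rfl⟩ h
    obtain ⟨a', e', k'⟩ := k s
    rw [← vl, map_eq_zero] at h
    obtain ⟨c, rfl⟩ := (k' b).1 ((map_eq_zero_iff (toK s) (toK_injective s)).1 h)
    refine ⟨c, ?_⟩
    rw [eq_div_iff t0, ← e', mul_comm]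
    exact (map_mul (toK _) a' c).symm

end D87

open D87 in
/-- **DIC** -/
theorem dic87 : DIC := by
  intro n T Y ι P e t h h' Ω D ω B W Γ hK hz pe rs h0 fr h0' fr' ⟨m, t₁, t₂, df, eΓ⟩ hW
  have := hz.1
  have vl := fun s b => ((pe.rst _ _).1 (pe.stk s b)).2
  exact main (S := Y.o) (X := T.o) hK (zr_mk (S := Y.o) (X := T.o) hz.2.2.1 pe.one pe.cod pe.dom vl
    fun s => (hz.2.2.2.2.2 s).2) (fun y => let ⟨k, a, k0, l, l'⟩ := rs y
      ⟨k, _, _, k0, ⟨a, rfl⟩, vl _ a, l, l'⟩) h0 fr h0' fr' df eΓ hW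

end Vale.Agent.P283R.Dg
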