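import Vale.Agent.P283R.Dg.All0
import Vale.Agent.P283R.Dg.Btp
import Vale.Agent.P283R.Dg.Dic87
import Vale.Agent.P283R.Dg.Bir

/-!
# P283R, block DG: klt complements are open in families
-/

open CategoryTheory AlgebraicGeometry

namespace Vale.Agent.P283R

theorem Dg.dgt : Dg.DGT := Dg.dgt_of Dg.btpr

/-- **klt complements of a fibre extend to the family and to the fibres nearby** -/
theorem Dg.dgs : Dg.DGS := Dg.dgs_of Dg.btpr Dg.dic87

namespace Sl

open Var

variable {C : ∀ (d : ℕ) (X Z : Var), (X.X ⟶ Z.X) → X.Form d → X.QDiv → Pt Z.X → Prop}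
  {ε : ℝ} {R : Finset ℚ}

theorem On.deformed (h : On C) (hε : 0 < ε) (hR : ∀ r ∈ R, 0 ≤ r ∧ r ≤ 1) :
    On (Deformed ε R C) := on_def Dg.dgs birs h hε hR

theorem On.deformed'
    (h : On fun d X Z f ω B z => FanoType f ω ∧ NefOver f (-logCan ω B) ∧ C d X Z f ω B z)
    (hε : 0 < ε) (hR : ∀ r ∈ R, 0 ≤ r ∧ r ≤ 1) : On (Deformed ε R C) :=
  on_def' Dg.dgs birs h hε hR

end Sl

end Vale.Agent.P283R
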