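import Vale.Agent.P283R.Dg.St
import Vale.Agent.P287D.On.Nor
import Vale.Agent.P287D.Bm.Pl

/-!
# P283R, block DG: the centres on the subvariety
-/

open Set CategoryTheory AlgebraicGeometry
open Vale.Agent.P297Z

noncomputable section

namespace Vale.Agent.P283R.Dg

open Vale.Agent.P287D Vale.Agent.P283M
open Sl Sl.Var
open Vale.Agent.P283M.Br (Dom UnAt Base)

namespace Ct

/-- the residue is not zero exactly for the units -/
theorem rd_ne_iff {K : Type} [Field K] [Algebra ℂ K] (P : Pl K) {a : K} (h : a ∈ P.ring) :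
    P.rd a ≠ 0 ↔ a ≠ 0 ∧ a⁻¹ ∈ P.ring := by
  rw [Ne, Bm.rd_zero_iff P h, not_or]
  refine and_congr_right fun _ => ⟨fun k => ?_, fun k => by rw [Pl.ord_unit _ h k]; omega⟩
  exact by_contra fun b => k (Pl.ord_pos_of_inv_notMem _ b)

variable {T Y : Sl.Var} {ι : Y.X ⟶ T.X} {t : T.K} {P : Pl T.K} {e : Y.K ≃ₐ[ℂ] P.κ}

/-- a function regular at a point of `Y` restricts to `Y` -/
theorem ex_rst (h : Pe ι t P e) (y : Pt Y.X) {a : T.K} (ha : RegAt a (y.map ι)) :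
    ∃ b, Rst ι a b := by
  obtain ⟨c, rfl⟩ := ha
  exact ⟨_, h.stk y c⟩

end Ct

open Ct

/-- **CTR** -/
theorem ctr : CTR := by
  intro T S Y F V s u ι t P e hz bs pe ov Q Q' li
  have li' : ∀ b, b ∈ Q'.ring ↔ e b ∈ Q.ring := li
  refine ⟨fun hu => ?_, fun y hy dm p => ?_⟩
  · obtain ⟨x, hx, dx⟩ := bs.ctr (On.cmpV P Q.ring)
      (fun c => ⟨P.con c, ((Bm.rd_const P c).symm ▸ Q.con c :
        P.rd (algebraMap ℂ T.K c) ∈ Q.ring)⟩) fun a ha => ⟨ov a ha, hu a ha⟩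
    obtain ⟨y, rfl⟩ := (hz.2.2.2.2.1 x trivial).resolve_left fun k => by
      have k1 : t⁻¹ ∈ P.ring := (dx _ k).1.1
      have k2 : t ∈ P.ring := (dx _ (hz.2.2.2.1 x trivial)).1.1
      have := Pl.ord_unit _ k2 k1
      rw [pe.one] at this
      exact one_ne_zero this
    refine ⟨y, hx, fun b hb => ?_⟩
    obtain ⟨a, ha, r⟩ := pe.sur y b hb
    obtain ⟨m, eb⟩ := (pe.rst a b).1 r
    refine ⟨(li' b).2 (eb ▸ (dx a ha).1.2), fun b0 bi => ?_⟩
    obtain ⟨a0, ai⟩ := (rd_ne_iff P m).1 (eb ▸ (map_ne_zero e).2 b0)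
    have k : P.rd a⁻¹ ∈ Q.ring := by
      rw [Bm.rd_inv P m ai a0, ← eb, ← map_inv₀]
      exact (li' _).1 bi
    exact (((pe.reg y a b r ha).2).2 ⟨a0, ha, (dx a ha).2 a0 ⟨ai, k⟩⟩).2.2
  · have hr : ∀ a ∈ u, RegAt a (y.map ι) := fun a ha => bs.reg a ha _ hy
    have key : ∀ a, RegAt a (y.map ι) →
        P.rd a ∈ Q.ring ∧ (Q.rd (P.rd a) ≠ 0 ↔ UnAt (X := T.o) a (y.map ι)) := fun a ha => by
      obtain ⟨b, r⟩ := ex_rst pe y ha
      obtain ⟨rb, ub⟩ := pe.reg y a b r ha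
      obtain ⟨-, eb⟩ := (pe.rst a b).1 r
      have m := (li' b).1 (dm b rb).1
      rw [← eb, ← ub, rd_ne_iff Q m, map_ne_zero, ← map_inv₀, ← li' b⁻¹]
      exact ⟨m, fun k => ⟨k.1, rb, (dm b rb).2 k.1 k.2⟩, fun k => ⟨k.1, (dm _ k.2.2).1⟩⟩
    have rp : RegAt (ev u p) (y.map ι) :=
      Br.reg_adjoin (X := T.o) (S := (u : Set T.K)) hr (by
        rw [Algebra.adjoin_eq_range]
        exact ⟨p, rfl⟩)
    exact (and_iff_right fun a ha => (key a (hr a ha)).1).trans (key _ rp).2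

end Vale.Agent.P283R.Dg
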