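import Vale.Agent.P283R.Dg.St
import Vale.Agent.P283M.Kl.Bas
import Vale.Agent.P287D.Ti.Tie

/-!
# P283R, block DG: the finite check for plt, the fibre over the origin
-/

open Set

noncomputable section

namespace Vale.Agent.P283R.Dg

open Vale.Agent.P287D Vale.Agent.P283M

/-- **FINP** -/
theorem finp : FINP := fun n K _ _ hK P G hG Λ hΛ e => by
  obtain ⟨w, -, hw⟩ := Ba.exists_big hK
  obtain ⟨s, κ, T, h, E, l, p, hT, sκ, sB, -⟩ := Ti.exists_lsx hK (finite_singleton P)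
    (toFinite {G, Λ}) (forall_mem_insert.2 ⟨hG, forall_eq.2 hΛ⟩) (smp_mx w).nef hw
  refine ⟨T, fun R ne g => by_contra fun c => ?_⟩
  have hP := hT P rfl
  refine (Ti.plt_gt l (sκ.sub (sB G (by simp))) hP (p P hP R ne) (fun _ => e.ge)
    fun R' hR' a z => not_le.1 fun b => c ⟨R', hR', a, b, ?_⟩).not_ge g
  exact l.cle (l.on R' hR') z (sB Λ (by simp)).1

namespace Fn

variable {K : Type} [Field K] [Algebra ℂ K] {u : Finset K} {R : Pl K}

theorem or_ov (h : Or0 u R) : Ov u R := fun a ha => by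
  rcases eq_or_ne a 0 with rfl | a0
  · exact zero_mem _
  · exact (P297Z.Pl.ord_nonneg_iff R.toPlace a0).1 ((h a ha).resolve_left a0).le

/-- the value at a place centred over the origin is the constant coefficient -/
theorem or_rd (h : Or0 u R) (p : MvPolynomial u ℂ) : ev u p ∈ R.ring ∧
    R.rd (ev u p) = algebraMap ℂ R.κ (MvPolynomial.constantCoeff p) := by
  induction p using MvPolynomial.induction_on with
  | C a =>
    rw [show ev u (MvPolynomial.C a) = algebraMap ℂ K a by simp [ev], Bm.rd_eq R (R.con a),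
      MvPolynomial.constantCoeff_C]
    exact ⟨R.con a, rfl⟩
  | add p q hp hq =>
    rw [show ev u (p + q) = ev u p + ev u q from map_add _ _ _, Bm.rd_add R hp.1 hq.1, hp.2, hq.2,
      map_add, map_add]
    exact ⟨add_mem hp.1 hq.1, rfl⟩
  | mul_X p j hp =>
    have k := or_ov h j j.2
    rw [show ev u (p * MvPolynomial.X j) = ev u p * j by simp [ev], Bm.rd_mul R hp.1 k,
      (Bm.rd_zero_iff R k).2 (h j j.2)]
    exact ⟨mul_mem hp.1 k, by simp⟩

end Fn

open Fn

/-- **CL** -/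
theorem cl : CL := fun n K _ _ hK u Λ τ P R s b d hτ f o => by
  refine ⟨?_, fun p hp => ⟨or_ov o, by rw [(or_rd o p).2]; simpa [Cc] using hp⟩⟩
  have t0 : ev u τ ≠ 0 := fun e => by simpa [e] using f.one
  have tR : 0 < R.ord (ev u τ) := ((Bm.rd_zero_iff R (or_rd o τ).1).1 (by
    rw [(or_rd o τ).2, not_not.1 hτ, map_zero])).resolve_left t0
  obtain ⟨c, -, k⟩ := Kl.harto hK b (Dsc.dv s (ev u τ)) d fun Q a a' => by
    by_cases e : Q = P
    · simp [dv, e, f.one]
    · simp [dv, f.oth Q a a' e]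
  obtain ⟨Q, q1, q2, q3⟩ := ((neg'.nn n K hK Λ _ s b ((Dsc.dv s (ev u τ)).add (d.smul c))
    fun Q _ => k c le_rfl Q).2 R).1 (by simpa [dv, Kl.inf_zero.2 (or_ov o)] using tR)
  have oQ : Ov u Q := by_contra fun x => (Kl.inf_zero.2 (or_ov o)).not_gt
    (((neg'.nn n K hK Λ _ s b d fun Q _ => Kl.inf_nn u Q).2 R).2 ⟨Q, q1, Kl.inf_pos x, q3⟩)
  by_cases e : Q = P
  · exact e ▸ q3
  · simp [dv, Kl.inf_zero.2 oQ, f.oth Q oQ q1 e] at q2

end Vale.Agent.P283R.Dg
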