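import Vale.Agent.P283R.Dg.St
import Vale.Agent.P283R.Br.Opn
import Vale.Agent.P283M.Kl.Bas

/-!
# P283R, block DG: the divisor outside of `{p ≠ 0}`, Hartogs over `V`
-/

open Set

noncomputable section

namespace Vale.Agent.P283R.Dg

open Vale.Agent.P287D Vale.Agent.P283M

theorem hv : HV := fun _ _ _ _ hK _ _ _ _ bΛ d h h0 _ o => Kl.harto' hK bΛ h d h0 o

section

variable {K : Type} [Field K] [Algebra ℂ K]

theorem rd_ne_iff (R : Pl K) {f : K} (f0 : f ≠ 0) : R.rd f ≠ 0 ↔ R.ord f = 0 := by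
  by_cases m : f ∈ R.ring
  · have := P297Z.Pl.ord_nonneg_of_mem _ m
    rw [Ne, Bm.rd_zero_iff R m]
    simp only [f0, false_or, not_lt]
    omega
  · have e : R.rd f = 0 := dif_neg m
    have := mt (P297Z.Pl.ord_nonneg_iff R.toPlace f0).1 m
    simp only [e, ne_eq, not_true_eq_false, false_iff]
    omega

theorem hh_zero {v : Finset K} {f : K} (f0 : f ≠ 0) {k : ℝ} (h : 0 ≤ dv f + k • inf v)
    (R : Pl K) : (dv f + k • inf v + inf v) R = 0 ↔ Ov v R ∧ R.rd f ≠ 0 := by
  have a := h R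
  have b := Kl.inf_nn v R
  simp only [Pi.add_apply, Pi.smul_apply, Pi.zero_apply, smul_eq_mul, dv] at a b ⊢
  rw [rd_ne_iff R f0, ← Kl.inf_zero]
  refine ⟨fun e => ?_, fun e => by simp [e.1, e.2]⟩
  have z : inf v R = 0 := by linarith
  refine ⟨z, ?_⟩
  simpa [z] using e

end

theorem hh : HH := fun n K _ _ hK u p p0 => by
  classical
  have m : ev u p ∈ Algebra.adjoin ℂ ((insert 1 u : Finset K) : Set K) := by
    refine Algebra.adjoin_mono (s := (u : Set K)) (by simp) ?_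
    rw [Algebra.adjoin_eq_range]
    exact ⟨p, rfl⟩
  obtain ⟨k, k0, h⟩ := Br.sec_adj (Finset.mem_insert_self _ _) m
  have h0 : 0 ≤ dv (ev u p) + k • inf u := h.resolve_left p0
  have s := Kl.inf_smp u
  have c : dv (ev u p) + k • inf u ∈ Car K := add_mem (dv_mem_Car _) ((Car K).smul_mem k s.car)
  refine ⟨dv (ev u p) + k • inf u + inf u, add_nonneg h0 (Kl.inf_nn u),
    ((smp_dv _).add (s.smul k0.le)).add s,
    ((Dsc.dv s _).add ((Dsc.refl s).smul k)).add (Dsc.refl s),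
    fun R o => by simp [dv, Kl.inf_zero.2 o], hh_zero p0 h0, fun P hP Q => ?_⟩
  obtain ⟨o, r⟩ := (hh_zero p0 h0 P).1 hP
  have z := (rd_ne_iff P p0).1 r
  have e : res P (dv (ev u p) + k • inf u) = dv (P.rd (ev u p)) + k • inf (u.image P.rd) := by
    rw [res'.add n K hK P _ (dv_mem_Car _) _ ((Car K).smul_mem k s.car),
      res'.smul n K hK P k _ s.car, Kl.res_inf hK o, res'.pri n K hK P _ p0, z, zpow_zero, div_one]
  have g := res'.nn n K hK P _ c h0 (by simp [dv, Kl.inf_zero.2 o, z])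
  rw [res'.add n K hK P _ c _ s.car, e, Kl.res_inf hK o, hh_zero r (e ▸ g)]
  exact and_congr_left' (by simp [Ov])

end Vale.Agent.P283R.Dg
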