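import Vale.Agent.P283R.Dg.St
import Vale.Agent.P287D.Va.Dsc

/-!
# P283R, block DG: the row INVR (plt over a neighbourhood of the origin)
-/

set_option linter.unusedSectionVars false

open Set

noncomputable section

namespace Vale.Agent.P283R.Dg.I69

open Vale.Agent.P287D Vale.Agent.P283M

variable {K : Type} [Field K] [Algebra ℂ K] {u : Finset K} {R : Pl K}

theorem ev_mem (h : Ov u R) (p : MvPolynomial u ℂ) : ev u p ∈ R.ring := by
  unfold ev
  induction p using MvPolynomial.induction_on with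
  | C c => simpa using R.con c
  | add p q hp hq => rw [map_add]; exact add_mem hp hq
  | mul_X p a hp => rw [map_mul, MvPolynomial.aeval_X]; exact mul_mem hp (h a a.2)

theorem rd_eq {f : K} (h : f ∈ R.ring) : R.rd f = IsLocalRing.residue R.ring ⟨f, h⟩ := dif_pos h

theorem rd_mul {f g : K} (h : f ∈ R.ring) (k : g ∈ R.ring) : R.rd (f * g) = R.rd f * R.rd g := by
  rw [rd_eq h, rd_eq k, rd_eq (mul_mem h k)]
  exact map_mul (IsLocalRing.residue R.ring) ⟨f, h⟩ ⟨g, k⟩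

theorem rd_zero (R : Pl K) : R.rd 0 = 0 := by
  rw [rd_eq (zero_mem R.ring)]
  exact map_zero (IsLocalRing.residue R.ring)

theorem ne_zero {f : K} (h : R.rd f ≠ 0) : f ≠ 0 := fun e => h (e ▸ rd_zero R)

theorem nb_mul {p q : MvPolynomial u ℂ} (h : Nb u (p * q) R) : Nb u p R ∧ Nb u q R := by
  have e : R.rd (ev u (p * q)) = R.rd (ev u p) * R.rd (ev u q) := by
    rw [← rd_mul (ev_mem h.1 p) (ev_mem h.1 q)]
    exact congrArg R.rd (map_mul _ p q)
  have := e ▸ h.2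
  exact ⟨⟨h.1, left_ne_zero_of_mul this⟩, h.1, right_ne_zero_of_mul this⟩

theorem cc_mul {p q : MvPolynomial u ℂ} (h : Cc p) (k : Cc q) : Cc (p * q) := by
  unfold Cc at *
  rw [map_mul]
  exact mul_ne_zero h k

theorem cc_one : Cc (1 : MvPolynomial u ℂ) := by
  unfold Cc
  rw [map_one]
  exact one_ne_zero

/-- one polynomial for finitely many places -/
theorem exists_cc (T : Finset (Pl K)) (b : Pl K → Prop)
    (h : ∀ R, b R → ∃ p : MvPolynomial u ℂ, Cc p ∧ ¬ Nb u p R) :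
    ∃ p : MvPolynomial u ℂ, Cc p ∧ ∀ R ∈ T, b R → ¬ Nb u p R := by
  classical
  induction T using Finset.induction_on with
  | empty => exact ⟨1, cc_one, fun R hR => absurd hR (Finset.notMem_empty R)⟩
  | insert R T _ ih =>
    obtain ⟨p, hp, k⟩ := ih
    by_cases e : b R
    · obtain ⟨q, hq, k'⟩ := h R e
      refine ⟨p * q, cc_mul hp hq, fun R' hR' hb hn => ?_⟩
      rcases Finset.mem_insert.1 hR' with rfl | hR'
      · exact k' (nb_mul hn).2
      · exact k R' hR' hb (nb_mul hn).1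
    · refine ⟨p, hp, fun R' hR' hb => ?_⟩
      rcases Finset.mem_insert.1 hR' with rfl | hR'
      · exact absurd hb e
      · exact k R' hR' hb

end Vale.Agent.P283R.Dg.I69

namespace Vale.Agent.P283R.Dg

open Vale.Agent.P287D Vale.Agent.P283M I69

/-- **INVR** -/
theorem invr69 : INVR := by
  intro hh a5l finp spc cl n K _ _ u Λ G τ p₀ P hK hΛ hb du dG hτ fb c₀ r₀ bd hP kl
  obtain ⟨H, o⟩ := hh (n + 1) K hK u p₀ (ne_zero r₀)
  have HP : H P = 0 := (o.iff P).2 ⟨fb.ov, r₀⟩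
  have key := a5l n K Λ G H P hK hΛ hb dG (du.trans o.des) o.nn HP
    (fun R hR h0 => bd R ((o.iff R).1 h0).1 hR) hP (fun Q hQ => kl Q ((o.res P HP Q).1 hQ))
  obtain ⟨T, hT⟩ := finp (n + 1) K hK P G dG.car Λ hΛ.car hP
  obtain ⟨p, cp, hp⟩ := exists_cc (u := u) T (fun R => R ≠ P ∧ dsc (n + 2) G R ≤ -1) (by
    rintro R ⟨ne, le⟩
    by_contra k
    push Not at k
    obtain ⟨R₀, o₀, c⟩ := spc (n + 1) K hK u Λ R hΛ (k 1 cc_one).1 fun q hq => (k q hq).2
    obtain ⟨c', nb⟩ := cl (n + 1) K hK u Λ τ P R₀ hΛ hb du hτ fb o₀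
    exact (key R R₀ ne c c' ((o.iff R₀).2 (nb p₀ c₀))).not_ge le)
  refine ⟨p, cp, fun R nb ne => ?_⟩
  by_contra k
  obtain ⟨R', hR', ne', le', c⟩ := hT R ne (not_lt.1 k)
  obtain ⟨H', o'⟩ := hh (n + 1) K hK u p (ne_zero nb.2)
  refine hp R' hR' ⟨ne', le'⟩ ((o'.iff R').1 (le_antisymm (not_lt.1 fun h => ?_) (o'.nn R')))
  exact (c.pos (du.trans o'.des) o'.nn h).ne' ((o'.iff R).2 nb)

end Vale.Agent.P283R.Dg
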