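import Vale.Agent.P283R.Dg.St
import Vale.Agent.P287D.Ad.All

/-!
# P283R, block DG: the extension of a complement from a fibre
-/

open Set
open Vale.Agent.P297Z.Pl

noncomputable section

namespace Vale.Agent.P283R.Dg

open Vale.Agent.P287D Vale.Agent.P283M

namespace Lf

variable {K : Type} [Field K] [Algebra ℂ K] {n : ℕ}

theorem adj_w (hK : FF K (n + 1)) (P : Pl K) :
    ∃ w : P.κ, w ≠ 0 ∧ ∀ Γ ∈ Car K, adj n P Γ = res P Γ + dv w := by
  obtain ⟨j, j', ⟨j0, j1, -⟩, e⟩ := adj_eq hK P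
  obtain ⟨k0, k1⟩ := Aj.ord_nrm P j0
  have r := Aj.rd_ne k0 k1
  refine ⟨_, div_ne_zero r j1, fun Γ h => ?_⟩
  rw [e, Aj.res_add hK P h (dv_mem_Car j), Aj.res_dv hK P j0, dv_div r j1, add_sub_assoc]

theorem res_off (hK : FF K (n + 1)) {P : Pl K} {Z H : BD K} (hZ : Z ∈ Car K) (hH : H ∈ Car K)
    (zp : Z P = 0) (hp : H P = 0) (h : ∀ R, H R = 0 → Z R = 0) {Q : Pl P.κ}
    (hq : res P H Q = 0) : res P Z Q = 0 := by
  obtain ⟨R, -, k⟩ := Aj.exists_fol hK P Q (B := {Z, H}) (toFinite _)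
    (insert_subset hZ (singleton_subset_iff.2 hH))
  have k1 := k Z (by simp)
  have k2 := k H (by simp)
  rw [hp, hq, zero_mul, add_zero] at k2
  rw [h R k2, zp, zero_mul, add_zero] at k1
  exact k1.symm

theorem unit {P : Pl K} {f : K} (h : P.rd f ≠ 0) : f ≠ 0 ∧ P.ord f = 0 :=
  Aj.ord_lift (by_contra fun e => h (dif_neg e)) h

theorem res_unit (hK : FF K (n + 1)) {P : Pl K} {f : K} (h : P.rd f ≠ 0) :
    res P (dv f) = dv (P.rd f) := by
  rw [Aj.res_dv hK P (unit h).1, (unit h).2, zpow_zero, div_one]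

end Lf

open Lf

theorem liftr : LIFTR := by
  intro hh hv ub n N K _ _ u Λ Γ Γ' t P p F b h0 p0 ⟨φ₀, f0, hφ⟩
  have hK := F.dat.ff
  have hκ := Bm.ff_κ hK P
  have hΛ := F.dat.smp
  have N1 : (1 : ℝ) ≤ N := by exact_mod_cast F.pos
  obtain ⟨e0, eP⟩ := unit p0
  obtain ⟨H, o⟩ := hh (n + 1) K hK u p e0
  have HP : H P = 0 := (o.iff P).2 ⟨b.ov, p0⟩
  have cH := o.smp.car
  have rH := Aj.res_nonneg hK P cH o.nn HP
  obtain ⟨w, w0, hw⟩ := adj_w hK P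
  have sm : ∀ (c : ℝ) (x : K), c • dv x ∈ Car K := fun c x => Submodule.smul_mem _ _ (dv_mem_Car x)
  have cΓ := F.dat.car.car
  have cΓ' := F.dat.car'.car
  obtain ⟨G, hG⟩ : ∃ G, G = Γ + dv t := ⟨_, rfl⟩
  obtain ⟨E, hE⟩ : ∃ E, E = Γ' + (1 + dsc (n + 2) Γ' P) • dv t - G := ⟨_, rfl⟩
  have cG : G ∈ Car K := hG ▸ add_mem cΓ (dv_mem_Car t)
  have cE : E ∈ Car K := hE ▸ sub_mem (add_mem cΓ' (sm _ t)) cG
  have tP : dv t P = 1 := by rw [dv_apply, b.one, Int.cast_one]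
  have GP : G P = cn K (n + 2) P + 1 := by
    simp only [dsc, Pi.sub_apply] at h0
    rw [hG, Pi.add_apply, tP]
    linarith
  have EP : E P = 0 := by
    simp only [hE, dsc, Pi.sub_apply, Pi.add_apply, Pi.smul_apply, smul_eq_mul, tP, GP]
    ring
  rw [← hG] at hφ ⊢
  have ca := fun X (h : X ∈ Car K) => (a1 (n + 1) K hK P X h).1
  obtain ⟨c₁, k₁⟩ := ub n P.κ hκ _ (ca G cG) _ (Aj.res_car P H) rH fun Q hQ => by
    obtain ⟨x, y⟩ := hφ Q ((o.res P HP Q).1 hQ)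
    simp only [dsc, Pi.sub_apply, Pi.smul_apply, smul_eq_mul] at y ⊢
    linarith
  obtain ⟨ε, ε0, kε⟩ := Pr.klt_open hκ
    (sub_mem (ca G cG) (Submodule.smul_mem _ _ (Aj.res_car P H))) (Aj.res_car P E) k₁
  obtain ⟨s, s0, s1, sε⟩ : ∃ s : ℝ, 0 < s ∧ s ≤ 1 ∧ |s| ≤ ε :=
    ⟨min ε 1, lt_min ε0 one_pos, min_le_right _ _,
      (abs_of_pos (lt_min ε0 one_pos)).trans_le (min_le_left _ _)⟩
  have M0 : (0 : ℝ) < N + 1 - s := by linarith
  obtain ⟨η, η0, γ₂, s₂, e₂⟩ := F.dat.amp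
  obtain ⟨γ₁, s₁, e₁⟩ := F.nef (s / 2 / (N + 1 - s)) (by positivity)
  obtain ⟨W, hW⟩ : ∃ W, W = (s / 2 * η) • Λ + ((N + 1 - s) • γ₁ + (s / 2) • γ₂) := ⟨_, rfl⟩
  have s₃ := (s₁.smul M0.le).add (s₂.smul (half_pos s0).le)
  have sW : Smp W := hW ▸ (hΛ.smul (by positivity)).add s₃
  have bW : Big W := hW ▸ (F.dat.big.smul (by positivity)).add_smp s₃
  obtain ⟨Z, hZ⟩ : ∃ Z, Z = -W - (N + 1 - s) • Γ - s • Γ' := ⟨_, rfl⟩
  have cZ : Z ∈ Car K := hZ ▸ sub_mem (sub_mem (neg_mem sW.car) (Submodule.smul_mem _ _ cΓ))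
    (Submodule.smul_mem _ _ cΓ')
  have Z0 : ∀ R, Ov u R → Z R = 0 := fun R hR => by
    have x := e₁ R hR
    have y := e₂ R hR
    simp only [hZ, hW, Pi.sub_apply, Pi.add_apply, Pi.neg_apply, Pi.smul_apply,
      smul_eq_mul] at x y ⊢
    rw [← x, ← y]
    field_simp
    ring
  have c3 : G + s • E ∈ Car K := add_mem cG (Submodule.smul_mem _ _ cE)
  obtain ⟨c, kc⟩ := ub n P.κ hκ (adj (n + 1) P (G + s • E) + (N : ℝ) • adj (n + 1) P G - dv φ₀ +
      res P Z) (add_mem (sub_mem (add_mem (ca _ c3) (Submodule.smul_mem _ _ (ca G cG)))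
      (dv_mem_Car _)) (Aj.res_car P Z)) _ (Aj.res_car P H) rH fun Q hQ => by
    have x := (hφ Q ((o.res P HP Q).1 hQ)).1
    have y := kε s sε Q
    have z := res_off hK cZ cH (Z0 P b.ov) HP (fun R hR => Z0 R ((o.iff R).1 hR).1) hQ
    rw [(a4 (n + 1) K hK P G cG _ (Submodule.smul_mem _ _ cE)).1, Aj.res_smul hK P s cE]
    rw [inv_mul_eq_div, le_div_iff₀ (by linarith)] at x
    simp only [dsc, Pi.sub_apply, Pi.add_apply, Pi.smul_apply, smul_eq_mul, hQ, z] at y ⊢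
    linarith
  obtain ⟨k, hk⟩ := (Api.mod.isb (n + 1) K hK).2.2 P
  obtain ⟨m, hm⟩ : ∃ m : ℤ, (m : ℝ) = N * G P :=
    ⟨N * (k + 1), by rw [GP, hk]; push_cast; rfl⟩
  have cN : (N : ℝ) • G ∈ Car K := Submodule.smul_mem _ _ cG
  have cc : (c : ℝ) • H ∈ Car K := Submodule.smul_mem _ _ cH
  have c4 : (N : ℝ) • G + Z - (c : ℝ) • H - (m : ℝ) • dv P.t ∈ Car K :=
    sub_mem (sub_mem (add_mem cN cZ) cc) (sm _ _)
  have pr : -(G + s • E + ((N : ℝ) • G + Z - (c : ℝ) • H - (m : ℝ) • dv P.t)) -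
      (W + (c : ℝ) • H) ∈ Prn K := by
    rw [show -(G + s • E + ((N : ℝ) • G + Z - (c : ℝ) • H - (m : ℝ) • dv P.t)) -
      (W + (c : ℝ) • H) = (m : ℝ) • dv P.t - (N + 1 - s + s * (1 + dsc (n + 2) Γ' P)) • dv t by
        rw [hZ, hE, hG]; module]
    exact sub_mem (Submodule.smul_mem _ _ (dv_mem_Prn _)) (Submodule.smul_mem _ _ (dv_mem_Prn _))
  have sH := o.smp.smul (Nat.cast_nonneg c)
  have wN := pow_ne_zero N w0
  obtain ⟨f, -, rf, hf⟩ := Ku.uext (n + 1) K hK P _ (φ₀ / w ^ N) ((sW.add sH).nef.congr pr)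
    ((bW.add_smp sH).congr pr) (by
      simp only [dsc, Pi.sub_apply, Pi.add_apply, Pi.smul_apply, smul_eq_mul, EP, HP, Z0 P b.ov,
        dv_apply, P.ord_t, hm]
      rw [GP]
      push_cast
      ring) fun Q => .inr (by
      have x := kc Q
      have y := congrFun (dv_div f0 wN) Q
      rw [(a4 (n + 1) K hK P _ c3 _ c4).1, Ae.res_sub res' hK (sub_mem (add_mem cN cZ) cc) (sm _ _),
        Ae.res_sub res' hK (add_mem cN cZ) cc, Aj.res_add hK P cN cZ, Aj.res_smul hK P _ cG,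
        Aj.res_smul hK P _ cH, Aj.res_smul hK P _ (dv_mem_Car _), Ae.res_t res' hK, smul_zero]
      rw [hw G cG] at x
      rw [dv_pow, dv_apply] at y
      simp only [dsc, Pi.sub_apply, Pi.add_apply, Pi.smul_apply, smul_eq_mul, Pi.zero_apply]
        at x y ⊢
      linarith)
  have r0 : P.rd f ≠ 0 := rf ▸ div_ne_zero f0 wN
  obtain ⟨g0, gP⟩ := unit r0
  have tm := zpow_ne_zero m P.t_ne
  have ec := pow_ne_zero c e0
  have dφ : dv (f * ev u p ^ c * P.t ^ m) =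
      dv f + (c : ℝ) • dv (ev u p) + (m : ℝ) • dv P.t := by
    rw [dv_mul (mul_ne_zero g0 ec) tm, dv_mul g0 ec, dv_pow, dv_zpow]
  have φP : dv (f * ev u p ^ c * P.t ^ m) P = N * G P := by
    rw [dφ]
    simp only [Pi.add_apply, Pi.smul_apply, smul_eq_mul, dv_apply, gP, eP, P.ord_t, hm]
    push_cast
    ring
  have dG : Dsc Λ G := hG ▸ Gs.dsc_add hΛ F.dat.dn (Gs.dsc_prn hΛ (dv_mem_Prn t))
  refine ⟨_, mul_ne_zero (mul_ne_zero g0 ec) tm, fun R hR => ?_, ?_, fun Q hQ => ?_⟩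
  · have := hv (n + 1) K hK u Λ (dv (f * ev u p ^ c * P.t ^ m) - (N : ℝ) • G) hΛ F.dat.big
      F.dat.base (Gs.dsc_sub hΛ (Gs.dsc_prn hΛ (dv_mem_Prn _)) (Gs.dsc_smul hΛ _ dG))
      (fun S hS oS => ?_) R hR
    · rw [inv_mul_eq_div, le_div_iff₀ (by linarith)]
      simp only [Pi.sub_apply, Pi.smul_apply, smul_eq_mul] at this
      linarith
    rw [Pi.sub_apply, Pi.smul_apply, smul_eq_mul, sub_nonneg]
    by_cases e : S = P
    · rw [e, φP]
    obtain ⟨x, z, hz⟩ := F.bd S hS oS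
    obtain ⟨y, hy⟩ := (Api.mod.isb (n + 1) K hK).2.2 S
    have x' := F.dat.bdy S hS oS
    have v := (hf S e).resolve_left g0
    have tS : dv t S = 0 := by rw [dv_apply, b.oth S hS oS e, Int.cast_zero]
    have q : N * G S = ((N * y - z : ℤ) : ℝ) := by
      simp only [dsc, Pi.sub_apply] at hz
      rw [hG, Pi.add_apply, tS]
      push_cast
      rw [← hy, ← hz]
      ring
    have l : N * G S - 1 < dv (f * ev u p ^ c * P.t ^ m) S := by
      simp only [dφ, hE, dsc, Pi.sub_apply, Pi.add_apply, Pi.smul_apply, smul_eq_mul, tS, Z0 S hS,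
        o.ov S hS, dv_apply f, dv_apply (ev u p)] at v x x' ⊢
      have g : G S = Γ S := by rw [hG, Pi.add_apply, tS, add_zero]
      rw [g] at v ⊢
      nlinarith [mul_nonpos_of_nonneg_of_nonpos s0.le x',
        mul_nonpos_of_nonneg_of_nonpos (sub_nonneg.2 s1) x]
    rw [q, dv_apply] at l ⊢
    exact_mod_cast Int.sub_one_lt_iff.1 (by exact_mod_cast l)
  · rw [dsc, Pi.sub_apply, Pi.smul_apply, φP, GP, smul_eq_mul]
    field_simp
    ring
  · have x := (hφ Q hQ).2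
    have y := congrFun (dv_div f0 wN) Q
    have z : dv (P.rd (ev u p)) Q = 0 := by rw [dv_apply, (unit hQ.2).2, Int.cast_zero]
    rw [hw _ (sm _ _), Aj.res_smul hK P _ (dv_mem_Car _), dφ,
      Aj.res_add hK P (add_mem (dv_mem_Car _) (sm _ _)) (sm _ _),
      Aj.res_add hK P (dv_mem_Car _) (sm _ _), Aj.res_smul hK P _ (dv_mem_Car _),
      Aj.res_smul hK P _ (dv_mem_Car _), Ae.res_t res' hK, res_unit hK r0, res_unit hK p0, rf]
    rw [dv_pow] at y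
    simp only [dsc, Pi.sub_apply, Pi.add_apply, Pi.smul_apply, smul_eq_mul, Pi.zero_apply, z, y]
      at x ⊢
    refine x.trans_eq ?_
    field_simp
    ring

end Vale.Agent.P283R.Dg
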