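import Vale.Agent.P283R.Dg.St
import Vale.Agent.P283M.Br.Bas

/-!
# P283R, block DG: the sets `{p ≠ 0}` are a basis of the neighbourhoods
-/

set_option linter.all false

open Set CategoryTheory AlgebraicGeometry
open Vale.Agent.P289 Vale.Agent.P289.H219 Vale.Agent.P270L Vale.Agent.P283M.Am

noncomputable section

namespace Vale.Agent.P283R.Dg

open Vale.Agent.P283M Vale.Agent.P283M.Br

theorem nbh0 {X Z : Stm.Var} {f : X.X ⟶ Z.X} (hf : Stm.Contraction f) {z : Pt Z.X}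
    (hz : IsClosed ({z} : Set (Pt Z.X))) {V U : Z.X.Opens} {u : Finset X.K}
    (bs : Base f V z u) (hU : z ∈ U) : ∃ p : MvPolynomial u ℂ, MvPolynomial.constantCoeff p ≠ 0 ∧
      ∀ x ∈ f ⁻¹ᵁ V, UnAt (ev u p) x → x ∈ f ⁻¹ᵁ U := by
  classical
  obtain ⟨h1, _, h3, h4⟩ := hf
  obtain ⟨x₀, rfl⟩ := h3.surj z
  have hV := bs.aff
  have hzV := bs.mem
  have : Nonempty ↑(f ⁻¹ᵁ V) := ⟨⟨x₀, hzV⟩⟩
  have := h4 V
  let _ : Algebra ℂ Γ(Z.X, V) := (cst Z.str V).toAlgebra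
  have : Algebra.FiniteType ℂ Γ(Z.X, V) := cst_finiteType Z.str hV
  let φ : Γ(Z.X, V) →ₐ[ℂ] X.K := { pl f V with
    commutes' := fun c => by
      change X.X.germToFunctionField _ ((f.app V).hom (cst Z.str V c)) = constants X.str c
      rw [app_cst, germ_cst, h1] }
  have hm := hV.primeIdealOf_isMaximal_of_isClosed ⟨_, hzV⟩ hz
  obtain ⟨g, hg1, hg2⟩ := hV.exists_basicOpen_le (V := U) ⟨_, hU⟩ hzV
  obtain ⟨c, hc⟩ := res_surj _ hm (Ideal.Quotient.mk _ g)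
  have hc' := Ideal.Quotient.eq.1 hc.symm
  have hr := bs.con (φ g) fun x hx => (mem_reg.1 (pl_reg f V g) x hx :)
  obtain ⟨p, hp⟩ : ∃ p : MvPolynomial u ℂ, ev u p = φ g := by
    rw [Algebra.adjoin_eq_range] at hr
    exact hr
  have hn : ∀ a : Γ(Z.X, V), a ∈ (hV.primeIdealOf ⟨_, hzV⟩).asIdeal → f x₀ ∉ Z.X.basicOpen a :=
    fun a ha k => (mem_primeIdealOf hV _ hzV _).1 ha ((Scheme.mem_basicOpen _ _ _ hzV).1 k)
  refine ⟨p, fun h0 => ?_, fun x hx k => hg1 ((un_pl (f := f) (V := V) hx g).1 (hp ▸ k :))⟩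
  have c0 : c ≠ 0 := fun e => hn g (by simpa [e] using hc') hg2
  obtain ⟨W, -, zW, hW⟩ := bs.bas (p - MvPolynomial.C c) (by simpa [h0] using c0)
  have e : ev u (p - MvPolynomial.C c) = φ (g - algebraMap ℂ _ c) := by
    rw [map_sub φ, φ.commutes, ← hp, ev, ev, map_sub, MvPolynomial.aeval_C]
  exact hn _ hc' ((un_pl (f := f) (V := V) hzV _).1 (e ▸ hW x₀ zW :))

theorem nbh : NBH := fun T S _ _ _ _ _ hF hs bs hU => nbh0 (X := T.o) (Z := S.o) hF hs bs hU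

end Vale.Agent.P283R.Dg
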