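import Vale.Agent.P283R.Dg.St
import Vale.Agent.P283R.Sl.Dg2
import Vale.Agent.P283R.Sl.Un

/-!
# P283R, block DG: the classes which are closed under deformation
-/

open CategoryTheory AlgebraicGeometry

noncomputable section

namespace Vale.Agent.P283R.Sl

open Var

/-- **BIRS**: complements pass to the models below -/
def BIRS : Prop := ∀ (d N : ℕ) (X X' Z : Var) (f : X.X ⟶ Z.X) (f' : X'.X ⟶ Z.X) (ω : X.Form d)
  (ω' : X'.Form d) (B : X.QDiv) (B' : X'.QDiv) (z : Pt Z.X), 1 ≤ d → 1 ≤ N →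
    dimension X.str = d → ω.Nonzero → ω'.Nonzero → Pair (fun _ => True) (all X.X) ω B →
    Pair (fun _ => True) (all X'.X) ω' B' → Contraction f → Contraction f' → z.Closed →
    Below f B f' ω' B' → HasKltComplement f' ω' B' N z → HasKltComplement f ω B N z

variable {C : ∀ (d : ℕ) (X Z : Var), (X.X ⟶ Z.X) → X.Form d → X.QDiv → Pt Z.X → Prop}
  {ε : ℝ} {R : Finset ℚ} {d : ℕ} {X Z : Var} {f : X.X ⟶ Z.X} {ω : X.Form d} {B : X.QDiv}
  {z : Pt Z.X}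

theorem Pair.triv {p : ℝ → Prop} {W : X.X.Opens} (h : Pair p W ω B) :
    Pair (fun _ => True) W ω B := ⟨h.1, h.2.1, fun _ _ _ _ _ _ _ => trivial⟩

theorem Datum.int (h : Datum ε R f ω B z) {N : ℕ} (hN : (∏ r ∈ R, r.den) ∣ N) (E : X.PrimeDiv) :
    ∃ m : ℤ, N * B.coeff E = m := by
  by_cases z : B.coeff E = 0
  · exact ⟨0, by simp [z]⟩
  · obtain ⟨w, hw⟩ := (Finset.dvd_prod_of_mem Rat.den (h.2.2.2.2.1 E z)).trans hN
    refine ⟨w * (B.coeff E).num, ?_⟩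
    rw [hw]
    push_cast
    rw [mul_comm (_ : ℚ) (w : ℚ), mul_assoc, Rat.den_mul_eq_num]

theorem Deformed.dat (h : Deformed ε R C d X Z f ω B z) :
    1 ≤ d ∧ ω.Nonzero ∧ Pair (fun _ => True) (all X.X) ω B ∧ Contraction f := by
  cases h with
  | base a _ => exact ⟨a.1, a.2.2.1, a.2.2.2.1.triv, a.2.2.2.2.2.1⟩
  | total _ _ a _ => exact ⟨a.1, a.2.2.1, a.2.2.2.1.triv, a.2.2.2.2.2.1⟩
  | near _ _ _ _ _ a _ => exact ⟨a.1, a.2.2.1, a.2.2.2.1.triv, a.2.2.2.2.2.1⟩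
  | model _ a _ => exact ⟨a.1, a.2.2.1, a.2.2.2.1.triv, a.2.2.2.2.2.1⟩

theorem Deformed.has (g : Dg.DGS) (g' : BIRS) {N M : ℕ} (N1 : 1 ≤ N) (hN : (∏ r ∈ R, r.den) ∣ N)
    (H : ∀ e ≤ M, ∀ (X Z : Var) (f : X.X ⟶ Z.X) (ω : X.Form e) B z, Datum ε R f ω B z →
      C e X Z f ω B z → HasKltComplement f ω B N z)
    (h : Deformed ε R C d X Z f ω B z) : d ≤ M → HasKltComplement f ω B N z := by
  induction h with
  | base a b => exact fun k => H _ k _ _ _ _ _ _ a b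
  | total t u a b ih =>
    obtain ⟨u1, u2, u3, u4⟩ := u.dat
    exact fun k => (g _ N _ _ _ _ _ t _ u1 N1 a.2.1 a.2.2.1 a.2.2.2.1.triv (a.int hN)
      a.2.2.2.2.2.1 a.2.2.2.2.2.2.1 a.2.2.2.2.2.2.2.1 a.2.2.2.2.2.2.2.2 _ _ _ _ _ _ u2 u3 u4 b
      (ih (by omega))).1
  | near Ω t u a b c e ih =>
    obtain ⟨u1, u2, u3, u4⟩ := u.dat
    intro k
    obtain ⟨U, sU, hU⟩ := (g _ N _ _ _ Ω _ t _ u1 N1 a.2.1 a.2.2.1 a.2.2.2.1.triv (a.int hN)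
      a.2.2.2.2.2.1 a.2.2.2.2.2.2.1 a.2.2.2.2.2.2.2.1 a.2.2.2.2.2.2.2.2 _ _ _ _ _ _ u2 u3 u4 b
      (ih k)).2
    obtain ⟨s', s1, s2⟩ := e U sU
    exact hU _ _ _ _ _ _ s' c.2.2.1 c.2.2.2.1.triv s1 s2
  | model u a b ih =>
    obtain ⟨u1, u2, u3, u4⟩ := u.dat
    exact fun k => g' _ N _ _ _ _ _ _ _ _ _ _ u1 N1 a.2.1 a.2.2.1 u2 a.2.2.2.1.triv u3
      a.2.2.2.2.2.1 u4 a.2.2.2.2.2.2.2.2 b (ih k)

/-- bounded klt complements pass to the deformations -/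
theorem on_def (g : Dg.DGS) (g' : BIRS) (h : On C) (hε : 0 < ε)
    (hR : ∀ r ∈ R, 0 ≤ r ∧ r ≤ 1) :
    On (Deformed ε R C) := by
  intro d _ _ _ _ _
  choose n n1 H using fun e : ℕ => h (e + 1) (Nat.le_add_left _ _) ε hε R hR
  have p : 0 < (∏ r ∈ R, r.den) * ∏ e ∈ Finset.range d, n e :=
    Nat.mul_pos (Finset.prod_pos fun r _ => r.den_pos) (Finset.prod_pos fun e _ => n1 e)
  refine ⟨_, p, fun X Z f ω B z _ _ _ _ _ _ u => u.has g g' p (dvd_mul_right _ _)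
    (fun e k X Z f ω B z a b => ?_) le_rfl⟩
  obtain ⟨e, rfl⟩ : ∃ m, e = m + 1 := ⟨e - 1, by have := a.1; omega⟩
  exact (H e X Z f ω B z a.2.1 a.2.2.1 a.2.2.2.1 a.2.2.2.2.1 a.2.2.2.2.2.1 a.2.2.2.2.2.2.2.2
    b).of_dvd ((Finset.dvd_prod_of_mem n (Finset.mem_range.2 k)).mul_left _)

/-- the same, where Fano type and nef are taken from the datum -/
theorem on_def' (g : Dg.DGS) (g' : BIRS)
    (h : On fun d X Z f ω B z => FanoType f ω ∧ NefOver f (-logCan ω B) ∧ C d X Z f ω B z)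
    (hε : 0 < ε) (hR : ∀ r ∈ R, 0 ≤ r ∧ r ≤ 1) : On (Deformed ε R C) :=
  (on_def g g' h hε hR).mono fun _ _ _ _ _ _ _ u => by
    induction u with
    | base a b => exact .base a ⟨a.2.2.2.2.2.2.1, a.2.2.2.2.2.2.2.1, b⟩
    | total t _ a b ih => exact .total t ih a b
    | near Ω t _ a b c e ih => exact .near Ω t ih a b c e
    | model _ a b ih => exact .model ih a b

end Vale.Agent.P283R.Sl
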