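import Vale.Agent.P283R.Dg.St
import Vale.Agent.P283R.Az.Zr

/-!
# P283R, block DG: the place of the zero scheme of a function
-/

set_option linter.all false

open Set CategoryTheory AlgebraicGeometry
open Vale.Agent.P289 Vale.Agent.P289.H219 Vale.Agent.P270L Vale.Agent.P283M.Am Vale.Agent.P299.G

noncomputable section

namespace Vale.Agent.P283R.Dg

open Vale.Agent.P287D Vale.Agent.P283M Vale.Agent.P283M.Br Vale.Agent.P283M.Stm.Var
open Vale.Agent.P297Z Vale.Agent.P283R.Br Vale.Agent.P283R.Az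

theorem cod_eq {X : Scheme.{0}} {x y : Pt X} (s : x ⤳ y) (hx : x.CodimOne) (hy : y.CodimOne) :
    x = y := by
  by_contra c
  have l : y < x := ⟨s, fun k => c (s.antisymm k).eq⟩
  have := Order.coheight_add_one_le l
  rw [show Order.coheight x = 1 from hx, show Order.coheight y = 1 from hy] at this
  exact absurd this (by decide)

theorem zr_of {T Y : Sl.Var} {ι : Y.X ⟶ T.X} {t : T.K} {U : T.X.Opens} (z : Sl.Zeros ι t U) :
    ∃ P j, Zr (S := Y.o) (X := T.o) ι t P j :=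
  have := z.1
  exists_zr (S := Y.o) (X := T.o) ι z.2.1 z.2.2.1 fun s => (z.2.2.2.2.2 s).2

theorem pls : PLS := by
  intro T Y ι t z
  obtain ⟨P, j, h⟩ := zr_of z
  obtain ⟨E, p, e⟩ := h.div
  have rst : ∀ a b, Rst ι a b ↔ a ∈ P.ring ∧ j b = P.rd a := fun a b => by
    refine ⟨?_, fun ⟨m, k⟩ => ?_⟩
    · rintro ⟨c, rfl, rfl⟩
      exact ⟨h.mem ⟨c, rfl⟩, h.val _ c⟩
    · obtain ⟨c, rfl⟩ : RegAt (V := T.o) a (Pt.map ι (genericPoint Y.X)) := e ▸ (p a).1 m
      exact ⟨c, rfl, j.injective ((h.val _ c).trans k.symm)⟩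
  refine ⟨P, h.iso, ⟨show Pt.CodimOne (Pt.map ι (genericPoint Y.X)) from e ▸ E.2,
    show Dom P.ring (Pt.map ι (genericPoint Y.X)) from e ▸ p.dom, h.ord, fun E' n => ?_, rst,
    fun y a => (rst _ _).2 ⟨h.mem ⟨a, rfl⟩, h.val y a⟩, fun y a b r k => ?_, fun y b k => ?_⟩⟩
  · rcases z.2.2.2.2.1 E'.1 trivial with k | ⟨s, k⟩
    · obtain ⟨Q, q, o⟩ := pl_of plc (X := T.o) E'
      exact (o t).trans (q.dom.ord ⟨z.2.2.1, z.2.2.2.1 _ trivial, k⟩)
    · exact absurd (cod_eq (k ▸ (genericPoint_specializes s).map ι.continuous)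
        (show Pt.CodimOne (Pt.map ι (genericPoint Y.X)) from e ▸ E.2) E'.2).symm n
  · obtain ⟨b', r', k1, k2⟩ := h.dn k
    obtain rfl : b' = b := j.injective (k1.trans ((rst _ _).1 r).2.symm)
    exact ⟨r', k2⟩
  · obtain ⟨a, r, k1⟩ := h.up y b k
    exact ⟨a, r, (rst _ _).2 ⟨h.mem r, k1⟩⟩

end Vale.Agent.P283R.Dg
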