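import Vale.Agent.P283R.Dg.St
import Vale.Agent.P283R.H.Bk1
import Vale.Agent.P287D.Ad.Main
import Vale.Agent.P287D.Cb.Ad

/-!
# P283R, block DG: specialisation to the origin
-/

open Set MvPolynomial
open Vale.Agent.P297Z

noncomputable section

namespace Vale.Agent.P283R.Dg

open Vale.Agent.P287D Vale.Agent.P283M

namespace Spc

/-- a place which is centred over the origin -/
theorem org {L : Type} [Field L] [Algebra ℂ L] {m : ℕ} (hL : FF L m) {ι : Type} [Fintype ι]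
    (x : ι → L) (hx : ∃ i, x i ≠ 0)
    (h : ∀ p : MvPolynomial ι ℂ, constantCoeff p ≠ 0 → aeval x p ≠ 0) :
    ∃ Q : Pl L, ∀ i, x i = 0 ∨ 0 < Q.ord (x i) := by
  classical
  let φ : MvPolynomial ι ℂ →+* L := (aeval x : MvPolynomial ι ℂ →ₐ[ℂ] L).toRingHom
  obtain ⟨B, b1, b2⟩ := Ideal.image_subset_nonunits_valuationSubring (A := φ.range)
    ((RingHom.ker (constantCoeff : MvPolynomial ι ℂ →+* ℂ)).map φ.rangeRestrict) (by
      rw [Ne, Ideal.eq_top_iff_one,
        Ideal.mem_map_iff_of_surjective _ φ.rangeRestrict_surjective]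
      rintro ⟨p, hp, e⟩
      refine h (1 - p) (by rw [map_sub, map_one, RingHom.mem_ker.1 hp]; simp) ?_
      rw [map_sub, map_one, sub_eq_zero]
      exact (congrArg Subtype.val e).symm)
  have hc : ∀ c, algebraMap ℂ L c ∈ B := fun c => b1 ⟨C c, aeval_C x c⟩
  have hn : ∀ i, x i ∈ B.nonunits := fun i =>
    b2 ⟨_, Ideal.mem_map_of_mem _ (RingHom.mem_ker.2 (constantCoeff_X ℂ i)), aeval_X x i⟩
  obtain ⟨j, hj⟩ := hx
  obtain ⟨i₀, -, hm⟩ := Finset.exists_max_image Finset.univ (fun i => B.valuation (x i))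
    ⟨j, Finset.mem_univ _⟩
  have τ0 : x i₀ ≠ 0 := fun e => hj (by simpa [e] using hm j (Finset.mem_univ _))
  have le : ∀ a ∈ Algebra.adjoin ℂ (insert (x i₀) (range fun i => x i / x i₀)), a ∈ B := by
    intro a ha
    induction ha using Algebra.adjoin_induction with
    | mem a ha =>
      rcases ha with rfl | ⟨i, rfl⟩
      · exact B.nonunits_subset (hn _)
      · rw [← B.valuation_le_one_iff, map_div₀]
        exact div_le_one_of_le₀ (hm i (Finset.mem_univ _)) zero_le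
    | algebraMap c => exact hc c
    | add a b _ _ ha hb => exact add_mem ha hb
    | mul a b _ _ ha hb => exact mul_mem ha hb
  obtain ⟨Q, q1, q2, -⟩ := H.Bk.exists_pl (ι := Empty) (y := Empty.elim) hL
    (C := Algebra.adjoin ℂ (insert (x i₀) (range fun i => x i / x i₀)))
    (Subalgebra.fg_def.2 ⟨_, (finite_range _).insert _, rfl⟩) τ0
    (Algebra.subset_adjoin (mem_insert _ _)) (fun i => i.elim) fun q hq => by
      rw [eq_C_of_isEmpty q] at hq ⊢
      by_contra c0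
      have c1 : coeff 0 q ≠ 0 := fun e => c0 (by rw [e, C_0])
      refine (B.mem_nonunits_iff_or.1 (hn i₀)).resolve_left τ0 ?_
      have := mul_mem (hc (coeff 0 q)⁻¹) (le _ hq)
      rwa [aeval_C, map_inv₀, div_eq_mul_inv,
        inv_mul_cancel_left₀ ((_root_.map_ne_zero _).2 c1)] at this
  refine ⟨Q, fun i => or_iff_not_imp_left.2 fun i0 => ?_⟩
  have := Pl.ord_nonneg_of_mem _ (q1 _ (Algebra.subset_adjoin (mem_insert_of_mem _ ⟨i, rfl⟩)))
  rw [Pl.ord_div _ i0 τ0] at this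
  omega

end Spc

/-- **SPC** -/
theorem spc : SPC := by
  classical
  intro n K _ _ hK u Λ R hΛ ov h
  by_cases hx : ∃ a : u, R.rd a ≠ 0
  swap
  · exact ⟨R, fun a ha => (Bm.rd_zero_iff R (ov a ha)).1
      (not_not.1 fun e => hx ⟨⟨a, ha⟩, e⟩), fun _ _ => id⟩
  obtain ⟨Q, hQ⟩ := Spc.org (Bm.ff_κ hK R) (fun a : u => R.rd a) hx fun p hp => by
    rw [← Cb.rd_aeval fun a : u => ov a a.2]
    exact h p hp
  obtain ⟨c, hc⟩ := exists_nat_gt (∑ a ∈ u, |res R (dv a) Q|)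
  obtain ⟨l, l0, rfl⟩ := hΛ
  obtain ⟨R₀, ⟨-, f⟩, far, cl, -⟩ := a2 n K hK R Q (dv '' (u : Set K)) (cmb l) c
    (u.finite_toSet.image _) (by rintro _ ⟨a, -, rfl⟩; exact dv_mem_Car a)
    (Submodule.sum_mem _ fun s _ => Submodule.smul_mem _ _ (mx_mem_Car s))
  refine ⟨R₀, fun a ha => or_iff_not_imp_left.2 fun a0 => ?_, cl⟩
  have e : (R₀.ord a : ℝ) = res R (dv a) Q + R.ord a * R₀.ord R.t := f _ ⟨a, ha, rfl⟩
  have c1 : (c : ℝ) ≤ R₀.ord R.t := by exact_mod_cast far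
  rw [← Int.cast_pos (R := ℝ), e]
  rcases (Pl.ord_nonneg_of_mem _ (ov a ha)).eq_or_lt with o | o
  · rw [Aj.res_dv hK R a0, ← o, zpow_zero, div_one]
    have := (hQ ⟨a, ha⟩).resolve_left (Aj.rd_ne a0 o.symm)
    simpa [dv] using this
  · have o1 : (1 : ℝ) ≤ R.ord a := by exact_mod_cast o
    have := Finset.single_le_sum (f := fun a => |res R (dv a) Q|) (fun _ _ => abs_nonneg _) ha
    have c0 : (0 : ℝ) ≤ c := c.cast_nonneg
    nlinarith [neg_abs_le (res R (dv a) Q)]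

end Vale.Agent.P283R.Dg
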