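import Vale.Agent.P283R.Dg.St
import Vale.Agent.P287D.Pr.Lr
import Vale.Agent.P287D.Ad.Main

/-!
# P283R, block DG: the rows UB and PR
-/

open Set

noncomputable section

namespace Vale.Agent.P283R.Dg

open Vale.Agent.P287D

theorem ub : UB := fun n K _ _ hK β hβ H hH h0 k => by
  classical
  obtain ⟨T, hT⟩ := Pr.fin_chk hK (toFinite {β, H}) (forall_mem_insert.2 ⟨hβ, forall_eq.2 hH⟩)
  obtain ⟨C, hC⟩ := (T.image fun P => -(dsc (n + 1) β P + 1) / H P).exists_le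
  obtain ⟨c, hc⟩ := exists_nat_gt C
  refine ⟨c, fun Q => not_le.1 fun w => ?_⟩
  obtain ⟨P, p, q, -⟩ := (hT (β - (c : ℝ) • H) (sub_mem (Submodule.subset_span (.inl rfl))
    (Submodule.smul_mem _ _ (Submodule.subset_span (.inr rfl)))) Q 0 le_rfl).1 one_pos
    (by linarith)
  have e : dsc (n + 1) (β - (c : ℝ) • H) P = dsc (n + 1) β P + c * H P := by
    simp only [dsc, Pi.sub_apply, Pi.smul_apply, smul_eq_mul]; ring
  rw [e] at q
  rcases (h0 P).eq_or_lt with z | z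
  · have z' : H P = 0 := z.symm
    have := k P z'
    rw [z'] at q
    linarith
  · have z' : 0 < H P := z
    have := (div_lt_iff₀ z').1 ((hC _ (Finset.mem_image_of_mem _ p)).trans_lt hc)
    linarith

theorem pr : PR := fun n K _ _ hK P N φ hN h => by
  obtain ⟨j, j', ⟨j0, j1, -⟩, e⟩ := adj_eq hK P
  have a := Aj.rd_ne (Aj.ord_nrm P h).1 (Aj.ord_nrm P h).2
  have b := Aj.rd_ne (Aj.ord_nrm P j0).1 (Aj.ord_nrm P j0).2
  have c := div_ne_zero b j1
  have N0 : (N : ℝ) ≠ 0 := Nat.cast_ne_zero.2 (by omega)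
  refine ⟨_, mul_ne_zero a (pow_ne_zero N c), ?_⟩
  rw [e, Aj.res_add hK P (Submodule.smul_mem _ _ (dv_mem_Car φ)) (dv_mem_Car j),
    Aj.res_smul hK P _ (dv_mem_Car φ), Aj.res_dv hK P h, Aj.res_dv hK P j0,
    dv_mul a (pow_ne_zero N c), dv_pow, dv_div b j1, smul_add, smul_smul, inv_mul_cancel₀ N0,
    one_smul, add_sub_assoc]

end Vale.Agent.P283R.Dg
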