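import Vale.Agent.P283R.Dg.Tops10
import Vale.Agent.P283R.Dg.Nbh
import Vale.Agent.P283R.Dg.Fin
import Vale.Agent.P283R.Dg.Lift
import Vale.Agent.P283R.Dg.Inv69
import Vale.Agent.P283R.Dg.A5l
import Vale.Agent.P283R.Dg.Af59
import Vale.Agent.P283R.Dg.Ofh
import Vale.Agent.P283R.Dg.Ctr
import Vale.Agent.P283R.Dg.Spc
import Vale.Agent.P283R.Dg.Hh
import Vale.Agent.P283R.Dg.Ub
import Vale.Agent.P283R.Dg.Pls
import Vale.Agent.P283R.Dg.Trn
import Vale.Agent.P283R.Dg.Datx
import Vale.Agent.P283R.Dg.Top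
import Vale.Agent.P283R.Dg.On

/-!
# P283R, block DG: the assembly
-/

namespace Vale.Agent.P283R.Dg

theorem lift : LIFT := liftr hh hv ub

theorem inv : INV := invr69 hh a5l finp spc cl

theorem af : AF := afr59 hh

theorem dgt_of (b : BTPR) : DGT := topt pr lift inv (b hh) af

theorem dgs_of (b : BTPR) (d : DIC) : DGS := tops10 trn datx pls d ctr nbh ofh (dgt_of b)

end Vale.Agent.P283R.Dg
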