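import Vale.Agent.P283R.Dg.St
import Vale.Agent.P287D.Api.All

/-!
# P283R, block DG: the theorem on the tier from the rows
-/

open Set
open Vale.Agent.P297Z

noncomputable section

namespace Vale.Agent.P283R.Dg

open Vale.Agent.P287D Vale.Agent.P283M

variable {K : Type} [Field K] [Algebra ℂ K] {u : Finset K} {p q : MvPolynomial u ℂ} {P R : Pl K}

namespace Tt

theorem ev_mul (p q : MvPolynomial u ℂ) : ev u (p * q) = ev u p * ev u q := map_mul _ _ _

theorem ev_mem (h : Ov u R) (p : MvPolynomial u ℂ) : ev u p ∈ R.ring := by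
  induction p using MvPolynomial.induction_on with
  | C a => simpa [ev] using R.con a
  | add p q hp hq => simpa [ev] using add_mem hp hq
  | mul_X p j hp =>
    rw [ev_mul]
    exact mul_mem hp (by simpa [ev] using h j j.2)

theorem rd_ev (h : Ov u P) (p q : MvPolynomial u ℂ) :
    P.rd (ev u (p * q)) = P.rd (ev u p) * P.rd (ev u q) := by
  rw [ev_mul, Bm.rd_mul P (ev_mem h p) (ev_mem h q)]

theorem nb_mul (h : Nb u (p * q) R) : Nb u p R ∧ Nb u q R := by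
  have := h.2
  rw [rd_ev h.1] at this
  exact ⟨⟨h.1, left_ne_zero_of_mul this⟩, h.1, right_ne_zero_of_mul this⟩

theorem rd_ev_mem (h : Ov u P) {Q : Pl P.κ} (k : ∀ a ∈ u, P.rd a ∈ Q.ring)
    (p : MvPolynomial u ℂ) : P.rd (ev u p) ∈ Q.ring := by
  induction p using MvPolynomial.induction_on with
  | C a =>
    have : P.rd (ev u (MvPolynomial.C a)) = algebraMap ℂ P.κ a := by
      rw [show ev u (MvPolynomial.C a) = algebraMap ℂ K a by simp [ev], Bm.rd_eq P (P.con a)]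
      rfl
    rw [this]
    exact Q.con a
  | add p q hp hq =>
    rw [show ev u (p + q) = ev u p + ev u q from map_add _ _ _,
      Bm.rd_add P (ev_mem h p) (ev_mem h q)]
    exact add_mem hp hq
  | mul_X p j hp =>
    rw [rd_ev h]
    exact mul_mem hp (by simpa [ev] using k j j.2)

theorem nk_mul (h : Ov u P) {Q : Pl P.κ} (k : Nk u (p * q) P Q) : Nk u p P Q ∧ Nk u q P Q := by
  have := k.2
  rw [rd_ev h, Bm.rd_mul Q (rd_ev_mem h k.1 p) (rd_ev_mem h k.1 q)] at this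
  exact ⟨⟨k.1, left_ne_zero_of_mul this⟩, k.1, right_ne_zero_of_mul this⟩

theorem ne_of_one {t : K} (h : P.ord t = 1) : t ≠ 0 := fun e => by simp [e] at h

end Tt

open Tt

/-- **TOPT** -/
theorem topt : TOPT := by
  classical
  intro pr lift inv btp af n N K _ _ u Λ Γ Γ' τ p₀ P fam hτ fb d0 c0 r0 sc
  obtain ⟨φ₁, φ0, ge, dP, kl⟩ := lift n N K u Λ Γ Γ' _ P p₀ fam fb d0 r0 sc
  have a := fam.dat
  have hK := a.ff
  have N0 : (N : ℝ) ≠ 0 := Nat.cast_ne_zero.2 (by have := fam.pos; omega)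
  have t0 := ne_of_one fb.one
  have nn : ∀ R, Ov u R → (0 : ℝ) ≤ R.ord (ev u τ) := fun R o =>
    Int.cast_nonneg (Pl.ord_nonneg_of_mem _ (ev_mem o τ))
  obtain ⟨p₁, c1, pl⟩ := inv n K u Λ ((N : ℝ)⁻¹ • dv φ₁) τ p₀ P hK a.smp a.big a.base
    (Gs.dsc_prn a.smp (Submodule.smul_mem _ _ (dv_mem_Prn _))) hτ fb c0 r0
    (fun R o on => by
      have x := ge R o
      have y := (fam.bd R o on).1
      have z := nn R o
      simp only [dsc, Pi.sub_apply, Pi.add_apply, Pi.smul_apply, smul_eq_mul, dv_apply] at x y ⊢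
      linarith) dP kl
  have φ1 := div_ne_zero φ0 (pow_ne_zero N t0)
  obtain ⟨φ, eφ⟩ : ∃ φ, φ = φ₁ / ev u τ ^ N := ⟨_, rfl⟩
  rw [← eφ] at φ1
  have e : ∀ R : Pl K, (N : ℝ)⁻¹ * R.ord φ = (N : ℝ)⁻¹ * R.ord φ₁ - R.ord (ev u τ) := fun R => by
    rw [eφ, Pl.ord_div _ φ0 (pow_ne_zero N t0), Pl.ord_pow]
    push_cast
    field_simp
  have le : ∀ R, Ov u R → Γ R ≤ (N : ℝ)⁻¹ * dv φ R := fun R o => by
    have x := ge R o
    simp only [Pi.add_apply, dv_apply] at x ⊢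
    linarith [e R]
  have kt : ∀ R, Nb u p₁ R → -1 < dsc (n + 2) ((N : ℝ)⁻¹ • dv φ) R := fun R b => by
    have z := e R
    by_cases k : R = P
    · subst k
      simp only [dsc, Pi.sub_apply, Pi.smul_apply, smul_eq_mul, dv_apply, fb.one] at dP z ⊢
      push_cast at z
      linarith
    · have x := pl R b k
      have y := nn R b.1
      simp only [dsc, Pi.sub_apply, Pi.smul_apply, smul_eq_mul, dv_apply] at x ⊢
      linarith
  have cΨ : (N : ℝ)⁻¹ • dv φ ∈ Car K := Submodule.smul_mem _ _ (dv_mem_Car _)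
  obtain ⟨C, Cf, hC⟩ := btp (n + 1) K hK u Λ _ τ p₁ a.smp a.big a.base cΨ kt
  refine ⟨⟨φ, p₁, φ1, c1, fun R o r => ⟨fun _ => le R o, kt R ⟨o, r⟩⟩⟩,
    p₀ * (p₁ * ∏ c ∈ Cf.toFinset.erase 0, (τ - MvPolynomial.C c)), ?_, fun c P' fb' r' => ?_⟩
  · rw [Cc, map_mul, map_mul, map_prod]
    refine mul_ne_zero c0 (mul_ne_zero c1 (Finset.prod_ne_zero_iff.2 fun c hc => ?_))
    rw [map_sub, not_not.1 hτ, MvPolynomial.constantCoeff_C, zero_sub, neg_ne_zero]
    exact (Finset.mem_erase.1 hc).1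
  obtain ⟨-, b⟩ := nb_mul ⟨fb'.ov, r'⟩
  obtain ⟨b1, b2⟩ := nb_mul b
  by_cases z : c = 0
  · subst z
    rw [map_zero, sub_zero] at fb' ⊢
    obtain rfl : P' = P := by_contra fun k => by
      have := fb.oth P' fb'.ov fb'.on k
      rw [fb'.one] at this
      exact one_ne_zero this
    obtain ⟨ψ, ψ0, h⟩ := sc
    exact ⟨ψ, ψ0, fun Q k => h Q (nk_mul fb.ov k).1⟩
  have nC : c ∉ C := fun k => by
    obtain ⟨r, hr⟩ := Finset.dvd_prod_of_mem (fun c => τ - MvPolynomial.C c)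
      (Finset.mem_erase.2 ⟨z, Cf.mem_toFinset.2 k⟩)
    rw [hr] at b2
    have x := (nb_mul b2).1.2
    have y : ev u (τ - MvPolynomial.C c) = ev u τ - algebraMap ℂ K c := by simp [ev]
    refine x ((Bm.rd_zero_iff P' (ev_mem fb'.ov _)).2 (.inr ?_))
    rw [y, fb'.one]
    exact one_pos
  obtain ⟨d', pl'⟩ := hC c nC P' fb'
  have s0 := ne_of_one fb'.one
  obtain ⟨s, es⟩ : ∃ s, s = ev u τ - algebraMap ℂ K c := ⟨_, rfl⟩
  rw [← es] at fb' pl' s0 ⊢
  have cΓ := a.dn.car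
  have cβ := sub_mem cΨ cΓ
  have k := af (n + 1) K hK P' u p₁ _ (add_mem cΨ (dv_mem_Car s)) _ cβ b1
    (by rw [Pr.dsc_add, d', dv_apply, fb'.one]; simp)
    (by
      have x := le P' fb'.ov
      have y := (fam.bd P' fb'.ov fb'.on).1
      simp only [dsc, Pi.sub_apply, Pi.smul_apply, smul_eq_mul] at d' y ⊢
      linarith)
    fun R b ne => ⟨pl' R b ne, sub_nonneg.2 (le R b.1)⟩
  obtain ⟨φ', φ'0, e'⟩ := pr (n + 1) K hK P' N (φ * s ^ N) fam.pos
    (mul_ne_zero φ1 (pow_ne_zero N s0))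
  rw [dv_mul φ1 (pow_ne_zero N s0), dv_pow, smul_add, inv_smul_smul₀ N0] at e'
  have e2 := (a4 (n + 1) K hK P' _ (add_mem cΓ (dv_mem_Car s)) _ cβ).1
  rw [show Γ + dv s + ((N : ℝ)⁻¹ • dv φ - Γ) = (N : ℝ)⁻¹ • dv φ + dv s by abel, e'] at e2
  refine ⟨φ', φ'0, fun Q h => ?_⟩
  obtain ⟨k1, k2⟩ := k Q (nk_mul fb'.ov (nk_mul fb'.ov h).2).1
  have e3 := congrFun e2 Q
  rw [Pi.add_apply, Pi.smul_apply, smul_eq_mul] at e3
  exact ⟨by linarith, e' ▸ k1⟩

end Vale.Agent.P283R.Dg
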