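import Vale.Agent.P283R.Dg.Fr10
import Vale.Agent.P283R.Dg.Bk

/-!
# P283R, block DG: the theorem on schemes from the rows
-/

open Set CategoryTheory AlgebraicGeometry

noncomputable section

namespace Vale.Agent.P283R.Dg

open Vale.Agent.P287D Vale.Agent.P283M
open Sl Sl.Var

/-- **TOPS** -/
theorem tops10 : TOPS := fun trn datx pls dic ctr nbh ofh dgt => by
  refine F10.frame ?_ ?_ trn datx pls dic dgt
  · intro n N T S X Z F V U s u i j f t P e p z ω B h G N1 zr bs pe ov ff UV hU c zU h0 fr hB di sc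
    exact bk trn ctr N1 zr bs pe ov ff UV hU c zU h0 fr hB di sc
  · intro n N T S X Z F V s u i j f t P e z ω B h G N1 hF cl zr bs pe ov _ ff hj c zs hf h0 fr hB
      di H
    obtain ⟨p, cp, sc⟩ := fw trn ctr nbh ofh N1 zr hF cl bs pe ov ff hj c zs h0 fr hB di H
    obtain ⟨U, -, sU, hU⟩ := bs.bas p cp
    obtain ⟨y, hy⟩ := hf.2.2.1.surj z
    have y1 : (Pt.map i y).map F = s := by
      rw [← F10.sq c y, ← zs]
      exact congrArg (Pt.map j) hy
    exact ⟨p, cp, pe.dom.rd (hU _ (F10.gen_mem (W := pre F U) (y := y)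
      (show (Pt.map i y).map F ∈ U from y1 ▸ sU))), sc⟩

end Vale.Agent.P283R.Dg
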