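import Vale.Agent.P283R.Dg.A5l
import Vale.Agent.P283R.Dg.Af59
import Vale.Agent.P283R.Dg.Ctr
import Vale.Agent.P283R.Dg.Datx
import Vale.Agent.P283R.Dg.Fin
import Vale.Agent.P283R.Dg.Hh
import Vale.Agent.P283R.Dg.Inv69
import Vale.Agent.P283R.Dg.Lift
import Vale.Agent.P283R.Dg.Nbh
import Vale.Agent.P283R.Dg.Ofh
import Vale.Agent.P283R.Dg.Pls
import Vale.Agent.P283R.Dg.Spc
import Vale.Agent.P283R.Dg.Top
import Vale.Agent.P283R.Dg.Tops10
import Vale.Agent.P283R.Dg.Trn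
import Vale.Agent.P283R.Dg.Ub

/-!
# P283R, block DG: the assembly
-/

namespace Vale.Agent.P283R.Dg

/-- the theorem on the tier -/
theorem dgt_of10 (b : BTPR) : DGT :=
  topt pr (liftr hh hv ub) (invr69 hh a5l finp spc cl) (b hh) (afr59 hh)

/-- the theorem on schemes -/
theorem dgs_of10 (b : BTPR) (d : DIC) : DGS :=
  tops10 trn datx pls d ctr nbh ofh (dgt_of10 b)

end Vale.Agent.P283R.Dg
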