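import Vale.Agent.P283R.Dg.Toh

/-!
# P283R, block DG: from the complement on the place to the complement on the fibre
-/

open Set CategoryTheory AlgebraicGeometry

noncomputable section

namespace Vale.Agent.P283R.Dg

open Vale.Agent.P287D Vale.Agent.P283M Vale.Agent.P297Z Sl Sl.Var
open Vale.Agent.P283M.Br (Dom Is UnAt Base Dif Frm gam)

/-- the generic point lies over every open set which contains a point of the image -/
theorem gen_in70 {T Y : Sl.Var} (ι : Y.X ⟶ T.X) {W : T.X.Opens} {y : Pt Y.X} (hy : y.map ι ∈ W) :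
    (generic Y.X).map ι ∈ W :=
  ((genericPoint_specializes y).map ι.continuous).mem_open W.isOpen hy

/-- from the place to the fibre -/
theorem bk70 (trn : TRN) (ctr : CTR) {n N : ℕ} {T S Y Z : Sl.Var} {F : T.X ⟶ S.X}
    {V U : S.X.Opens} {s : Pt S.X} {u : Finset T.K} {ι : Y.X ⟶ T.X} {j : Z.X ⟶ S.X}
    {f : Y.X ⟶ Z.X} {t : T.K} {P : Pl T.K} {e : Y.K ≃ₐ[ℂ] P.κ} {p : MvPolynomial u ℂ}
    {z : Pt Z.X} {ω : Y.Form (n + 1)} {B : Y.QDiv} {h : Y.K} {G : BD P.κ} (N1 : 1 ≤ N)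
    (zr : Zeros ι t (all T.X)) (bs : Base (X := T.o) (Z := S.o) F V s u) (pe : Pe ι t P e)
    (hK : FF P.κ (n + 1)) (UV : U ≤ V) (hU : ∀ x ∈ pre F U, UnAt (X := T.o) (ev u p) x)
    (sq : f ≫ j = ι ≫ F) (zU : z.map j ∈ U) (h0 : h ≠ 0) (fr : Frm (X := Y.o) ω h)
    (hB : Pair (fun _ => True) (all Y.X) ω B)
    (H : (generic Y.X).map ι ∈ pre F U → Ov u P ∧ Dic ι (pre F V) P e G ω B h ∧
      Sc (n + 1) N u p P G) : HasKltComplement f ω B N z := by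
  obtain ⟨k0, -, k2, k3, J, J0, k4⟩ := trn (n + 1) Y.K P.κ e hK
  have m : ∀ y : Pt Y.X, y ∈ pre f (pre j U) → y.map ι ∈ pre F U := fun y hy => by
    have a : (f ≫ j) y ∈ U := by rwa [Scheme.Hom.comp_apply]
    rwa [sq, Scheme.Hom.comp_apply] at a
  by_cases c : (generic Y.X).map ι ∈ pre F U
  swap
  · exact toh (U := pre j U) k0 N1 one_ne_zero h0 fr hB zU fun Q y a _ =>
      (c (gen_in70 ι (m y a))).elim
  obtain ⟨ov, dic, φ, φ0, sc⟩ := H c
  have a0 : e.symm φ ≠ 0 := by simpa using φ0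
  have b0 : e.symm φ / J ^ N ≠ 0 := div_ne_zero a0 (pow_ne_zero _ J0)
  have N0 : (N : ℝ) ≠ 0 := Nat.cast_ne_zero.2 (by omega)
  refine toh (U := pre j U) (φ := e.symm φ / J ^ N * h ^ N) k0 N1
    (mul_ne_zero b0 (pow_ne_zero _ h0)) h0 fr hB zU fun Q' y a b => ?_
  obtain ⟨Q, l⟩ := k2 Q'
  have nk := ((ctr T S Y F V s u ι t P e zr bs pe ov Q Q' l).2 y (UV (m y a)) b p).2
    (hU _ (m y a))
  obtain ⟨s1, s2⟩ := sc Q nk
  have o : Q.ord φ = Q'.ord (e.symm φ) := by rw [← (k3 Q Q' l).1, e.apply_symm_apply]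
  have o1 : (Q'.ord (e.symm φ / J ^ N) : ℝ) = Q.ord φ - N * Q'.ord J := by
    rw [Pl.ord_div _ a0 (pow_ne_zero _ J0), Pl.ord_pow, o]
    push_cast
    rfl
  have cq := k4 Q Q' l
  rw [dsc, Pi.sub_apply, Pi.smul_apply, smul_eq_mul, dv_apply] at s2
  rw [dv_apply] at s1
  refine ⟨?_, fun m' g m0 hg => ?_⟩
  · rw [mul_div_cancel_right₀ _ (pow_ne_zero _ h0), dsc, Pi.sub_apply, Pi.smul_apply, smul_eq_mul,
      dv_apply, o1, mul_sub, inv_mul_cancel_left₀ N0]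
    linarith
  · have d := dic Q Q' y l b (UV (m y a)) m' g m0 hg
    rw [dsc, Pi.sub_apply] at d
    rw [Pl.ord_mul _ b0 (pow_ne_zero _ h0), Pl.ord_pow]
    push_cast
    rw [o1, mul_add, mul_sub, inv_mul_cancel_left₀ N0, inv_mul_cancel_left₀ N0]
    linarith

end Vale.Agent.P283R.Dg
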