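import Vale.Agent.P283R.Dg.Top
import Vale.Agent.P287D.Ti.Plt

/-!
# P283R, block DG: almost all fibres, from the finiteness of the critical values
-/

set_option linter.all false

open Set
open Vale.Agent.P297 (Place)
open Vale.Agent.P285N.Brep (jac Fr)
open Vale.Agent.P277Z Vale.Agent.P277Z.FI Vale.Agent.P277Z.F5

noncomputable section

namespace Vale.Agent.P283R.Dg

open Vale.Agent.P287D Vale.Agent.P283M Vale.Agent.P287D.Ba Vale.Agent.P287D.Pr

/-- finitely many critical values -/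
def CR : Prop := ∀ (n : ℕ) (K : Type) [Field K] [Algebra ℂ K] (M : Mdl (n + 1) 0 K)
  (U : Set (Place K)) (t : K), M.Proj → U.Finite → M.Snc U → (∀ x, t ∈ M.O x ∨ t⁻¹ ∈ M.O x) →
    ∃ C : Set ℂ, C.Finite ∧ ∀ c ∉ C, ∀ R : Pl K, t - algebraMap ℂ K c ≠ 0 →
      0 < R.ord (t - algebraMap ℂ K c) → ∃ (x : M.F) (y : Fin (n + 1) → K)
        (D : Fin (n + 1) → Derivation ℂ K K) (j : Fin (n + 1)),
        M.Ct x R.toPlace ∧ M.Coord x y ∧ Fr y D ∧
        (∀ P ∈ U, M.On x P → ∃ i, M.Gn x P (y i) ∧ (i = j → R.ord (y i) = 0)) ∧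
        D j t ≠ 0 ∧ R.ord (D j t) = 0

namespace Bt

variable {n : ℕ} {K : Type} [Field K] [Algebra ℂ K]

/-- a place sees at most one value -/
theorem one_val (Q : Pl K) (t : K) :
    {c : ℂ | t - algebraMap ℂ K c ≠ 0 ∧ 0 < Q.ord (t - algebraMap ℂ K c)}.Finite := by
  refine Subsingleton.finite fun c ⟨a, b⟩ c' ⟨a', b'⟩ => ?_
  have m := (P297Z.Pl.ord_nonneg_iff Q.toPlace a).1 b.le
  have m' := (P297Z.Pl.ord_nonneg_iff Q.toPlace a').1 b'.le
  have e := Cb.rd_sub (P := Q) m' m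
  rw [(Bm.rd_zero_iff Q m).2 (.inr b), (Bm.rd_zero_iff Q m').2 (.inr b'), sub_sub_sub_cancel_left,
    ← map_sub, Cb.rd_const, sub_zero, map_eq_zero] at e
  exact sub_eq_zero.1 e

theorem pen {M : Mdl n 0 K} (hM : M.Proj) {D : P277Z.Div K} (hD : M.Dv D) {s : Finset K} {t : K}
    (hs : ∀ f, f ∈ s ↔ f = 1 ∨ f = t) (e : mx s = bar M D) (x : M.F) :
    t ∈ M.O x ∨ t⁻¹ ∈ M.O x := by
  have a : ∀ f ∈ s, f ∈ M.H0 D := fun f hf => (sec_bar hM).1 (e ▸ P287D.sec_of_mem hf)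
  obtain ⟨f, f1, f0, k⟩ := Nb.free_of_mx hM hD ⟨1, (hs 1).2 (.inl rfl), one_ne_zero⟩ e x
  by_cases t0 : t = 0
  · exact .inl (t0 ▸ zero_mem _)
  rcases (hs f).1 f1 with rfl | rfl
  · refine .inl ((hloc hM).mem x t fun P hP => ?_)
    have b := (a t ((hs t).2 (.inr rfl))).resolve_left t0 P ⟨x, hP⟩
    have c := k P hP
    rw [P297Z.Pl.ord_one, Int.cast_zero, zero_add] at c
    rw [c, add_zero] at b
    exact_mod_cast b
  · refine .inr ((hloc hM).mem x _ fun P hP => ?_)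
    have b := (a 1 ((hs 1).2 (.inl rfl))).resolve_left one_ne_zero P ⟨x, hP⟩
    have c := k P hP
    rw [P297Z.Pl.ord_one, Int.cast_zero, zero_add] at b
    have d : (P.ord f : ℝ) ≤ 0 := by linarith
    rw [P297Z.Pl.ord_inv]
    exact neg_nonneg.2 (by exact_mod_cast d)

/-- the inequalities at a place which is not critical -/
theorem ineq {M : Mdl (n + 1) 0 K} (hM : M.Proj) {T : Finset (Pl K)} {s : K} {R : Pl K}
    {x : M.F} {y : Fin (n + 1) → K} {D : Fin (n + 1) → Derivation ℂ K K} {j : Fin (n + 1)}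
    (hs : s ∈ R.ring) (hx : M.Ct x R.toPlace) (hy : M.Coord x y) (f : Fr y D)
    (g : ∀ P ∈ T, M.On x P.toPlace → ∃ i, M.Gn x P.toPlace (y i) ∧ (i = j → R.ord (y i) = 0))
    (d0 : D j s ≠ 0) (d1 : R.ord (D j s) = 0) :
    ∑ P ∈ T, bar M (Finsupp.single P.toPlace 1) R + R.ord s ≤ dsc (n + 1) (bar M (KM M)) R + 1 ∧
      (¬ M.Pr R.toPlace → (R.ord s : ℝ) ≤ dsc (n + 1) (bar M (KM M)) R) := by
  classical
  have e : jac D (Function.update y j s) = D j s := CnA.jac_upd f.dual j s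
  have ai := (Cb.jac_ne_iff f _).1 (e ▸ d0 : jac D (Function.update y j s) ≠ 0)
  have k : kap (Function.update y j s) R = dsc (n + 1) (bar M (KM M)) R := by
    rw [Cb.kap_chg f (e ▸ d0), Pi.add_apply, dv_apply, e, d1, Int.cast_zero, add_zero]
    exact (disc_kap hM hy hx).symm
  have m : ∀ i, Function.update y j s i ∈ R.ring := fun i => by
    by_cases z : i = j
    · rw [z, Function.update_self]; exact hs
    · rw [Function.update_of_ne z]; exact hx _ (hy.1 i).1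
  refine ⟨?_, fun p => ?_⟩
  · have b := Cb.sum_le_kap (Cb.ff_of f) ai R
    rw [k, ← Finset.add_sum_erase _ _ (Finset.mem_univ j), Function.update_self] at b
    have v : ∀ P ∈ T.filter fun P => bar M (Finsupp.single P.toPlace 1) R ≠ 0, ∃ i, i ≠ j ∧
        M.Gn x P.toPlace (y i) ∧ bar M (Finsupp.single P.toPlace 1) R = R.ord (y i) := by
      intro P hP
      obtain ⟨p1, p2⟩ := Finset.mem_filter.1 hP
      rw [bar_ct hM hx, ordAt_single, one_mul] at p2 ⊢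
      have o : M.On x P.toPlace := by_contra fun o => p2 (by
        rw [eqn_off o, P297Z.Pl.ord_one, Int.cast_zero])
      obtain ⟨i, i1, i2⟩ := g P p1 o
      have w := ord_gn_eq (eqn_gn o) i1 hx
      rw [w] at p2 ⊢
      exact ⟨i, fun z => p2 (by exact_mod_cast i2 z), i1, rfl⟩
    choose! ι i1 i2 i3 using v
    have inj : InjOn ι (T.filter fun P => bar M (Finsupp.single P.toPlace 1) R ≠ 0) :=
      fun P hP Q hQ z => by_contra fun ne => by
        have a := (hloc hM).other x _ _ _ (i2 P hP) ⟨_, i2 Q hQ⟩ (pl_inj.ne (Ne.symm ne))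
        rw [z, (i2 Q hQ).ord] at a
        exact one_ne_zero a
    rw [← Finset.sum_filter_ne_zero, Finset.sum_congr rfl i3,
      ← Finset.sum_image (f := fun i => (R.ord (y i) : ℝ)) inj]
    have c := Finset.sum_le_sum_of_subset_of_nonneg (f := fun i => (R.ord (y i) : ℝ))
      (s := (T.filter fun P => bar M (Finsupp.single P.toPlace 1) R ≠ 0).image ι)
      (t := Finset.univ.erase j) (fun i hi => by
        obtain ⟨P, hP, rfl⟩ := Finset.mem_image.1 hi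
        exact Finset.mem_erase.2 ⟨i1 P hP, Finset.mem_univ _⟩) fun i _ _ =>
      Int.cast_nonneg (P297Z.Pl.ord_nonneg_of_mem _ (hx _ (hy.1 i).1))
    rw [Finset.sum_congr rfl fun i hi => by
      rw [Function.update_of_ne (Finset.mem_erase.1 hi).1]] at b
    linarith
  · obtain ⟨E, hE⟩ := Cb.fr_of (Cb.ff_of f) ai
    have b := Ti.kap_plt hE m j fun a => p ⟨x, Bm.on_of_ai hM hx (fun i => by
      rw [Function.update_of_ne (Fin.succAbove_ne j i)]; exact (hy.1 _).1) a⟩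
    rwa [Function.update_self, k] at b

end Bt

open Bt Tt

theorem btpr_of (cr : CR) : BTPR := fun hh n K _ _ hK u Λ Ψ τ p sΛ bΛ _ cΨ kl => by
  classical
  obtain ⟨H, cH, H0, hH⟩ : ∃ H ∈ Car K, 0 ≤ H ∧ ∀ R, Nb u p R → ∀ R', H R' = 0 ↔ Nb u p R' := by
    by_cases p0 : ev u p = 0
    · exact ⟨0, zero_mem _, le_rfl, fun R r => (r.2 (by
        rw [p0]; exact (Bm.rd_zero_iff R (zero_mem _)).2 (.inl rfl))).elim⟩
    · obtain ⟨H, o⟩ := hh n K hK u p p0
      exact ⟨H, o.smp.car, o.nn, fun _ _ => o.iff⟩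
  obtain ⟨t, ht⟩ : ∃ t, t = ev u τ := ⟨_, rfl⟩
  rw [← ht]
  obtain ⟨M₀, h₀⟩ := Bm.exists_mdl hK
  obtain ⟨M, m, U, hM, u1, u2, u3, -, u5, u6⟩ := com h₀ (toFinite {Ψ, H, Λ, mx {1, t}})
    (forall_mem_insert.2 ⟨cΨ, forall_mem_insert.2 ⟨cH, forall_mem_insert.2
      ⟨sΛ.car, forall_eq.2 (mx_mem_Car _)⟩⟩⟩) finite_empty (KM M₀).support.finite_toSet
  obtain ⟨D, d1, d2, -⟩ := u6 (mx {1, t}) (by simp)
  obtain ⟨C, c1, c2⟩ := cr n K M U t hM u1 u2 (pen hM d1 (by simp) d2)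
  obtain ⟨A, s, hA, -⟩ := exists_pol hM
  have g1 := u1.preimage (pl_inj (K := K)).injOn
  have k1 : ∀ P : Pl K, KM M P.toPlace ≠ 0 → P ∈ g1.toFinset := fun P hP => g1.mem_toFinset.2 (by
    have p := KM_dv hM _ (Finsupp.mem_support_iff.2 hP)
    by_cases k : M₀.Pr P.toPlace
    · exact u5 _ (Finsupp.mem_support_iff.2 (by rwa [← KM_pr h₀ k, KM_pr hM p])) p
    · exact u3 ⟨p, k⟩)
  have k2 : ∀ β ∈ ({Ψ, H, Λ, mx {1, t}} : Set (BD K)), Sup n (bar M A) g1.toFinset β :=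
    fun β hβ => by
      obtain ⟨E, -, rfl, b, -⟩ := u6 β hβ
      exact sup_of hM hA fun P hP => g1.mem_toFinset.2 (b (Finsupp.mem_support_iff.2 hP))
  have l := ls_of hM hA u2 fun P => g1.mem_toFinset.1
  have su := (sup_of hM hA k1).sub (k2 Ψ (by simp))
  have g2 := Md.exc_fin hM sΛ.nef bΛ
  refine ⟨_, c1.union ((g1.union g2).biUnion fun Q _ => one_val Q t), fun c hc P fb => ?_⟩
  have s0 := ne_of_one fb.one
  have off : ∀ Q : Pl K, 0 < Q.ord (t - algebraMap ℂ K c) → Q.toPlace ∉ U ∧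
      (M.Pr Q.toPlace → On n Λ Q) := fun Q q =>
    ⟨fun z => hc (.inr (mem_biUnion (.inl z) ⟨s0, q⟩)),
      fun z => by_contra fun w => hc (.inr (mem_biUnion (.inr ⟨z, w⟩) ⟨s0, q⟩))⟩
  refine ⟨?_, fun R r ne => ?_⟩
  · obtain ⟨E, -, e, -⟩ := u6 Λ (by simp)
    have o := (on_amp hM hA.amp hA.dv).2 (pr_of_on hM (e ▸ fb.on))
    have a := su.2 P o fun z => (off P (fb.one ▸ one_pos)).1 (g1.mem_toFinset.1 z)
    have b := l.d0 o
    simp only [dsc, Pi.sub_apply] at a b ⊢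
    linarith
  have sm : t - algebraMap ℂ K c ∈ R.ring := sub_mem (ht ▸ ev_mem r.1 τ) (R.con c)
  rw [dsc_add, dv_apply]
  rcases (P297Z.Pl.ord_nonneg_of_mem _ sm).eq_or_lt with z | z
  · rw [show R.ord (t - algebraMap ℂ K c) = 0 from z.symm, Int.cast_zero, sub_zero]
    exact kl R r
  obtain ⟨x, y, D', j, x1, x2, x3, x4, x5, x6⟩ := c2 c (fun w => hc (.inl w)) R s0 z
  have de : D' j (t - algebraMap ℂ K c) = D' j t := by simp
  obtain ⟨a, b⟩ := ineq hM (T := g1.toFinset) sm x1 x2 x3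
    (fun Q q => x4 _ (g1.mem_toFinset.1 q)) (de ▸ x5) (de ▸ x6)
  have b' := b fun w => z.ne' (fb.oth R r.1 ((off R z).2 w) ne)
  have ld := l.ld su R
  have ps : ∀ Q ∈ g1.toFinset, 0 < bar M (Finsupp.single Q.toPlace 1) R →
      0 < dsc (n + 1) Ψ Q + 1 := fun Q q w => by
    have i := l.le_smul (k2 H (by simp)).1 H0 (l.on Q q) R
    rw [(hH R r R).2 r, Pi.smul_apply, smul_eq_mul] at i
    have := kl Q ((hH R r Q).1 (le_antisymm (nonpos_of_mul_nonpos_left i w) (H0 Q)))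
    linarith
  have nn : ∀ Q ∈ g1.toFinset, 0 ≤ (dsc (n + 1) Ψ Q + 1) * bar M (Finsupp.single Q.toPlace 1) R :=
    fun Q q => (l.nn (l.on Q q) R).eq_or_lt.elim (fun w => by rw [← w]; simp) fun w =>
      (mul_pos (ps Q q w) w).le
  by_cases w : ∃ Q ∈ g1.toFinset, 0 < bar M (Finsupp.single Q.toPlace 1) R
  · obtain ⟨Q, q, w⟩ := w
    have := (mul_pos (ps Q q w) w).trans_le (Finset.single_le_sum nn q)
    linarith
  · have e0 : ∑ Q ∈ g1.toFinset, bar M (Finsupp.single Q.toPlace 1) R = 0 :=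
      Finset.sum_eq_zero fun Q q => le_antisymm (not_lt.1 fun v => w ⟨Q, q, v⟩) (l.nn (l.on Q q) R)
    have := Finset.sum_nonneg nn
    linarith

end Vale.Agent.P283R.Dg
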