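import Vale.Agent.P283R.Dg.Btp0
import Vale.Agent.P283R.Dg.Crit

/-!
# P283R, block DG: almost all fibres
-/

namespace Vale.Agent.P283R.Dg

theorem cr9 : CR := fun _ _ _ _ _ _ t a b c d => Cr.crit a b c t d

theorem btpr9 : BTPR := btpr_of cr9

end Vale.Agent.P283R.Dg
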