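import Vale.Agent.P283R.Dg.Top
import Vale.Agent.P283M.Kl.Bas

/-!
# P283R, block DG: the fibre over the origin lies in the special divisor
-/

open Set
open Vale.Agent.P297Z

noncomputable section

namespace Vale.Agent.P283R.Dg

open Vale.Agent.P287D Vale.Agent.P283M

variable {K : Type} [Field K] [Algebra ℂ K] {u : Finset K} {R : Pl K}

namespace C35

theorem ov (h : Or0 u R) : Ov u R := fun a ha => by
  rcases h a ha with rfl | k
  · exact zero_mem _
  · rcases eq_or_ne a 0 with rfl | a0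
    · exact zero_mem _
    · exact (Pl.ord_nonneg_iff R.toPlace a0).1 k.le

theorem rd_or (h : Or0 u R) (p : MvPolynomial u ℂ) :
    R.rd (ev u p) = algebraMap ℂ R.κ (MvPolynomial.constantCoeff p) := by
  induction p using MvPolynomial.induction_on with
  | C a =>
    rw [show ev u (MvPolynomial.C a) = algebraMap ℂ K a by simp [ev], Bm.rd_const]
    simp
  | add p q hp hq =>
    rw [show ev u (p + q) = ev u p + ev u q from map_add _ _ _,
      Bm.rd_add R (Tt.ev_mem (ov h) p) (Tt.ev_mem (ov h) q), hp, hq, map_add, map_add]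
  | mul_X p j _ =>
    have e : ev u (MvPolynomial.X j) = (j : K) := by simp [ev]
    rw [Tt.rd_ev (ov h), e, (Bm.rd_zero_iff R (ov h j j.2)).2 (h j j.2)]
    simp

end C35

open C35

/-- **CL** -/
theorem cl35 : CL := by
  intro n K _ _ hK u Λ τ P R sΛ bΛ d hτ fb o
  refine ⟨fun G r g => ?_, fun p c => ⟨ov o, by rw [rd_or o]; simpa [Cc] using c⟩⟩
  have t0 := Tt.ne_of_one fb.one
  have z : R.rd (ev u τ) = 0 := by
    rw [rd_or o, not_not.1 hτ, map_zero]
  have pos : (0 : ℝ) < R.ord (ev u τ) := by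
    exact_mod_cast ((Bm.rd_zero_iff R (Tt.ev_mem (ov o) τ)).1 z).resolve_left t0
  have dG : Dsc Λ (G - G P • dv (ev u τ)) := by
    have := Gs.dsc_add sΛ (Gs.dsc_self sΛ) (Gs.dsc_prn sΛ r.2)
    rw [add_sub_cancel] at this
    exact Gs.dsc_sub sΛ this (Gs.dsc_prn sΛ (Submodule.smul_mem _ _ (dv_mem_Prn _)))
  have k := Kl.harto' hK bΛ dG d (fun Q oQ on => by
    simp only [Pi.sub_apply, Pi.smul_apply, smul_eq_mul, dv]
    rcases eq_or_ne Q P with rfl | ne
    · simp [fb.one]
    · simpa [fb.oth Q oQ on ne] using r.1 Q) (ov o)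
  simp only [Pi.sub_apply, Pi.smul_apply, smul_eq_mul, dv] at k
  nlinarith [mul_pos g pos]

end Vale.Agent.P283R.Dg
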