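import Vale.Agent.P283R.Dg.St
import Vale.Agent.P283M.Kl.Bas
import Vale.Agent.P287D.Ti.Tie

/-!
# P283R, block DG: a function has finitely many logarithmic critical values in a frame
-/

open Set
open Vale.Agent.P285N.Brep (Fr)

noncomputable section

namespace Vale.Agent.P283R.Dg.C18

open Vale.Agent.P287D Vale.Agent.P283M Cb

theorem cst_or {L : Type} [Field L] [Algebra ℂ L] (x : L) : (∃ c, algebraMap ℂ L c = x) ∨
    ∃ s : Set L, x ∈ s ∧ IsTranscendenceBasis ℂ ((↑) : s → L) := by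
  by_cases h : IsAlgebraic ℂ x
  · exact Or.inl (minpoly.mem_range_of_degree_eq_one ℂ x
      (IsAlgClosed.degree_eq_one_of_irreducible ℂ (minpoly.irreducible h.isIntegral)))
  · obtain ⟨s, a, b⟩ := exists_isTranscendenceBasis_superset (R := ℂ) (s := {x})
      (algebraicIndependent_unique_type_iff.2 h)
    exact Or.inr ⟨s, a rfl, b⟩

variable {K : Type} [Field K] [Algebra ℂ K] {n : ℕ} {y : Fin (n + 1) → K} {t : K}
  {D : Fin (n + 1) → Derivation ℂ K K}

theorem ne_of_fr (h : Fr y D) (j : Fin (n + 1)) : y j ≠ 0 := fun e => by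
  simpa [e] using h.dual j j

/-- along a critical place the function is constant -/
theorem cst_at (hK : FF K (n + 1)) (h : Fr y D) {P : Pl K} (ht : t ∈ P.ring)
    (m : ∀ j, Mx P (y j * D j t)) : ∃ c, Mx P (t - algebraMap ℂ K c) := by
  classical
  rcases cst_or (P.rd t) with ⟨c, e⟩ | ⟨s, ts, hs⟩
  · exact ⟨c, by rw [← rd_eq_zero (sub_mem ht (P.con c)), rd_sub ht (P.con c), rd_const, e,
      sub_self]⟩
  have c := hs.cardinalMk_eq_trdeg
  rw [trdeg_κ hK, ← Cardinal.mk_fin, Cardinal.eq] at c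
  obtain ⟨e⟩ := c
  have ex : ∀ i : Fin n, ∃ f ∈ P.ring, P.rd f = e.symm i ∧ (i = e ⟨_, ts⟩ → f = t) := fun i => by
    by_cases k : i = e ⟨_, ts⟩
    · exact ⟨t, ht, by simp [k], fun _ => rfl⟩
    · exact (rd_surj (e.symm i : P.κ)).imp fun f hf => ⟨hf.1, hf.2, fun k' => (k k').elim⟩
  choose u h1 h2 h3 using ex
  have a : Ada P P.t u := ⟨P.ord_t, h1, funext h2 ▸ hs.1.comp _ e.symm.injective⟩
  obtain ⟨E, hE⟩ := a.ad hK
  have l : Lg P (E (e ⟨_, ts⟩).succ) := (a.lf hE).lg (e ⟨_, ts⟩).succ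
  have one : E (e ⟨_, ts⟩).succ t = 1 := by
    simpa [h3 _ rfl] using hE.fr.dual (e ⟨_, ts⟩).succ (e ⟨_, ts⟩).succ
  refine (not_mx_one (P := P) ?_).elim
  rw [← one, expand (dr_of _) (Derivation.map_algebraMap _) h t]
  refine Finset.sum_induction _ _ (fun _ _ => Mx.add) mx_zero fun j _ => ?_
  have := (m j).mul (l (y j))
  rwa [← mul_assoc, div_mul_cancel₀ _ (ne_of_fr h j)] at this

theorem cst_of (h : Fr y D) (m : ∀ j, D j t = 0) : ∃ c, algebraMap ℂ K c = t := by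
  classical
  refine (cst_or t).resolve_right fun ⟨s, ts, hs⟩ => ?_
  obtain ⟨e, he⟩ := P297.H927.exists_derivation_of_basis hs fun _ => 1
  have := expand (dr_of e) (Derivation.map_algebraMap _) h t
  rw [he ⟨t, ts⟩] at this
  simp [m] at this

theorem eq_of {R : Pl K} {a b : ℂ} (h : Mx R (t - algebraMap ℂ K a))
    (k : Mx R (t - algebraMap ℂ K b)) : a = b := by
  have := k.sub h
  rw [sub_sub_sub_cancel_left, ← map_sub, ← rd_eq_zero (R.con _), rd_const, map_eq_zero] at this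
  exact sub_eq_zero.1 this

theorem ord_inf (t : K) (c : ℂ) (t0 : t - algebraMap ℂ K c ≠ 0) (Q : Pl K) :
    0 ≤ (dv (t - algebraMap ℂ K c) + inf {t}) Q := by
  classical
  by_cases k : t ∈ Q.ring
  · exact add_nonneg (Int.cast_nonneg_iff.2 (P297Z.Pl.ord_nonneg_of_mem _ (sub_mem k (Q.con c))))
      (Kl.inf_nn _ Q)
  · have := Q.le_mz_of_span (s := insert 1 {t}) (f := t - algebraMap ℂ K c) (sub_mem
      (Submodule.subset_span (by simp)) (by
        rw [Algebra.algebraMap_eq_smul_one]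
        exact Submodule.smul_mem _ _ (Submodule.subset_span (by simp)))) t0
    have e : inf {t} Q = Q.mz (insert 1 {t}) := by
      unfold inf mx
      congr
    rw [Pi.add_apply, e, dv_apply]
    exact_mod_cast (by omega)

/-- **CRIT**, one chart -/
theorem crt18 (hK : FF K (n + 1)) (h : Fr y D) (t : K) : ∃ C : Set ℂ, C.Finite ∧ ∀ c ∉ C,
    ∀ R : Pl K, (∀ j, y j ∈ R.ring) → (∀ j, D j t ∈ R.ring) → t - algebraMap ℂ K c ≠ 0 →
      0 < R.ord (t - algebraMap ℂ K c) → ∃ j, R.ord (y j) = 0 ∧ D j t ≠ 0 ∧ R.ord (D j t) = 0 := by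
  classical
  by_cases z : ∀ j, D j t = 0
  · obtain ⟨a, rfl⟩ := cst_of h z
    refine ⟨{a}, finite_singleton a, fun c hc R _ _ _ p => (hc ?_).elim⟩
    exact eq_of (mx_iff.2 (Or.inr p)) (sub_self (algebraMap ℂ K a) ▸ mx_zero)
  let s : Finset K := Finset.univ.image fun j => y j * D j t
  have nz : Nz s := by
    obtain ⟨j, hj⟩ := not_forall.1 z
    exact ⟨_, Finset.mem_image_of_mem _ (Finset.mem_univ j), mul_ne_zero (ne_of_fr h j) hj⟩
  have b0 : ∀ Q, 0 ≤ (inf s - mx s) Q := fun Q =>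
    sub_nonneg.2 (mx_mono nz (fun _ hx => by simp [hx]) Q)
  have b1 : ∀ Q, 0 < (inf s - mx s) Q ↔ ∀ j, Mx Q (y j * D j t) := fun Q => by
    refine ⟨fun p j => mx_iff.2 (or_iff_not_imp_left.2 fun f0 => by_contra fun k => ?_), fun m => ?_⟩
    · have a : _ ≤ Q.mz s := Q.le_mz (Finset.mem_image_of_mem _ (Finset.mem_univ j) : _ ∈ s) f0
      refine p.not_ge (sub_nonpos.2 ?_)
      refine Int.cast_le.2 (Q.mz_le ⟨1, by simp, one_ne_zero⟩ fun f hf f0 => ?_)
      rcases Finset.mem_insert.1 (by simpa only using hf) with rfl | hf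
      · rw [P297Z.Pl.ord_one]; omega
      · exact Q.le_mz hf f0
    · obtain ⟨f, hf, f0, e⟩ := Q.exists_mz nz
      obtain ⟨j, -, rfl⟩ := Finset.mem_image.1 hf
      have := (mx_iff.1 (m j)).resolve_left f0
      have k : (Q.mz s : ℝ) < 0 := by exact_mod_cast (by omega)
      exact sub_pos.2 (k.trans_le (Kl.inf_nn s Q))
  obtain ⟨w, -, hw⟩ := Ba.exists_big hK
  obtain ⟨v, κ, T, g, E, l, -, -, -, sB, -⟩ := Ti.exists_lsx hK finite_empty
    (toFinite {inf s - mx s, inf {t}}) (forall_mem_insert.2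
      ⟨sub_mem (mx_mem_Car _) (mx_mem_Car _), forall_eq.2 (mx_mem_Car _)⟩) (smp_mx w).nef hw
  have nn := neg'.nn n K hK (mx v)
  refine ⟨⋃ Q ∈ T, {c | Mx Q (t - algebraMap ℂ K c)}, T.finite_toSet.biUnion fun Q _ =>
    Set.Subsingleton.finite fun a ha b hb => eq_of ha hb, fun c hc R hy hD t0 p => ?_⟩
  by_contra k
  have m : ∀ j, Mx R (y j * D j t) := fun j => by
    by_cases a : R.ord (y j) = 0
    · refine Mx.mul (mx_iff.2 (or_iff_not_imp_left.2 fun d0 => ?_)) (hy j)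
      exact (P297Z.Pl.ord_nonneg_of_mem _ (hD j)).lt_of_ne' fun e => k ⟨j, a, d0, e⟩
    · exact mul_comm (y j) _ ▸ Mx.mul (mx_iff.2 (Or.inr
        ((P297Z.Pl.ord_nonneg_of_mem _ (hy j)).lt_of_ne' a))) (hD j)
  have s1 := sB _ (mem_insert _ _)
  have s2 := sB (inf {t}) (by simp)
  obtain ⟨Q, q1, q2, q3⟩ :=
    ((nn _ l.term.smp l.term.big s1.1 fun Q _ => b0 Q).2 R).1 ((b1 R).2 m)
  have tR : t ∈ R.ring := by simpa using add_mem (mem_ord p.le) (R.con c)
  have oR : inf {t} R = 0 := Kl.inf_zero.2 fun a ha => Finset.mem_singleton.1 ha ▸ tR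
  have oQ : Ov {t} Q := by_contra fun x => oR.not_gt
    (((nn _ l.term.smp l.term.big s2.1 fun Q _ => Kl.inf_nn _ Q).2 R).2 ⟨Q, q1, Kl.inf_pos x, q3⟩)
  obtain ⟨a, ha⟩ := cst_at hK h (oQ t (Finset.mem_singleton_self t)) ((b1 Q).1 q2)
  have hR : Mx R (t - algebraMap ℂ K a) := mx_iff.2 (or_iff_not_imp_left.2 fun a0 => by
    have := ((nn _ l.term.smp l.term.big ((Dsc.dv l.term.smp _).add s2.1)
      fun Q _ => ord_inf t a a0 Q).2 R).2 ⟨Q, q1, by
        simpa [Kl.inf_zero.2 oQ, dv] using (mx_iff.1 ha).resolve_left a0, q3⟩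
    simpa [oR, dv] using this)
  obtain rfl := eq_of hR (mx_iff.2 (Or.inr p))
  exact hc (mem_biUnion (by_contra fun x => q2.ne' (s1.2 Q q1 x)) ha)

end Vale.Agent.P283R.Dg.C18
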