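import Vale.Agent.P283R.Dg.St
import Vale.Agent.P287D.Bm.Pl

/-!
# P283R, block DG: centres on the subvariety
-/

set_option linter.all false

open Set CategoryTheory AlgebraicGeometry

noncomputable section

namespace Vale.Agent.P283R.Dg.C57

open Vale.Agent.P287D Vale.Agent.P283M Vale.Agent.P297Z
open Sl Sl.Var
open Vale.Agent.P283M.Br (Dom Is UnAt Base Dif Frm gam)

section
variable {K : Type} [Field K] [Algebra ℂ K]

theorem inv_mem_of_rd {P : Pl K} {g : K} (h : g ∈ P.ring) (k : P.rd g ≠ 0) :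
    g ≠ 0 ∧ g⁻¹ ∈ P.ring := by
  have a := mt (Bm.rd_zero_iff P h).2 k
  push Not at a
  refine ⟨a.1, (Pl.ord_nonneg_iff _ (inv_ne_zero a.1)).1 ?_⟩
  rw [Pl.ord_inv]
  omega

theorem rd_ne_of {P : Pl K} {g : K} (h0 : g ≠ 0) (h : g ∈ P.ring) (k : g⁻¹ ∈ P.ring) :
    P.rd g ≠ 0 := fun e => by
  have := Bm.rd_mul P h k
  rw [mul_inv_cancel₀ h0, Bm.rd_one, e, zero_mul] at this
  exact one_ne_zero this

/-- the composite valuation ring -/
def cmp (P : Pl K) (Q : Pl P.κ) : ValuationSubring K where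
  carrier := {g | g ∈ P.ring ∧ P.rd g ∈ Q.ring}
  mul_mem' := fun h k => ⟨mul_mem h.1 k.1, by rw [Bm.rd_mul P h.1 k.1]; exact mul_mem h.2 k.2⟩
  one_mem' := ⟨one_mem _, by rw [Bm.rd_one]; exact one_mem _⟩
  add_mem' := fun h k => ⟨add_mem h.1 k.1, by rw [Bm.rd_add P h.1 k.1]; exact add_mem h.2 k.2⟩
  zero_mem' := ⟨zero_mem _, by rw [(Bm.rd_zero_iff P (zero_mem _)).2 (.inl rfl)]; exact zero_mem _⟩
  neg_mem' := fun {g} h => ⟨neg_mem h.1, by
    have c := Bm.rd_const P (-1)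
    rw [map_neg, map_one, map_neg, map_one] at c
    rw [← neg_one_mul, Bm.rd_mul P (neg_mem (one_mem _)) h.1, c]
    exact mul_mem (neg_mem (one_mem _)) h.2⟩
  mem_or_inv_mem' := fun g => by
    by_cases h : g ∈ P.ring
    · by_cases k : P.rd g ∈ Q.ring
      · exact .inl ⟨h, k⟩
      · have n : P.rd g ≠ 0 := fun e => k (e ▸ zero_mem _)
        obtain ⟨g0, gi⟩ := inv_mem_of_rd h n
        exact .inr ⟨gi, by
          rw [Bm.rd_inv P h gi g0]; exact (Q.ring.mem_or_inv_mem _).resolve_left k⟩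
    · have gi := (P.ring.mem_or_inv_mem g).resolve_left h
      refine .inr ⟨gi, ?_⟩
      by_cases z : P.rd g⁻¹ = 0
      · exact z ▸ zero_mem _
      · exact (h (inv_inv g ▸ (inv_mem_of_rd gi z).2)).elim

end

/-- **CTR** -/
theorem ctr57 : CTR := by
  intro T S Y F V s u ι t P e hz hb pe ov Q Q' l
  have li : ∀ b, b ∈ Q'.ring ↔ e b ∈ Q.ring := l
  refine ⟨fun hu => ?_, fun y hy hd p => ?_⟩
  · obtain ⟨x, hx, dx⟩ := hb.ctr (cmp P Q)
      (fun c => ⟨P.con c, (Bm.rd_const P c).symm ▸ Q.con c⟩) (fun a ha => ⟨ov a ha, hu a ha⟩)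
    obtain h | ⟨y, rfl⟩ := hz.2.2.2.2.1 x trivial
    · have a := Pl.ord_nonneg_of_mem _ (dx _ h).1.1
      rw [Pl.ord_inv, pe.one] at a
      omega
    refine ⟨y, hx, fun b hb => ?_⟩
    obtain ⟨a, ra, r⟩ := pe.sur y b hb
    obtain ⟨m, eb⟩ := (pe.rst a b).1 r
    refine ⟨(li b).2 (eb ▸ (dx a ra).1.2), fun b0 bi => ?_⟩
    have n : P.rd a ≠ 0 := eb ▸ (map_ne_zero e).2 b0
    obtain ⟨a0, ai⟩ := inv_mem_of_rd m n
    refine ((pe.reg y a b r ra).2.2 ⟨a0, ra, (dx a ra).2 a0 ⟨ai, ?_⟩⟩).2.2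
    rw [Bm.rd_inv P m ai a0, ← eb, ← map_inv₀]
    exact (li _).1 bi
  · have k : ∀ a, a ∈ P.ring → RegAt a (y.map ι) → P.rd a ∈ Q.ring ∧
        (Q.rd (P.rd a) ≠ 0 ↔ UnAt (X := T.o) a (y.map ι)) := fun a m ra => by
      obtain ⟨b, eb⟩ := e.surjective (P.rd a)
      obtain ⟨rb, ub⟩ := pe.reg y a b ((pe.rst a b).2 ⟨m, eb⟩) ra
      have mb := (li b).1 (hd b rb).1
      rw [← eb, ← ub]
      refine ⟨mb, fun n => ?_, fun un => ?_⟩
      · obtain ⟨b0, bi⟩ := inv_mem_of_rd mb n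
        have b0' := (map_ne_zero e).1 b0
        exact ⟨b0', rb, (hd b rb).2 b0' ((li _).2 (by rwa [map_inv₀]))⟩
      · exact rd_ne_of ((map_ne_zero e).2 un.1) mb
          (by rw [← map_inv₀]; exact (li _).1 (hd _ un.2.2).1)
    have ru := fun a ha => hb.reg a ha _ hy
    have ma : ev u p ∈ Algebra.adjoin ℂ (u : Set T.K) := by
      rw [Algebra.adjoin_eq_range]; exact ⟨p, rfl⟩
    have rp : RegAt (ev u p) (y.map ι) := Br.reg_adjoin (X := T.o) ru ma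
    have mp : ev u p ∈ P.ring :=
      (pe.dom _ (Br.reg_gen (X := T.o) ((genericPoint_specializes y).map ι.continuous) rp)).1
    exact ⟨fun h => (k _ mp rp).2.1 h.2,
      fun h => ⟨fun a ha => (k a (ov a ha) (ru a ha)).1, (k _ mp rp).2.2 h⟩⟩

end Vale.Agent.P283R.Dg.C57
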