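import Vale.Agent.P283R.Dg.St
import Vale.Agent.P283M.Br.Loc
import Vale.Agent.P287D.Cb.Lg

/-!
# P283R, block DG: centres on the subvariety
-/

open Set CategoryTheory AlgebraicGeometry

noncomputable section

namespace Vale.Agent.P283R.Dg.C78

open Vale.Agent.P287D Vale.Agent.P283M Vale.Agent.P287D.Cb
open Vale.Agent.P283M.Br (Dom Is UnAt Base Dif Frm gam)
open Sl Sl.Var

variable {K : Type} [Field K] [Algebra ℂ K]

theorem rd0 (P : Pl K) : P.rd 0 = 0 := by simpa using rd_const (P := P) 0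

theorem rd1 (P : Pl K) : P.rd 1 = 1 := by simpa using rd_const (P := P) 1

theorem rdi {P : Pl K} {x : K} (h : x ∈ P.ring) (k : P.rd x ≠ 0) :
    x⁻¹ ∈ P.ring ∧ P.rd x⁻¹ = (P.rd x)⁻¹ := by
  have a := inv_mem_of fun e => k ((rd_eq_zero h).2 e)
  refine ⟨a, eq_inv_of_mul_eq_one_right ?_⟩
  rw [← rd_mul h a, mul_inv_cancel₀ fun e => k (by rw [e, rd0]), rd1]

theorem rdn {P : Pl K} {x : K} (h : x ∈ P.ring) (x0 : x ≠ 0) (k : x⁻¹ ∈ P.ring) :
    P.rd x ≠ 0 := fun e => by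
  have := rd_mul h k
  rw [mul_inv_cancel₀ x0, rd1, e, zero_mul] at this
  exact one_ne_zero this

/-- the composite valuation ring -/
def cmp (P : Pl K) (Q : Pl P.κ) : ValuationSubring K where
  carrier := {a | a ∈ P.ring ∧ P.rd a ∈ Q.ring}
  mul_mem' := fun {a b} h k => ⟨mul_mem h.1 k.1, by rw [rd_mul h.1 k.1]; exact mul_mem h.2 k.2⟩
  one_mem' := ⟨one_mem _, by rw [rd1]; exact one_mem _⟩
  add_mem' := fun {a b} h k => ⟨add_mem h.1 k.1, by rw [rd_add h.1 k.1]; exact add_mem h.2 k.2⟩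
  zero_mem' := ⟨zero_mem _, by rw [rd0]; exact zero_mem _⟩
  neg_mem' := fun {a} h => ⟨neg_mem h.1, by
    have := rd_sub (zero_mem P.ring) h.1
    rw [zero_sub, rd0, zero_sub] at this
    rw [this]
    exact neg_mem h.2⟩
  mem_or_inv_mem' a := by
    by_cases h : a ∈ P.ring
    · by_cases k : P.rd a ∈ Q.ring
      · exact Or.inl ⟨h, k⟩
      · have k0 : P.rd a ≠ 0 := fun e => k (by rw [e]; exact zero_mem _)
        exact Or.inr ⟨(rdi h k0).1, by
          rw [(rdi h k0).2]; exact (Q.ring.mem_or_inv_mem _).resolve_left k⟩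
    · have k := (P.ring.mem_or_inv_mem a).resolve_left h
      refine Or.inr ⟨k, ?_⟩
      by_cases k0 : P.rd a⁻¹ = 0
      · rw [k0]; exact zero_mem _
      · exact absurd (by simpa using (rdi k k0).1) h

theorem ctr78 : CTR := by
  intro T S Y F V s u ι t P e hz bs pe ov Q Q' hl
  have li : ∀ b : Y.K, b ∈ Q'.ring ↔ e b ∈ Q.ring := hl
  refine ⟨fun hu => ?_, fun y hy hd p => ?_⟩
  · obtain ⟨x, hx, hO⟩ := bs.ctr (cmp P Q)
      (fun c => ⟨P.con c, by
        change P.rd (algebraMap ℂ T.K c) ∈ Q.ring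
        rw [rd_const]; exact Q.con c⟩) fun a ha => ⟨ov a ha, hu a ha⟩
    obtain h | ⟨y, rfl⟩ := hz.2.2.2.2.1 x trivial
    · have := P297Z.Pl.ord_nonneg_of_mem _ (hO _ h).1.1
      rw [P297Z.Pl.ord_inv, pe.one] at this
      omega
    refine ⟨y, hx, fun b hb => ?_⟩
    obtain ⟨a, ha, r⟩ := pe.sur y b hb
    obtain ⟨r1, r2⟩ := (pe.rst a b).1 r
    have k := hO a ha
    refine ⟨(li b).2 (r2 ▸ k.1.2), fun b0 hi => ?_⟩
    have a0 : P.rd a ≠ 0 := r2 ▸ (map_ne_zero e).2 b0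
    have a1 : a ≠ 0 := fun h => a0 (by rw [h, rd0])
    have k2 := k.2 a1 ⟨(rdi r1 a0).1, by
      change P.rd a⁻¹ ∈ Q.ring
      rw [(rdi r1 a0).2, ← r2, ← map_inv₀]; exact (li _).1 hi⟩
    exact (((pe.reg y a b r ha).2).2 ⟨a1, ha, k2⟩).2.2
  · have key : ∀ a : T.K, a ∈ P.ring → RegAt a (y.map ι) → P.rd a ∈ Q.ring ∧
        (Q.rd (P.rd a) ≠ 0 ↔ UnAt (X := T.o) a (y.map ι)) := fun a h1 h2 => by
      have r : Rst ι a (e.symm (P.rd a)) := (pe.rst _ _).2 ⟨h1, e.apply_symm_apply _⟩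
      obtain ⟨g1, g2⟩ := pe.reg y _ _ r h2
      have m : P.rd a ∈ Q.ring := by simpa using (li _).1 (hd _ g1).1
      refine ⟨m, fun k => g2.1 ?_, fun k => ?_⟩
      · have n : e.symm (P.rd a) ≠ 0 := (map_ne_zero _).2 fun h => k (by rw [h, rd0])
        exact ⟨n, g1, (hd _ g1).2 n ((li _).2 (by simpa using (rdi m k).1))⟩
      · have w := g2.2 k
        exact rdn m (by simpa using w.1) (by simpa using (li _).1 (hd _ w.2.2).1)
    have ma : ev u p ∈ Algebra.adjoin ℂ (u : Set T.K) := by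
      rw [ev, ← Subtype.range_coe (s := (u : Set T.K)), Algebra.adjoin_range_eq_range_aeval]
      exact ⟨p, rfl⟩
    have g1 : RegAt (ev u p) (y.map ι) :=
      Br.reg_adjoin (X := T.o) (fun a ha => bs.reg a ha _ hy) ma
    have g2 : ev u p ∈ P.ring := by
      refine Algebra.adjoin_induction (p := fun a _ => a ∈ P.ring) ov P.con ?_ ?_ ma
      · exact fun _ _ _ _ a b => add_mem a b
      · exact fun _ _ _ _ a b => mul_mem a b
    exact ⟨fun h => (key _ g2 g1).2.1 h.2,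
      fun h => ⟨fun a ha => (key a (ov a ha) (bs.reg a ha _ hy)).1, (key _ g2 g1).2.2 h⟩⟩

end Vale.Agent.P283R.Dg.C78
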