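import Vale.Agent.P283R.Dg.Pls
import Vale.Agent.P283R.Dg.Trn
import Vale.Agent.P283R.Az.Res

/-!
# P283R, block DG: adjunction to the zero scheme of a function
-/

set_option linter.all false

open Set CategoryTheory AlgebraicGeometry
open Vale.Agent.P289 Vale.Agent.P289.H219 Vale.Agent.P270L Vale.Agent.P283M.Am Vale.Agent.P299.G

noncomputable section

namespace Vale.Agent.P283R

open Vale.Agent.P287D Vale.Agent.P283M Vale.Agent.P283M.Br Vale.Agent.P283M.Stm.Var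
open Vale.Agent.P297Z Vale.Agent.P283R.Br

namespace Az

variable {S X : Stm.Var} {i : S.X ⟶ X.X} {t h : X.K} {P : Pl X.K} {j : S.K →+* P.κ} {n m : ℕ}
  {Ω : DForm ℂ X.K (n + 2)} {D : X.QDiv} {ω : DForm ℂ S.K (n + 1)} {B : S.QDiv} {h' J : S.K}
  {W : X.X.Opens} {t₁ t₂ : Finset X.K}

/-- `B` is the restriction of `D` -/
def Rs (i : S.X ⟶ X.X) (B : S.QDiv) (D : X.QDiv) : Prop :=
  ∀ y : S.PrimeDiv, ∃ (m : ℕ) (a : St X.X (y.1.map i)), 0 < m ∧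
    LocalEq D m (toRat a) (y.1.map i) ∧ LocalEq B m (toRat (val (i.stalkMap y.1) a)) y.1

theorem is_of {E : X.PrimeDiv} (d : Dom P.ring E.1) :
    Is (RingEquiv.refl X.K) E P ∧ ∀ g, ord g E = P.ord g := by
  obtain ⟨Q, q, o⟩ := pl_of plc E
  obtain rfl : Q = P := Pl.ext' (congrArg _
    (Pl.eq_of_le' (v := Q.toPlace) (w := P.toPlace) fun g hg => (d g ((q g).1 hg)).1))
  exact ⟨q, o⟩

theorem Zr.cf (zr : Zr i t P j) (hY : FF S.K (n + 1)) (rs : Rs i B D) (fr : Br.Frm Ω h)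
    (k : Dif (-logCan Ω D) m t₁ t₂ W) (hW : Pt.map i (genericPoint S.X) ∈ W) :
    dsc (n + 2) (gam m t₁ t₂ h) P = 0 := by
  obtain ⟨E⟩ := exists_prime hY
  obtain ⟨c, a, c0, a1, a2⟩ := rs E
  obtain ⟨E₀, q, e⟩ := zr.div
  have b := a1.2 E₀ (e ▸ (genericPoint_specializes E.1).map i.continuous)
  rw [(is_of q.dom).2, (zr.ord_val a a2.1).2, Int.cast_zero] at b
  rw [coef har plc fr k (E := E₀) (e ▸ hW) q.dom, neg_eq_zero, Rat.cast_eq_zero]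
  exact (mul_eq_zero.1 b.symm).resolve_left (Nat.cast_ne_zero.2 c0.ne')

theorem Zr.adj (zr : Zr i t P j) (hK : FF X.K (n + 2)) (rs : Rs i B D) (h0 : h ≠ 0)
    (fr : Br.Frm Ω h) (h0' : h' ≠ 0) (fr' : Br.Frm ω h') (k : Dif (-logCan Ω D) m t₁ t₂ W)
    (up : ∀ Q', ∃ Q, Lies j Q Q') (J0 : J ≠ 0)
    (hJ : ∀ Q Q', Lies j Q Q' → cn P.κ (n + 1) Q = cn S.K (n + 1) Q' + Q'.ord J)
    {Q : Pl P.κ} {Q' : Pl S.K} {y : Pt S.X} (l : Lies j Q Q') (d : Dom Q'.ring y)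
    (hy : y.map i ∈ W) {m' : ℕ} {g : S.K} (m0 : 0 < m') (hg : LocalEq (logCan ω B) m' g y) :
    dsc (n + 1) (adj (n + 1) P (gam m t₁ t₂ h + dv t)) Q =
      cn S.K (n + 1) Q' + Q'.ord h' - Q'.ord g / m' := by
  obtain ⟨g₁, k₁⟩ := k.b1 _ hy
  obtain ⟨g₂, k₂⟩ := k.b2 _ hy
  have hG := localEq_neg plc (k.eq _ hy _ _ k₁ k₂)
  rw [neg_neg, inv_div] at hG
  obtain ⟨b₁, n₁, e₁⟩ := exists_res hK P hG.1
  obtain ⟨b₂, n₂, e₂⟩ := exists_res hK P h0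
  obtain ⟨b₃, n₃, e₃⟩ := exists_adj hK P zr.t0
  obtain ⟨b₁, rfl⟩ := zr.sur b₁
  obtain ⟨b₂, rfl⟩ := zr.sur b₂
  obtain ⟨b₃, rfl⟩ := zr.sur b₃
  rw [map_ne_zero] at n₁ n₂ n₃
  have m1 : (m : ℝ) ≠ 0 := Nat.cast_ne_zero.2 k.pos.ne'
  have m2 : (m' : ℝ) ≠ 0 := Nat.cast_ne_zero.2 m0.ne'
  have mix : ∀ R : Pl S.K, (R.ord (b₁ * (b₃ / b₂) ^ m * (h' / J) ^ m) : ℝ) =
      R.ord b₁ + m * (R.ord b₃ - R.ord b₂) + m * (R.ord h' - R.ord J) := fun R =>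
    ((hm_ord R).mix (mul_ne_zero n₁ (pow_ne_zero _ (div_ne_zero n₃ n₂))) h0' J0 m).trans
      (congrArg (· + _) ((hm_ord R).mix n₁ n₃ n₂ m))
  have fin := (hm_ord Q').eq (x := y) (fun u hu => Int.cast_eq_zero.2 (d.ord hu))
    (m := m') (k := m) (mul_ne_zero (mul_ne_zero n₁ (pow_ne_zero m (div_ne_zero n₃ n₂)))
      (pow_ne_zero m (div_ne_zero h0' J0))) hg.1 fun E R sp r o => by
      obtain ⟨R₁, l₁⟩ := up R
      obtain ⟨c, a, c0, a1, a2⟩ := rs E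
      have s₁ : Pt.map i E.1 ⤳ Pt.map i y := sp.map i.continuous
      have b := zr.prime hK l₁ r h0 fr k.pos c0 ⟨hG.1, fun E' s => hG.2 E' (s.trans s₁)⟩ a1 a2.1
      have b1 := hg.2 E sp
      have b2 := a2.2 E specializes_rfl
      rw [o] at b1 b2
      have b1' : (R.ord g : ℝ) = m' * (formOrd ω (RingEquiv.refl _) E + (B E : ℝ)) := by
        rw [logCan] at b1
        exact_mod_cast b1
      have b2' : (R.ord (toRat (P289.val (i.stalkMap E.1) a)) : ℝ) = c * (B E : ℝ) := by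
        exact_mod_cast b2
      rw [e₁, e₂, e₃, dv_apply, dv_apply, dv_apply, zr.e_one l₁, zr.e_one l₁, zr.e_one l₁, b2',
        hJ _ _ l₁, mul_div_cancel_left₀ _ (Nat.cast_ne_zero.2 c0.ne')] at b
      rw [mix, b1', fr' _ _ E R r o]
      field_simp at b
      linear_combination (-(m' : ℝ)) * b
  rw [mix] at fin
  rw [dsc, Pi.sub_apply, add_comm _ (dv t), (a4 _ _ hK P _ (dv_mem_Car t) _ gam_carQ.car).1,
    Pi.add_apply, zr.res_gam hK l d k₁ k₂, e₁, e₂, e₃, dv_apply, dv_apply, dv_apply, zr.e_one l,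
    zr.e_one l, zr.e_one l, hJ _ _ l]
  field_simp
  linear_combination -fin

end Az

namespace Dg

open Az

theorem zr_pe {T Y : Sl.Var} {ι : Y.X ⟶ T.X} {t : T.K} {U : T.X.Opens} {P : Pl T.K}
    {e : Y.K ≃ₐ[ℂ] P.κ} (z : Sl.Zeros ι t U) (p : Pe ι t P e) :
    Zr (S := Y.o) (X := T.o) ι t P (e : Y.K →+* P.κ) := by
  have v : ∀ (s : Pt Y.X) (b : St T.X (s.map ι)),
      e (toRat (val (ι.stalkMap s) b)) = P.rd (toRat b) := fun s b => ((p.rst _ _).1 (p.stk s b)).2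
  have r : ∀ s : Pt Y.X, RegAt (V := T.o) t (s.map ι) := fun s =>
    let ⟨_, a, e, _⟩ := z.2.2.2.2.2 s; ⟨a, e⟩
  refine ⟨e.surjective, e.commutes, z.2.2.1, ⟨⟨_, p.cod⟩, (is_of (X := T.o) p.dom).1, rfl⟩, v,
    fun s b k => ?_, ?_, r, ?_⟩
  · obtain ⟨a, r, k⟩ := p.sur s b k
    exact ⟨a, r, ((p.rst _ _).1 k).2⟩
  · rintro s _ ⟨b, rfl⟩ h
    obtain ⟨-, a, e', k⟩ := z.2.2.2.2.2 s
    obtain ⟨c, rfl⟩ := (k b).1 ((map_eq_zero_iff (toK s) (toK_injective s)).1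
      ((map_eq_zero e).1 ((v s b).trans h)))
    refine ⟨c, ?_⟩
    rw [eq_div_iff z.2.2.1, ← e', mul_comm]
    exact (map_mul (toK _) a c).symm
  · exact (Bm.rd_zero_iff P (p.dom t (r _)).1).2 (.inr (p.one ▸ one_pos))

theorem dic : DIC := by
  rintro n T Y ι P e t h h' Ω D ω B W Γ hK z p rs h0 fr h0' fr' ⟨m, t₁, t₂, k, rfl⟩ hW
  have zr := zr_pe z p
  obtain ⟨hY, -, up, -, J, J0, hJ⟩ := trn (n + 1) Y.K P.κ e (Bm.ff_κ hK P)
  exact ⟨zr.cf hY rs fr k hW, fun Q Q' y l d hy m' g m0 hg =>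
    zr.adj hK rs h0 fr h0' fr' k up J0 hJ l d hy m0 hg⟩

end Dg

end Vale.Agent.P283R
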