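import Vale.Agent.P283R.Dg.St
import Vale.Agent.P283M.Br.Amp
import Vale.Agent.P283M.Br.Bas
import Vale.Agent.P283M.Br.Frm
import Vale.Agent.P283M.Br.Klr
import Vale.Agent.P287D.Gm.Ffs

/-!
# P283R, block DG: the frame of the theorem on schemes
-/

open Set CategoryTheory AlgebraicGeometry

noncomputable section

namespace Vale.Agent.P283R.Dg.F10

open Vale.Agent.P287D Vale.Agent.P283M
open Sl Sl.Var
open Vale.Agent.P283M.Br (Dom Is UnAt Base Dif Frm gam)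

variable {T S Y : Sl.Var} {F : T.X ⟶ S.X} {V : S.X.Opens} {s : Pt S.X} {u : Finset T.K}
  {ι : Y.X ⟶ T.X} {t : T.K} {P R : Pl T.K} {n : ℕ} {Λ : BD T.K}

/-- a function is not a unit on its zero scheme -/
theorem not_un (hz : Zeros ι t (all T.X)) (y : Pt Y.X) : ¬ UnAt (X := T.o) t (y.map ι) := by
  rintro ⟨t0, -, b, hb⟩
  obtain ⟨-, a, ha, k⟩ := hz.2.2.2.2.2 y
  have e : a * b = 1 := by
    apply IsFractionRing.injective (St T.X (y.map ι)) T.K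
    rw [map_mul, map_one]
    have hb' : algebraMap (St T.X (y.map ι)) T.K b = t⁻¹ := hb
    have ha' : algebraMap (St T.X (y.map ι)) T.K a = t := ha
    rw [hb', ha', mul_inv_cancel₀ t0]
  have z : comap ι y a = 0 := (k a).2 dvd_rfl
  have := congrArg (ι.stalkMap y).hom e
  rw [map_mul, map_one] at this
  have z' : (ι.stalkMap y).hom a = 0 := z
  rw [z', zero_mul] at this
  exact zero_ne_one this

/-- the function is a polynomial in the coordinates which vanishes at the origin -/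
theorem tau (hz : Zeros ι t (all T.X)) (bs : Base (X := T.o) (Z := S.o) F V s u) (y : Pt Y.X)
    (hy : (y.map ι).map F = s) : ∃ τ : MvPolynomial u ℂ, ev u τ = t ∧ ¬ Cc τ := by
  have h := bs.con t fun x _ => hz.2.2.2.1 x trivial
  have e : (u : Set T.K) = range (fun a : u => (a : T.K)) := Subtype.range_coe.symm
  rw [e, Algebra.adjoin_range_eq_range_aeval] at h
  obtain ⟨τ, hτ⟩ := h
  refine ⟨τ, hτ, fun c => ?_⟩
  obtain ⟨U, -, sU, hU⟩ := bs.bas τ c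
  have := hU (y.map ι) (show (y.map ι).map F ∈ U from hy ▸ sU)
  exact not_un hz y ((show ev u τ = t from hτ) ▸ this)

/-- the generic point -/
theorem gen_mem {W : T.X.Opens} {y : Pt Y.X} (h : y.map ι ∈ W) : (generic Y.X).map ι ∈ W :=
  ((genericPoint_specializes y).map ι.continuous).mem_open W.isOpen h

/-- a point of codimension one is the centre of only one place -/
theorem pl_eq {x : Pt T.X} (c : x.CodimOne) (h : Dom (X := T.o) P.ring x)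
    (h' : Dom (X := T.o) R.ring x) : P = R := by
  obtain ⟨Q, e, -⟩ := Br.pl_of Br.plc (X := T.o) ⟨x, c⟩
  have a : ∀ P : Pl T.K, Dom (X := T.o) P.ring x → Q = P := fun P hP => Pl.ext' (congrArg _
    (P297Z.Pl.eq_of_le' (v := Q.toPlace) (w := P.toPlace) fun g hg => (hP g ((e g).1 hg)).1))
  exact (a P h).symm.trans (a R h')

theorem ord_eq (E : T.PrimeDiv) (h : Dom (X := T.o) P.ring E.1) (g : T.K) :
    ord g E = P.ord g := by
  obtain ⟨Q, e, o⟩ := Br.pl_of Br.plc (X := T.o) E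
  rw [← pl_eq E.2 e.dom h]
  exact o g

/-- the fibre on the tier -/
theorem fb {e : Y.K ≃ₐ[ℂ] P.κ} (pe : Pe ι t P e) (bs : Base (X := T.o) (Z := S.o) F V s u)
    (hg : (generic Y.X).map ι ∈ pre F V)
    (on : ∀ (P : Pl T.K) (x : Pt T.X), x ∈ pre F V → Dom (X := T.o) P.ring x →
      (On n Λ P ↔ x.CodimOne)) : Fb n u Λ t P := by
  refine ⟨fun a ha => (pe.dom a (bs.reg a ha _ hg)).1, (on P _ hg pe.dom).2 pe.cod, pe.one,
    fun R o hR ne => ?_⟩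
  obtain ⟨x, hx, dm⟩ := bs.ctr R.ring R.con o
  have c := (on R x hx dm).1 hR
  rw [← ord_eq ⟨x, c⟩ dm]
  refine pe.oth ⟨x, c⟩ fun k => ne ?_
  have k' : x = (generic Y.X).map ι := k
  exact pl_eq c dm (k' ▸ pe.dom)

/-- the family on the tier -/
theorem fam {N : ℕ} {Γ Γ' : BD T.K} {D : T.QDiv} (N1 : 1 ≤ N)
    (bs : Base (X := T.o) (Z := S.o) F V s u) (da : Dat n u Λ Γ Γ') (nf : NefO n T.K u (-Γ))
    (d0 : ∀ E, 0 ≤ D.coeff E) (dN : ∀ E, ∃ m : ℤ, N * D.coeff E = m)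
    (on : ∀ (P : Pl T.K) (x : Pt T.X), x ∈ pre F V → Dom (X := T.o) P.ring x →
      (On n Λ P ↔ x.CodimOne))
    (co : ∀ (P : Pl T.K) (E : T.PrimeDiv), E.1 ∈ pre F V → Dom (X := T.o) P.ring E.1 →
      dsc (n + 1) Γ P = -(D.coeff E : ℝ)) : Fam n N u Λ Γ Γ' := by
  refine ⟨da, fun δ hδ => Br.klr da da.dn.neg nf hδ, N1, fun R o hR => ?_⟩
  obtain ⟨x, hx, dm⟩ := bs.ctr R.ring R.con o
  have c := (on R x hx dm).1 hR
  rw [co R ⟨x, c⟩ hx dm]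
  obtain ⟨m, hm⟩ := dN ⟨x, c⟩
  refine ⟨neg_nonpos.2 (by exact_mod_cast d0 _), -m, ?_⟩
  have : (N : ℝ) * (D.coeff ⟨x, c⟩ : ℝ) = m := by exact_mod_cast hm
  push_cast
  linarith

/-- **BK**: from the tier back to a fibre -/
def BK : Prop := ∀ (n N : ℕ) (T S X Z : Sl.Var) (F : T.X ⟶ S.X) (V U : S.X.Opens) (s : Pt S.X)
  (u : Finset T.K) (i : X.X ⟶ T.X) (j : Z.X ⟶ S.X) (f : X.X ⟶ Z.X) (t : T.K) (P : Pl T.K)
  (e : X.K ≃ₐ[ℂ] P.κ) (p : MvPolynomial u ℂ) (z : Pt Z.X) (ω : X.Form (n + 1)) (B : X.QDiv)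
  (h : X.K) (G : BD P.κ), 1 ≤ N → Zeros i t (all T.X) → Base (X := T.o) (Z := S.o) F V s u →
    Pe i t P e → Ov u P → FF P.κ (n + 1) → U ≤ V →
    (∀ x ∈ pre F U, UnAt (X := T.o) (ev u p) x) → f ≫ j = i ≫ F → z.map j ∈ U → h ≠ 0 →
    Frm (X := X.o) ω h → Pair (fun _ => True) (all X.X) ω B →
    Dic i (pre F V) P e G ω B h → Sc (n + 1) N u p P G → HasKltComplement f ω B N z

/-- **FW**: from the special fibre to the tier -/
def FW : Prop := ∀ (n N : ℕ) (T S X Z : Sl.Var) (F : T.X ⟶ S.X) (V : S.X.Opens) (s : Pt S.X)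
  (u : Finset T.K) (i : X.X ⟶ T.X) (j : Z.X ⟶ S.X) (f : X.X ⟶ Z.X) (t : T.K) (P : Pl T.K)
  (e : X.K ≃ₐ[ℂ] P.κ) (z : Pt Z.X) (ω : X.Form (n + 1)) (B : X.QDiv)
  (h : X.K) (G : BD P.κ), 1 ≤ N → Contraction F → s.Closed → Zeros i t (all T.X) →
    Base (X := T.o) (Z := S.o) F V s u → Pe i t P e → Ov u P →
    (generic X.X).map i ∈ pre F V → FF P.κ (n + 1) → IsPreimmersion j →
    f ≫ j = i ≫ F → z.map j = s → Contraction f → h ≠ 0 →
    Frm (X := X.o) ω h → Pair (fun _ => True) (all X.X) ω B →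
    Dic i (pre F V) P e G ω B h → HasKltComplement f ω B N z →
    ∃ p, Cc p ∧ P.rd (ev u p) ≠ 0 ∧ Sc (n + 1) N u p P G

theorem sq {X Z : Sl.Var} {i : X.X ⟶ T.X} {j : Z.X ⟶ S.X} {f : X.X ⟶ Z.X} (h : f ≫ j = i ≫ F)
    (y : Pt X.X) : (y.map f).map j = (y.map i).map F := by
  have := congrArg (fun g : X.X ⟶ S.X => g y) h
  simpa only [Scheme.Hom.comp_apply] using this

/-- the frame -/
theorem frame (bk : BK) (fw : FW) (trn : TRN) (datx : DATX) (pls : PLS) (dic : DIC) (dgt : DGT) :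
    DGS := by
  intro d N T S F Ω D t s₀ hd N1 hdim hΩ hD dN hF hT hn hs X₀ Z₀ f₀ ω₀ B₀ z₀ w₀ p₀ c₀ fi hc
  obtain ⟨n, rfl⟩ : ∃ n, d = n + 1 := ⟨d - 1, by omega⟩
  have hK : FF T.K (n + 2) := Br.ffd T.o _ hdim
  obtain ⟨h, h0, fr⟩ := Br.frm T.o _ hK Ω hΩ
  obtain ⟨V, u, bs⟩ := Br.bas T.o S.o F hF s₀ hs
  obtain ⟨Λ, Γ, Γ', da, lo, on, co, nf, back⟩ :=
    datx (n + 1) T S F Ω D s₀ V u h hK h0 fr hD hF hT bs
  obtain ⟨i₀, j₀, a₀, im, s0, e0, z0, r0⟩ := fi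
  obtain ⟨y₀, hy₀⟩ := c₀.2.2.1.surj z₀
  have y1 : (Pt.map i₀ y₀).map F = s₀ := by
    rw [← sq s0 y₀, ← e0]
    exact congrArg (Pt.map j₀) hy₀
  obtain ⟨τ, eτ, cτ⟩ := tau z0 bs y₀ y1
  have g0 : (generic X₀.X).map i₀ ∈ pre F V :=
    gen_mem (y := y₀) (show (Pt.map i₀ y₀).map F ∈ V from y1 ▸ bs.mem)
  obtain ⟨P₀, ε₀, pe₀⟩ := pls T X₀ i₀ _ z0
  have f0 := fb pe₀ bs g0 on
  have k0 : FF P₀.κ (n + 1) := Gm.ff_κ _ hK
  obtain ⟨h₀, h00, fr₀⟩ := Br.frm X₀.o _ (trn _ _ _ ε₀ k0).1 ω₀ w₀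
  obtain ⟨d0, di0⟩ := dic n T X₀ i₀ P₀ ε₀ _ h h₀ Ω D ω₀ B₀ _ Γ hK z0 pe₀ r0 h0 fr h00 fr₀ lo g0
  obtain ⟨q₀, cq, rq, sc⟩ := fw n N T S X₀ Z₀ F V s₀ u i₀ j₀ f₀ _ P₀ ε₀ z₀ ω₀ B₀ h₀ _ N1 hF hs z0
    bs pe₀ f0.ov g0 k0 im s0 e0 c₀ h00 fr₀ p₀ di0 hc
  have fa := fam N1 bs da (nf hn) (fun E => hD.1 E trivial) dN on co
  rw [← eτ] at f0 sc
  obtain ⟨cp, p, cp', H⟩ := dgt n N T.K u Λ Γ Γ' τ q₀ P₀ fa cτ f0 d0 cq rq sc
  obtain ⟨U, UV, sU, hU⟩ := bs.bas p cp'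
  refine ⟨back N N1 cp, U, sU, fun X Z f ω B z s w pr sU' fi => ?_⟩
  obtain ⟨i, j, a, -, s1, e1, z1, r1⟩ := fi
  have zU : z.map j ∈ U := e1 ▸ sU'
  by_cases g1 : (generic X.X).map i ∈ pre F U
  · obtain ⟨P, ε, pe⟩ := pls T X i _ z1
    have g2 : (generic X.X).map i ∈ pre F V := UV g1
    have f1 := fb pe bs g2 on
    have k1 : FF P.κ (n + 1) := Gm.ff_κ _ hK
    obtain ⟨h₁, h10, fr₁⟩ := Br.frm X.o _ (trn _ _ _ ε k1).1 ω w
    obtain ⟨-, di⟩ := dic n T X i P ε _ h h₁ Ω D ω B _ Γ hK z1 pe r1 h0 fr h10 fr₁ lo g2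
    have et : t - constants T.str a = ev u τ - algebraMap ℂ T.K (a - a₀) := by
      rw [eτ, map_sub]
      show t - constants T.str a = t - constants T.str a₀ -
        (constants T.str a - constants T.str a₀)
      ring
    have sc1 := H (a - a₀) P (et ▸ f1) (pe.dom.rd (hU _ g1))
    rw [← et] at sc1
    exact bk n N T S X Z F V U s₀ u i j f _ P ε p z ω B h₁ _ N1 z1 bs pe f1.ov k1 UV hU s1 zU h10
      fr₁ pr di sc1
  · have no : ∀ y : Pt X.X, ¬ y.In (pre f (pre j U)) := fun y hy =>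
      g1 (gen_mem (y := y) (show (y.map i).map F ∈ U from sq s1 y ▸ hy))
    exact ⟨pre j U, B, 1, zU, fun y hy => (no _ hy).elim, ⟨fun y hy => (no _ hy).elim,
      fun y hy => (no _ hy).elim, fun M E hy => (no _ hy).elim⟩, fun y hy => (no _ hy).elim⟩

end Vale.Agent.P283R.Dg.F10
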