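import Vale.Agent.P283R.Dg.On
import Vale.Agent.P283R.Sl.Rc
import Vale.Agent.P283R.Bc.On
import Vale.Agent.P283R.Eb.On
import Vale.Agent.P283R.Eb.Ds2

/-!
# P283R: bounded klt complements for the data which are reached from a class
-/

open CategoryTheory AlgebraicGeometry

noncomputable section

namespace Vale.Agent.P283R.Sl

open Var

variable {C : ∀ (d : ℕ) (X Z : Var), (X.X ⟶ Z.X) → X.Form d → X.QDiv → Pt Z.X → Prop}
  {ε : ℝ} {R : Finset ℚ} {k d : ℕ} {X Z Y W : Var} {f : X.X ⟶ Z.X} {ω : X.Form d} {B : X.QDiv}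
  {z : Pt Z.X} {g : Y.X ⟶ W.X} {ω' : Y.Form d} {B' : Y.QDiv} {π : Y.X ⟶ X.X} {e : W.X ⟶ Z.X}

/-- the hypotheses which all data satisfy -/
structure Wk (f : X.X ⟶ Z.X) (ω : X.Form d) (B : X.QDiv) (z : Pt Z.X) : Prop where
  pos : 1 ≤ d
  dim : dimension X.str = d
  nz : ω.Nonzero
  pair : Pair (fun _ => True) (all X.X) ω B
  con : Contraction f
  cl : z.Closed

theorem Datum.wk (a : Datum ε R f ω B z) : Wk f ω B z :=
  ⟨a.1, a.2.1, a.2.2.1, a.2.2.2.1.triv, a.2.2.2.2.2.1, a.2.2.2.2.2.2.2.2⟩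

theorem Reached.wk (h : Reached ε R C k d X Z f ω B z) : Wk f ω B z := by
  cases h with
  | base a _ => exact a.wk
  | total _ _ a _ => exact a.wk
  | near _ _ _ _ _ a _ => exact a.wk
  | model _ a _ => exact a.wk
  | etale _ _ _ a _ _ _ => exact a.wk
  | cover _ _ _ _ a _ _ _ => exact a.wk

/-- the complement descends along an étale base change -/
theorem has_et {n : ℕ} {w : Pt W.X} (a : Wk f ω B z) (a' : Wk g ω' B' w) (he : EtNb e w z)
    (hb : BaseChange f e g π) (hs : SameCoeff π B'.coeff B.coeff) (hn : 2 ≤ n)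
    (h : HasKltComplement g ω' B' n w) : HasKltComplement f ω B n z := by
  obtain ⟨ι, bc⟩ := bc_of a.con he hb
  obtain rfl := he.2.2.1
  exact (has_iff f ω B _ _).2 (Eb.dscr2 Eb.dim Eb.div Eb.lft Eb.con (Eb.sec_of Eb.div) _ _ _ _ _ _
    _ _ _ bc d n ω ω' B B' w a.pos hn a.dim a.nz a'.nz hs (fun y => a.pair.1 y trivial) a.cl
    ((has_iff g ω' B' _ _).1 h))

/-- the complement descends along a cover -/
theorem has_cov {n J : ℕ} (a : Wk f ω B z) (hp : CrepantCover J π B' B) (he : IsFinite e)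
    (sq : g ≫ e = π ≫ f) (hn : 1 ≤ n)
    (h : ∀ w : Pt W.X, w.map e = z → Wk g ω' B' w ∧ HasKltComplement g ω' B' n w) :
    ∃ r, 1 ≤ r ∧ r ≤ J ∧ HasKltComplement f ω B (2 * n * r) z := by
  obtain ⟨p1, p2, p3, ι, p4, p5, hs⟩ := hp
  have fp : Bc.Fp (X := X.o) (Y := Y.o) J π ι := ⟨p1, p2, p3, p4, p5⟩
  have c' := (pair_iff _ _ ω B).1 a.pair
  obtain ⟨_, ⟨V, hV, rfl⟩, zV, -⟩ :=
    Z.X.isBasis_affineOpens.exists_subset_of_mem_open (Set.mem_univ z) isOpen_univ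
  have q : ∀ y : Pt Y.X, (y.map g).map e = (y.map π).map f := fun y => by
    change (g ≫ e) y = (π ≫ f) y
    rw [sq]
  obtain ⟨x, hx⟩ := a.con.2.2.1.surj z
  obtain ⟨y, rfl⟩ := p2.surj x
  have a' := (h (g y) ((q y).trans hx)).1
  obtain ⟨U, hU, cp⟩ := Bc.glue (X := Y.o) (Z := W.o) (f := g) (N := n) (B := B') a'.con a.pos
    a'.dim a'.nz (fun E => a'.pair.1 E trivial) (hV.preimage e) (e.finite_preimage_singleton z)
    ⟨g y, (q y).trans hx⟩ hn fun w hw => by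
      have w1 : Pt.map e w = z := hw
      exact ⟨show Pt.map e w ∈ V from w1 ▸ zV, (h w w1).1.cl, (has_iff g ω' B' _ _).1 (h w w1).2⟩
  obtain ⟨m, m1, m2, H⟩ := fp.dsc (Z := Z.o) (f := f) (z := z) a.con a.pos (by omega) a.dim a.nz
    a'.nz hs (fun y => c'.1 y trivial) (fun x => c'.2.1 x trivial)
    (fun y hy => hU (g y) ((q y).trans hy)) cp
  exact ⟨m, m1, m2, (has_iff f ω B _ _).2 H⟩

theorem Reached.has (s : Dg.DGS) (s' : BIRS) {N M : ℕ} (N2 : 2 ≤ N)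
    (hN : (∏ r ∈ R, r.den) ∣ N)
    (H : ∀ c ≤ M, ∀ (X Z : Var) (f : X.X ⟶ Z.X) (ω : X.Form c) B z, Datum ε R f ω B z →
      C c X Z f ω B z → HasKltComplement f ω B N z)
    (h : Reached ε R C k d X Z f ω B z) :
    d ≤ M → HasKltComplement f ω B (N * (2 ^ k * k.factorial)) z := by
  have p : ∀ k : ℕ, 2 ≤ N * (2 ^ k * k.factorial) := fun k =>
    N2.trans (Nat.le_mul_of_pos_right _ (Nat.mul_pos (Nat.two_pow_pos k) k.factorial_pos))
  have p1 : ∀ k : ℕ, 1 ≤ N * (2 ^ k * k.factorial) := fun k => one_le_two.trans (p k)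
  induction h with
  | base a b => exact fun k => (H _ k _ _ _ _ _ _ a b).of_dvd (dvd_mul_right _ _)
  | total t u a b ih =>
    have v := u.wk
    exact fun k => (s _ _ _ _ _ _ _ t _ v.pos (p1 _) a.2.1 a.2.2.1 a.2.2.2.1.triv
      (a.int (hN.mul_right _)) a.2.2.2.2.2.1 a.2.2.2.2.2.2.1 a.2.2.2.2.2.2.2.1 a.2.2.2.2.2.2.2.2
      _ _ _ _ _ _ v.nz v.pair v.con b (ih (by omega))).1
  | near Ω t u a b c e ih =>
    have v := u.wk
    intro k
    obtain ⟨U, sU, hU⟩ := (s _ _ _ _ _ Ω _ t _ v.pos (p1 _) a.2.1 a.2.2.1 a.2.2.2.1.triv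
      (a.int (hN.mul_right _)) a.2.2.2.2.2.1 a.2.2.2.2.2.2.1 a.2.2.2.2.2.2.2.1 a.2.2.2.2.2.2.2.2
      _ _ _ _ _ _ v.nz v.pair v.con b (ih k)).2
    obtain ⟨s', s1, s2⟩ := e U sU
    exact hU _ _ _ _ _ _ s' c.2.2.1 c.2.2.2.1.triv s1 s2
  | model u a b ih =>
    have v := u.wk
    exact fun k => s' _ _ _ _ _ _ _ _ _ _ _ _ v.pos (p1 _) a.2.1 a.2.2.1 v.nz a.2.2.2.1.triv v.pair
      a.2.2.2.2.2.1 v.con a.2.2.2.2.2.2.2.2 b (ih k)
  | etale π e u a b c i ih => exact fun k => has_et a.wk u.wk b c i (p _) (ih k)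
  | @cover k _ _ _ _ _ _ _ _ _ _ _ _ J π e u a b c i ih =>
    intro m
    obtain ⟨r, r1, r2, v⟩ := has_cov a.wk b c i (p1 k) fun w hw => ⟨(u w hw).wk, ih w hw m⟩
    refine v.of_dvd ?_
    rw [show 2 * (N * (2 ^ k * k.factorial)) * r = N * (2 ^ (k + 1) * (k.factorial * r)) by ring]
    exact Nat.mul_dvd_mul_left _ (Nat.mul_dvd_mul (pow_dvd_pow _ (by omega))
      ((Nat.mul_dvd_mul_left _ (Nat.dvd_factorial r1 r2)).trans
        (Nat.factorial_mul_factorial_dvd_factorial_add k J)))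

/-- one index for all data which are reached -/
theorem reach_all (s : Dg.DGS) (s' : BIRS) (h : On C) (hε : 0 < ε)
    (hR : ∀ r ∈ R, 0 ≤ r ∧ r ≤ 1) (k d : ℕ) : ∃ n, 1 ≤ n ∧ ∀ (X Z : Var) (f : X.X ⟶ Z.X)
      (ω : X.Form d) B z, Reached ε R C k d X Z f ω B z → HasKltComplement f ω B n z := by
  choose n n1 H using fun e : ℕ => h (e + 1) (Nat.le_add_left _ _) ε hε R hR
  have p : 0 < (∏ r ∈ R, r.den) * ∏ e ∈ Finset.range d, n e :=
    Nat.mul_pos (Finset.prod_pos fun r _ => r.den_pos) (Finset.prod_pos fun e _ => n1 e)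
  refine ⟨_, Nat.mul_pos (Nat.mul_pos p two_pos) (Nat.mul_pos (Nat.two_pow_pos k) k.factorial_pos),
    fun X Z f ω B z u => u.has s s' (Nat.le_mul_of_pos_left _ p)
      ((dvd_mul_right _ _).mul_right _) (fun e k X Z f ω B z a b => ?_) le_rfl⟩
  obtain ⟨e, rfl⟩ : ∃ m, e = m + 1 := ⟨e - 1, by have := a.1; omega⟩
  exact (H e X Z f ω B z a.2.1 a.2.2.1 a.2.2.2.1 a.2.2.2.2.1 a.2.2.2.2.2.1 a.2.2.2.2.2.2.2.2
    b).of_dvd (((Finset.dvd_prod_of_mem n (Finset.mem_range.2 k)).mul_left _).mul_right _)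

/-- **bounded klt complements pass to the data which are reached** -/
theorem on_reach (s : Dg.DGS) (s' : BIRS) (h : On C) (hε : 0 < ε)
    (hR : ∀ r ∈ R, 0 ≤ r ∧ r ≤ 1) (k : ℕ) : On (Reached ε R C k) := fun d _ _ _ _ _ =>
  let ⟨n, n1, H⟩ := reach_all s s' h hε hR k d
  ⟨n, n1, fun X Z f ω B z _ _ _ _ _ _ u => H X Z f ω B z u⟩

theorem Reached.mono
    {C' : ∀ (d : ℕ) (X Z : Var), (X.X ⟶ Z.X) → X.Form d → X.QDiv → Pt Z.X → Prop}
    (i : ∀ d X Z f ω B z, Datum ε R f ω B z → C d X Z f ω B z → C' d X Z f ω B z)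
    (u : Reached ε R C k d X Z f ω B z) : Reached ε R C' k d X Z f ω B z := by
  induction u with
  | base a b => exact .base a (i _ _ _ _ _ _ _ a b)
  | total t _ a b ih => exact .total t ih a b
  | near Ω t _ a b c e ih => exact .near Ω t ih a b c e
  | model _ a b ih => exact .model ih a b
  | etale π e _ a b c i ih => exact .etale π e ih a b c i
  | cover J π e _ a b c i ih => exact .cover J π e ih a b c i

/-- the same, where Fano type and nef are taken from the datum -/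
theorem on_reach' (s : Dg.DGS) (s' : BIRS)
    (h : On fun d X Z f ω B z => FanoType f ω ∧ NefOver f (-logCan ω B) ∧ C d X Z f ω B z)
    (hε : 0 < ε) (hR : ∀ r ∈ R, 0 ≤ r ∧ r ≤ 1) (k : ℕ) : On (Reached ε R C k) :=
  (on_reach s s' h hε hR k).mono fun _ _ _ _ _ _ _ u =>
    u.mono fun _ _ _ _ _ _ _ a b => ⟨a.2.2.2.2.2.2.1, a.2.2.2.2.2.2.2.1, b⟩

/-- a family of classes, where Fano type and nef are taken from the datum -/
theorem reach_fam (s : Dg.DGS) (s' : BIRS)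
    {C : ℕ → ∀ (d : ℕ) (X Z : Var), (X.X ⟶ Z.X) → X.Form d → X.QDiv → Pt Z.X → Prop}
    (h : ∀ l, On fun d X Z f ω B z => FanoType f ω ∧ NefOver f (-logCan ω B) ∧ C l d X Z f ω B z)
    (hε : 0 < ε) (hR : ∀ r ∈ R, 0 ≤ r ∧ r ≤ 1) (d : ℕ) :
    ∃ n : ℕ → ℕ, (∀ l, 1 ≤ n l) ∧ ∀ (X Z : Var) (f : X.X ⟶ Z.X) (ω : X.Form d) B z l,
      Reached ε R (C l) l d X Z f ω B z → HasKltComplement f ω B (n l) z := by
  choose n n1 H using fun l => reach_all s s' (h l) hε hR l d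
  exact ⟨n, n1, fun X Z f ω B z l u => H l X Z f ω B z
    (u.mono fun _ _ _ _ _ _ _ a b => ⟨a.2.2.2.2.2.2.1, a.2.2.2.2.2.2.2.1, b⟩)⟩

end Vale.Agent.P283R.Sl
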