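import Vale.Agent.P283R.Dg.All
import Vale.Agent.P283R.Dg.Rc
import Vale.Agent.P283R.Sl.Lk
import Vale.Agent.P283R.Sl.Nr

/-!
# P283R, block DG: the data which are linked to a class
-/

open CategoryTheory AlgebraicGeometry

namespace Vale.Agent.P283R.Sl

open Var

variable {C : ∀ (d : ℕ) (X Z : Var), (X.X ⟶ Z.X) → X.Form d → X.QDiv → Pt Z.X → Prop}
  {ε : ℝ} {R : Finset ℚ} {d : ℕ} {X Z : Var} {f : X.X ⟶ Z.X} {ω : X.Form d} {B : X.QDiv}
  {z : Pt Z.X}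

theorem Linked.reached (h : Linked ε R C d X Z f ω B z) : Reached ε R C 0 d X Z f ω B z := by
  induction h with
  | base a b => exact .base a b
  | total t _ a b ih => exact .total t ih a b
  | near Ω t _ a b c e ih => exact .near Ω t ih a b c e
  | model _ a b ih => exact .model ih a b
  | etale π e _ a b c s ih => exact .etale π e ih a b c s

theorem Wk.stable (a : Wk f ω B z) {N : ℕ} (N1 : 1 ≤ N) (hN : (∏ r ∈ R, r.den) ∣ N)
    (h : HasKltComplement f ω B N z) : Stable R N f ω B z := by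
  refine ⟨h, fun T S F Ω D t s b c => ?_⟩
  obtain ⟨U, sU, hU⟩ := (Dg.dgs d N T S F Ω D t s a.pos N1 b.2.1 b.2.2.1 b.2.2.2.1.triv (b.int hN)
    b.2.2.2.2.2.1 b.2.2.2.2.2.2.1 b.2.2.2.2.2.2.2.1 b.2.2.2.2.2.2.2.2 _ _ _ _ _ _ a.nz a.pair
    a.con c h).2
  exact ⟨U, sU, fun X' Z' f' ω' B' z' s' e u v => hU _ _ _ _ _ _ s' e.2.2.1 e.2.2.2.1.triv u v⟩

/-- one index for all data which are reached from a class, and for their neighbours -/
theorem reach_st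
    (h : On fun d X Z f ω B z => FanoType f ω ∧ NefOver f (-logCan ω B) ∧ C d X Z f ω B z)
    (d k : ℕ) (hε : 0 < ε) (hR : ∀ r ∈ R, 0 ≤ r ∧ r ≤ 1) :
    ∃ n : ℕ, 1 ≤ n ∧ ∀ (X Z : Var) (f : X.X ⟶ Z.X) (ω : X.Form d) (B : X.QDiv) (z : Pt Z.X),
      Reached ε R C k d X Z f ω B z → Stable R n f ω B z := by
  obtain ⟨n, n1, H⟩ := reach_all Dg.dgs birs h hε hR k d
  have p : 0 < (∏ r ∈ R, r.den) * n := Nat.mul_pos (Finset.prod_pos fun r _ => r.den_pos) n1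
  exact ⟨_, p, fun X Z f ω B z u => u.wk.stable p (dvd_mul_right _ _) ((H X Z f ω B z
    (u.mono fun _ _ _ _ _ _ _ a c => ⟨a.2.2.2.2.2.2.1, a.2.2.2.2.2.2.2.1, c⟩)).of_dvd
      (dvd_mul_left _ _))⟩

/-- one index for all data which are linked to a class, and for their neighbours -/
theorem link_st
    (h : On fun d X Z f ω B z => FanoType f ω ∧ NefOver f (-logCan ω B) ∧ C d X Z f ω B z)
    (d : ℕ) (hε : 0 < ε) (hR : ∀ r ∈ R, 0 ≤ r ∧ r ≤ 1) :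
    ∃ n : ℕ, 1 ≤ n ∧ ∀ (X Z : Var) (f : X.X ⟶ Z.X) (ω : X.Form d) (B : X.QDiv) (z : Pt Z.X),
      Linked ε R C d X Z f ω B z → Stable R n f ω B z :=
  (reach_st h d 0 hε hR).imp fun _ u => ⟨u.1, fun X Z f ω B z v => u.2 X Z f ω B z v.reached⟩

/-- the same without the neighbours -/
theorem link_has
    (h : On fun d X Z f ω B z => FanoType f ω ∧ NefOver f (-logCan ω B) ∧ C d X Z f ω B z)
    (d : ℕ) (hε : 0 < ε) (hR : ∀ r ∈ R, 0 ≤ r ∧ r ≤ 1) :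
    ∃ n : ℕ, 1 ≤ n ∧ ∀ (X Z : Var) (f : X.X ⟶ Z.X) (ω : X.Form d) (B : X.QDiv) (z : Pt Z.X),
      Linked ε R C d X Z f ω B z → HasKltComplement f ω B n z :=
  (link_st h d hε hR).imp fun _ u => ⟨u.1, fun X Z f ω B z v => (u.2 X Z f ω B z v).1⟩

end Vale.Agent.P283R.Sl
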