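import Vale.Agent.P283R.Dg.On
import Vale.Agent.P283R.Sl.Nr
import Vale.Agent.P283R.Cx.Gv
import Vale.Agent.P283R.Mt.Tor

/-!
# P283R, block DG: the neighbours in a family
-/

open CategoryTheory AlgebraicGeometry

namespace Vale.Agent.P283R.Sl

open Var

variable {ε : ℝ} {R : Finset ℚ} {d : ℕ} {X Z : Var} {f : X.X ⟶ Z.X} {ω : X.Form d} {B : X.QDiv}
  {z : Pt Z.X}

theorem Datum.stable (g : Dg.DGS) (a : Datum ε R f ω B z) {N : ℕ} (N1 : 1 ≤ N)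
    (hN : (∏ r ∈ R, r.den) ∣ N) (h : HasKltComplement f ω B N z) : Stable R N f ω B z := by
  refine ⟨h, fun T S F Ω D t s b c => ?_⟩
  obtain ⟨U, sU, hU⟩ := (g d N T S F Ω D t s a.1 N1 b.2.1 b.2.2.1 b.2.2.2.1.triv (b.int hN)
    b.2.2.2.2.2.1 b.2.2.2.2.2.2.1 b.2.2.2.2.2.2.2.1 b.2.2.2.2.2.2.2.2 _ _ _ _ _ _ a.2.2.1
    a.2.2.2.1.triv a.2.2.2.2.2.1 c h).2
  exact ⟨U, sU, fun X' Z' f' ω' B' z' s' e u v => hU _ _ _ _ _ _ s' e.2.2.1 e.2.2.2.1.triv u v⟩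

/-- one index for a class and for all neighbours of its members -/
theorem On.stable {C : ∀ (d : ℕ) (X Z : Var), (X.X ⟶ Z.X) → X.Form d → X.QDiv → Pt Z.X → Prop}
    (g : Dg.DGS) (h : On fun d X Z f ω B z =>
      FanoType f ω ∧ NefOver f (-logCan ω B) ∧ C d X Z f ω B z) (d : ℕ) (hε : 0 < ε)
    (hR : ∀ r ∈ R, 0 ≤ r ∧ r ≤ 1) :
    ∃ n : ℕ, 1 ≤ n ∧ ∀ (X Z : Var) (f : X.X ⟶ Z.X) (ω : X.Form d) (B : X.QDiv) (z : Pt Z.X),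
      Datum ε R f ω B z → C d X Z f ω B z → Stable R n f ω B z := by
  by_cases hd : 1 ≤ d
  · obtain ⟨n, n1, H⟩ := h d hd ε hε R hR
    have p : 0 < (∏ r ∈ R, r.den) * n := Nat.mul_pos (Finset.prod_pos fun r _ => r.den_pos) n1
    exact ⟨_, p, fun X Z f ω B z a c => a.stable g p (dvd_mul_right _ _)
      ((H X Z f ω B z a.2.1 a.2.2.1 a.2.2.2.1 a.2.2.2.2.1 a.2.2.2.2.2.1 a.2.2.2.2.2.2.2.2
        ⟨a.2.2.2.2.2.2.1, a.2.2.2.2.2.2.2.1, c⟩).of_dvd (dvd_mul_left _ _))⟩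
  · exact ⟨1, le_rfl, fun _ _ _ _ _ _ a _ => (hd a.1).elim⟩

/-- from a family of classes to one statement -/
theorem master_st (g : Dg.DGS) (d : ℕ) (hε : 0 < ε) (hR : ∀ r ∈ R, 0 ≤ r ∧ r ≤ 1)
    {C : ℕ → ∀ (d : ℕ) (X Z : Var), (X.X ⟶ Z.X) → X.Form d → X.QDiv → Pt Z.X → Prop}
    (h : ∀ l, On fun d X Z f ω B z =>
      FanoType f ω ∧ NefOver f (-logCan ω B) ∧ C l d X Z f ω B z) :
    ∃ n : ℕ → ℕ, (∀ l, 1 ≤ n l) ∧ ∀ (X Z : Var) (f : X.X ⟶ Z.X) (ω : X.Form d) (B : X.QDiv)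
      (z : Pt Z.X), Datum ε R f ω B z → (∃ l, Generated l f ω B z) ∧
        ((∃ W, z.In W ∧ Toric (pre f W) d) → Generated (d + 1) f ω B z) ∧
        ∀ l, C l d X Z f ω B z → Stable R (n l) f ω B z := by
  choose n n1 H using fun l => (h l).stable g d hε hR
  exact ⟨n, n1, fun X Z f ω B z a => ⟨gen_all un a.1 X Z f ω B z a.2.1 a.2.2.1 a.2.2.2.2.2.1
    a.2.2.2.2.2.2.1 a.2.2.2.2.2.2.2.2, fun ⟨_, u, v⟩ => Mt.tor a.1 a.2.1 a.2.2.1 a.2.2.2.2.2.1 B u v,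
    fun l => H l X Z f ω B z a⟩⟩

end Vale.Agent.P283R.Sl
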