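import Vale.Agent.P283R.Sl.Dg
import Vale.Agent.P283R.Sl.Br
import Vale.Agent.P283M.Br.Brg
import Vale.Agent.P287D.Ad.Df
import Vale.Agent.P287D.St

/-!
# P283R, block DG: klt complements in families, the statements
-/

open Set CategoryTheory AlgebraicGeometry

noncomputable section

namespace Vale.Agent.P283R.Dg

open Vale.Agent.P287D Vale.Agent.P283M

section defs

variable {K : Type} [Field K] [Algebra ℂ K]

/-- the place lies over `{p ≠ 0}` -/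
def Nb (u : Finset K) (p : MvPolynomial u ℂ) (R : Pl K) : Prop := Ov u R ∧ R.rd (ev u p) ≠ 0

/-- the place `Q` of the residue field of `P` lies over `{p ≠ 0}` -/
def Nk (u : Finset K) (p : MvPolynomial u ℂ) (P : Pl K) (Q : Pl P.κ) : Prop :=
  (∀ a ∈ u, P.rd a ∈ Q.ring) ∧ Q.rd (P.rd (ev u p)) ≠ 0

/-- the place is centred over the origin -/
def Or0 (u : Finset K) (R : Pl K) : Prop := ∀ a ∈ u, a = 0 ∨ 0 < R.ord a

/-- `p` does not vanish at the origin -/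
def Cc {u : Finset K} (p : MvPolynomial u ℂ) : Prop := MvPolynomial.constantCoeff p ≠ 0

/-- over `V` the divisor of `t` is the prime divisor `P` -/
structure Fb (n : ℕ) (u : Finset K) (Λ : BD K) (t : K) (P : Pl K) : Prop where
  ov : Ov u P
  on : On n Λ P
  one : P.ord t = 1
  oth : ∀ R, Ov u R → On n Λ R → R ≠ P → R.ord t = 0

/-- the family -/
structure Fam (n N : ℕ) (u : Finset K) (Λ Γ Γ' : BD K) : Prop where
  dat : Dat n u Λ Γ Γ'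
  nef : ∀ δ : ℝ, 0 < δ → SmpO u (-Γ - δ • Γ')
  pos : 1 ≤ N
  bd : ∀ R, Ov u R → On n Λ R → dsc (n + 1) Γ R ≤ 0 ∧ ∃ m : ℤ, N * dsc (n + 1) Γ R = m

/-- a klt `N`-complement of `G` on `P` over `{p ≠ 0}` (`P.κ` of dimension `n`) -/
def Sc (n N : ℕ) (u : Finset K) (p : MvPolynomial u ℂ) (P : Pl K) (G : BD P.κ) : Prop :=
  ∃ φ : P.κ, φ ≠ 0 ∧ ∀ Q, Nk u p P Q →
    G Q ≤ (N : ℝ)⁻¹ * dv φ Q ∧ -1 < dsc n ((N : ℝ)⁻¹ • dv φ) Q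

/-- `H` is effective with the support outside of `{p ≠ 0}` -/
structure Out (u : Finset K) (p : MvPolynomial u ℂ) (H : BD K) : Prop where
  nn : 0 ≤ H
  smp : Smp H
  des : Dsc (inf u) H
  ov : ∀ R, Ov u R → H R = R.ord (ev u p)
  iff : ∀ R, H R = 0 ↔ Nb u p R
  res : ∀ P, H P = 0 → ∀ Q, res P H Q = 0 ↔ Nk u p P Q

end defs

/-! ### the rows on the tier -/

/-- **HH** -/
def HH : Prop := ForS fun _ K _ _ => ∀ (u : Finset K) (p : MvPolynomial u ℂ), ev u p ≠ 0 →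
  ∃ H, Out u p H

/-- **HV**: Hartogs over `V` -/
def HV : Prop := ForS fun n K _ _ => ∀ (u : Finset K) (Λ β : BD K), Smp Λ → Big Λ →
  Dsc Λ (inf u) → Dsc Λ β → (∀ R, Ov u R → On n Λ R → 0 ≤ β R) → ∀ R, Ov u R → 0 ≤ β R

/-- **UB**: a uniform bound -/
def UB : Prop := ForS fun n K _ _ => ∀ β ∈ Car K, ∀ H ∈ Car K, 0 ≤ H →
  (∀ Q, H Q = 0 → -1 < dsc (n + 1) β Q) → ∃ c : ℕ, Klt (n + 1) (β - (c : ℝ) • H)

/-- **PR**: the adjoint of a principal b-divisor -/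
def PR : Prop := ForP fun n K _ _ P => ∀ (N : ℕ) (φ : K), 1 ≤ N → φ ≠ 0 →
  ∃ φ' : P.κ, φ' ≠ 0 ∧ adj n P ((N : ℝ)⁻¹ • dv φ) = (N : ℝ)⁻¹ • dv φ'

/-- **LIFT**: the extension of the complement -/
def LIFT : Prop := ∀ (n N : ℕ) (K : Type) [Field K] [Algebra ℂ K] (u : Finset K) (Λ Γ Γ' : BD K)
  (t : K) (P : Pl K) (p : MvPolynomial u ℂ), Fam (n + 1) N u Λ Γ Γ' → Fb (n + 1) u Λ t P →
    dsc (n + 2) Γ P = 0 → P.rd (ev u p) ≠ 0 → Sc (n + 1) N u p P (adj (n + 1) P (Γ + dv t)) →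
    ∃ φ : K, φ ≠ 0 ∧ (∀ R, Ov u R → (Γ + dv t) R ≤ (N : ℝ)⁻¹ * dv φ R) ∧
      dsc (n + 2) ((N : ℝ)⁻¹ • dv φ) P = -1 ∧
      ∀ Q, Nk u p P Q → -1 < dsc (n + 1) (adj (n + 1) P ((N : ℝ)⁻¹ • dv φ)) Q

/-- **A5L**: inversion of adjunction outside of the support of `H` -/
def A5L : Prop := ∀ (n : ℕ) (K : Type) [Field K] [Algebra ℂ K] (Λ G H : BD K) (P : Pl K),
  FF K (n + 2) → Smp Λ → Big Λ → Dsc Λ G → Dsc Λ H → 0 ≤ H → H P = 0 →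
    (∀ R, On (n + 1) Λ R → H R = 0 → dsc (n + 2) G R ≤ 0) → dsc (n + 2) G P = -1 →
    (∀ Q, res P H Q = 0 → -1 < dsc (n + 1) (adj (n + 1) P G) Q) →
    ∀ R R₀, R ≠ P → CLe Λ R₀ R → CLe Λ R₀ P → H R₀ = 0 → -1 < dsc (n + 2) G R

/-- **FINP**: the finite check for plt -/
def FINP : Prop := ForP fun n K _ _ P => ∀ G ∈ Car K, ∀ Λ ∈ Car K, dsc (n + 1) G P = -1 →
  ∃ T : Finset (Pl K), ∀ R, R ≠ P → dsc (n + 1) G R ≤ -1 →
    ∃ R' ∈ T, R' ≠ P ∧ dsc (n + 1) G R' ≤ -1 ∧ CLe Λ R R'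

/-- **SPC**: specialisation to the origin -/
def SPC : Prop := ForS fun _ K _ _ => ∀ (u : Finset K) (Λ : BD K) (R : Pl K), Smp Λ → Ov u R →
  (∀ p : MvPolynomial u ℂ, Cc p → R.rd (ev u p) ≠ 0) → ∃ R₀, Or0 u R₀ ∧ CLe Λ R₀ R

/-- **CL**: the fibre over the origin lies in `P` -/
def CL : Prop := ForS fun n K _ _ => ∀ (u : Finset K) (Λ : BD K) (τ : MvPolynomial u ℂ)
  (P R : Pl K), Smp Λ → Big Λ → Dsc Λ (inf u) → ¬ Cc τ → Fb n u Λ (ev u τ) P → Or0 u R →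
    CLe Λ R P ∧ ∀ p, Cc p → Nb u p R

/-- **INV**: plt over a neighbourhood of the origin -/
def INV : Prop := ∀ (n : ℕ) (K : Type) [Field K] [Algebra ℂ K] (u : Finset K) (Λ G : BD K)
  (τ p₀ : MvPolynomial u ℂ) (P : Pl K), FF K (n + 2) → Smp Λ → Big Λ → Dsc Λ (inf u) → Dsc Λ G →
    ¬ Cc τ → Fb (n + 1) u Λ (ev u τ) P → Cc p₀ → P.rd (ev u p₀) ≠ 0 →
    (∀ R, Ov u R → On (n + 1) Λ R → dsc (n + 2) G R ≤ 0) → dsc (n + 2) G P = -1 →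
    (∀ Q, Nk u p₀ P Q → -1 < dsc (n + 1) (adj (n + 1) P G) Q) →
    ∃ p, Cc p ∧ ∀ R, Nb u p R → R ≠ P → -1 < dsc (n + 2) G R

/-- **BTP**: almost all fibres -/
def BTP : Prop := ForS fun n K _ _ => ∀ (u : Finset K) (Λ Ψ : BD K) (τ p : MvPolynomial u ℂ),
  Smp Λ → Big Λ → Dsc Λ (inf u) → Ψ ∈ Car K → (∀ R, Nb u p R → -1 < dsc (n + 1) Ψ R) →
    ∃ C : Set ℂ, C.Finite ∧ ∀ c ∉ C, ∀ P, Fb n u Λ (ev u τ - algebraMap ℂ K c) P →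
      dsc (n + 1) Ψ P = 0 ∧ ∀ R, Nb u p R → R ≠ P →
        -1 < dsc (n + 1) (Ψ + dv (ev u τ - algebraMap ℂ K c)) R

/-- **AF**: adjunction over `{p ≠ 0}` -/
def AF : Prop := ForP fun n K _ _ P => ∀ (u : Finset K) (p : MvPolynomial u ℂ), ∀ Ψ ∈ Car K,
  ∀ β ∈ Car K, Nb u p P → dsc (n + 1) Ψ P = -1 → β P = 0 →
    (∀ R, Nb u p R → R ≠ P → -1 < dsc (n + 1) Ψ R ∧ 0 ≤ β R) →
    ∀ Q, Nk u p P Q → -1 < dsc n (adj n P Ψ) Q ∧ 0 ≤ res P β Q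

/-- **DGT**: the theorem on the tier -/
def DGT : Prop := ∀ (n N : ℕ) (K : Type) [Field K] [Algebra ℂ K] (u : Finset K) (Λ Γ Γ' : BD K)
  (τ p₀ : MvPolynomial u ℂ) (P : Pl K), Fam (n + 1) N u Λ Γ Γ' → ¬ Cc τ →
    Fb (n + 1) u Λ (ev u τ) P → dsc (n + 2) Γ P = 0 → Cc p₀ → P.rd (ev u p₀) ≠ 0 →
    Sc (n + 1) N u p₀ P (adj (n + 1) P (Γ + dv (ev u τ))) →
    Cpl (n + 1) N u Λ Γ ∧ ∃ p, Cc p ∧ ∀ (c : ℂ) (P' : Pl K),
      Fb (n + 1) u Λ (ev u τ - algebraMap ℂ K c) P' → P'.rd (ev u p) ≠ 0 →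
      Sc (n + 1) N u p P' (adj (n + 1) P' (Γ + dv (ev u τ - algebraMap ℂ K c)))

/-- **LIFTR** -/
def LIFTR : Prop := HH → HV → UB → LIFT

/-- **BTPR** -/
def BTPR : Prop := HH → BTP

/-- **AFR** -/
def AFR : Prop := HH → AF

/-- **INVR** -/
def INVR : Prop := HH → A5L → FINP → SPC → CL → INV

/-- **TOPT** -/
def TOPT : Prop := PR → LIFT → INV → BTP → AF → DGT

/-! ### the rows on schemes -/

section sch

open Sl Sl.Var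
open Vale.Agent.P283M.Br (Dom Is UnAt Base Dif Frm gam)

variable {T S Y : Sl.Var}

/-- `h` is the restriction to `Y` of the rational function `g` on `T` -/
def Rst (ι : Y.X ⟶ T.X) (g : T.K) (h : Y.K) : Prop :=
  ∃ a : St T.X ((generic Y.X).map ι), toRat a = g ∧ toRat (comap ι _ a) = h

/-- `P` is the place of the subvariety `Y = {t = 0}`, `e` identifies the residue field -/
structure Pe (ι : Y.X ⟶ T.X) (t : T.K) (P : Pl T.K) (e : Y.K ≃ₐ[ℂ] P.κ) : Prop where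
  cod : ((generic Y.X).map ι).CodimOne
  dom : Dom (X := T.o) P.ring ((generic Y.X).map ι)
  one : P.ord t = 1
  oth : ∀ E : T.PrimeDiv, E.1 ≠ (generic Y.X).map ι → ord t E = 0
  rst : ∀ a b, Rst ι a b ↔ a ∈ P.ring ∧ e b = P.rd a
  stk : ∀ (y : Pt Y.X) (a : St T.X (y.map ι)), Rst ι (toRat a) (toRat (comap ι y a))
  reg : ∀ (y : Pt Y.X) a b, Rst ι a b → RegAt a (y.map ι) →
    RegAt b y ∧ (UnAt (X := Y.o) b y ↔ UnAt (X := T.o) a (y.map ι))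
  sur : ∀ (y : Pt Y.X) b, RegAt b y → ∃ a, RegAt a (y.map ι) ∧ Rst ι a b

/-- the local description of `Γ` over `W` -/
def Loc {n : ℕ} (W : T.X.Opens) (Ω : T.Form n) (D : T.QDiv) (h : T.K) (Γ : BD T.K) : Prop :=
  ∃ m t₁ t₂, Dif (X := T.o) (-logCan Ω D) m t₁ t₂ W ∧ Γ = gam (X := T.o) m t₁ t₂ h

/-- the discrepancies of `G` on `P` are those of the pair `(Y, B)` over `W` -/
def Dic {n : ℕ} (ι : Y.X ⟶ T.X) (W : T.X.Opens) (P : Pl T.K) (e : Y.K ≃ₐ[ℂ] P.κ) (G : BD P.κ)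
    (ω : Y.Form n) (B : Y.QDiv) (h : Y.K) : Prop :=
  ∀ (Q : Pl P.κ) (Q' : Pl Y.K) (y : Pt Y.X), Lies (e : Y.K →+* P.κ) Q Q' →
    Dom (X := Y.o) Q'.ring y → y.map ι ∈ W → ∀ (m : ℕ) (g : Y.K), 0 < m →
      LocalEq (logCan ω B) m g y → dsc n G Q = cn Y.K n Q' + Q'.ord h - Q'.ord g / m

end sch

open Sl Sl.Var
open Vale.Agent.P283M.Br (Dom Is UnAt Base Dif Frm gam)

/-- **TRN**: transport along an isomorphism -/
def TRN : Prop := ∀ (n : ℕ) (L L' : Type) [Field L] [Algebra ℂ L] [Field L'] [Algebra ℂ L']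
  (e : L ≃ₐ[ℂ] L'), FF L' n → FF L n ∧ (∀ Q : Pl L', ∃ Q', Lies (e : L →+* L') Q Q') ∧
    (∀ Q', ∃ Q : Pl L', Lies (e : L →+* L') Q Q') ∧
    (∀ Q Q', Lies (e : L →+* L') Q Q' → (∀ x, Q.ord (e x) = Q'.ord x) ∧
      ∀ y : Fin n → L, kap (fun i => e (y i)) Q = kap y Q') ∧
    ∃ J : L, J ≠ 0 ∧ ∀ Q Q', Lies (e : L →+* L') Q Q' → cn L' n Q = cn L n Q' + Q'.ord J

/-- **DATX**: the data of the family -/
def DATX : Prop := ∀ (n : ℕ) (T S : Sl.Var) (F : T.X ⟶ S.X) (Ω : T.Form (n + 1)) (D : T.QDiv)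
  (s : Pt S.X) (V : S.X.Opens) (u : Finset T.K) (h : T.K), FF T.K (n + 1) → h ≠ 0 →
    Frm (X := T.o) Ω h → Pair (fun _ => True) (all T.X) Ω D → Contraction F → FanoType F Ω →
    Base (X := T.o) (Z := S.o) F V s u → ∃ Λ Γ Γ', Dat n u Λ Γ Γ' ∧ Loc (pre F V) Ω D h Γ ∧
      (∀ (P : Pl T.K) (x : Pt T.X), x ∈ pre F V → Dom (X := T.o) P.ring x →
        (On n Λ P ↔ x.CodimOne)) ∧
      (∀ (P : Pl T.K) (E : T.PrimeDiv), E.1 ∈ pre F V → Dom (X := T.o) P.ring E.1 →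
        dsc (n + 1) Γ P = -(D.coeff E : ℝ)) ∧
      (NefOver F (-logCan Ω D) → NefO n T.K u (-Γ)) ∧
      ∀ N, 1 ≤ N → Cpl n N u Λ Γ → HasKltComplement F Ω D N s

/-- **PLS**: the place of the zero scheme of a function -/
def PLS : Prop := ∀ (T Y : Sl.Var) (ι : Y.X ⟶ T.X) (t : T.K), Zeros ι t (all T.X) →
  ∃ P e, Pe ι t P e

/-- **DIC**: adjunction -/
def DIC : Prop := ∀ (n : ℕ) (T Y : Sl.Var) (ι : Y.X ⟶ T.X) (P : Pl T.K) (e : Y.K ≃ₐ[ℂ] P.κ)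
  (t h : T.K) (h' : Y.K) (Ω : T.Form (n + 2)) (D : T.QDiv) (ω : Y.Form (n + 1)) (B : Y.QDiv)
  (W : T.X.Opens) (Γ : BD T.K), FF T.K (n + 2) → Zeros ι t (all T.X) → Pe ι t P e →
    Restrict ι B D → h ≠ 0 → Frm (X := T.o) Ω h → h' ≠ 0 → Frm (X := Y.o) ω h' →
    Loc W Ω D h Γ → (generic Y.X).map ι ∈ W →
      dsc (n + 2) Γ P = 0 ∧ Dic ι W P e (adj (n + 1) P (Γ + dv t)) ω B h'

/-- **CTR**: centres on the subvariety -/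
def CTR : Prop := ∀ (T S Y : Sl.Var) (F : T.X ⟶ S.X) (V : S.X.Opens) (s : Pt S.X)
  (u : Finset T.K) (ι : Y.X ⟶ T.X) (t : T.K) (P : Pl T.K) (e : Y.K ≃ₐ[ℂ] P.κ),
    Zeros ι t (all T.X) → Base (X := T.o) (Z := S.o) F V s u → Pe ι t P e → Ov u P →
    ∀ (Q : Pl P.κ) (Q' : Pl Y.K), Lies (e : Y.K →+* P.κ) Q Q' →
      ((∀ a ∈ u, P.rd a ∈ Q.ring) → ∃ y : Pt Y.X, y.map ι ∈ pre F V ∧ Dom (X := Y.o) Q'.ring y) ∧
      ∀ y : Pt Y.X, y.map ι ∈ pre F V → Dom (X := Y.o) Q'.ring y → ∀ p : MvPolynomial u ℂ,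
        (Nk u p P Q ↔ UnAt (X := T.o) (ev u p) (y.map ι))

/-- **NBH**: the sets `{p ≠ 0}` are a basis of the neighbourhoods of `s` -/
def NBH : Prop := ∀ (T S : Sl.Var) (F : T.X ⟶ S.X) (V U : S.X.Opens) (s : Pt S.X)
  (u : Finset T.K), Contraction F → s.Closed → Base (X := T.o) (Z := S.o) F V s u → s ∈ U →
    ∃ p : MvPolynomial u ℂ, Cc p ∧ ∀ x ∈ pre F V, UnAt (X := T.o) (ev u p) x → x ∈ pre F U

/-- **OFH**: from a complement to the places -/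
def OFH : Prop := ∀ (n N : ℕ) (Y : Sl.Var) (W : Y.X.Opens) (ω : Y.Form n) (B Λ : Y.QDiv)
  (φ h : Y.K), 1 ≤ N → φ ≠ 0 → h ≠ 0 → Frm (X := Y.o) ω h →
    (∀ E : Y.PrimeDiv, E.1 ∈ W → B.coeff E ≤ Λ.coeff E) → Pair (0 < ·) W ω Λ →
    (∀ y ∈ W, LocalEq (logCan ω Λ) N φ y) →
      ∀ (Q : Pl Y.K) (y : Pt Y.X), y ∈ W → Dom (X := Y.o) Q.ring y →
        -1 < dsc n ((N : ℝ)⁻¹ • dv (φ / h ^ N)) Q ∧ ∀ (m : ℕ) (g : Y.K), 0 < m →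
          LocalEq (logCan ω B) m g y → (Q.ord g : ℝ) / m ≤ (N : ℝ)⁻¹ * Q.ord φ

/-- **DGS**: klt complements are open in families -/
def DGS : Prop := ∀ (d N : ℕ) (T S : Sl.Var) (F : T.X ⟶ S.X) (Ω : T.Form (d + 1)) (D : T.QDiv)
  (t : T.K) (s₀ : Pt S.X), 1 ≤ d → 1 ≤ N → dimension T.str = (d + 1 : ℕ) → Ω.Nonzero →
    Pair (fun _ => True) (all T.X) Ω D → (∀ E, ∃ m : ℤ, N * D.coeff E = m) → Contraction F →
    FanoType F Ω → NefOver F (-logCan Ω D) → s₀.Closed →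
    ∀ (X₀ Z₀ : Sl.Var) (f₀ : X₀.X ⟶ Z₀.X) (ω₀ : X₀.Form d) (B₀ : X₀.QDiv) (z₀ : Pt Z₀.X),
      ω₀.Nonzero → Pair (fun _ => True) (all X₀.X) ω₀ B₀ → Contraction f₀ →
      FibreAt F t D s₀ f₀ B₀ z₀ → HasKltComplement f₀ ω₀ B₀ N z₀ →
      HasKltComplement F Ω D N s₀ ∧
        ∃ U : S.X.Opens, s₀.In U ∧ ∀ (X Z : Sl.Var) (f : X.X ⟶ Z.X) (ω : X.Form d) (B : X.QDiv)
          (z : Pt Z.X) (s : Pt S.X), ω.Nonzero → Pair (fun _ => True) (all X.X) ω B → s.In U →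
          FibreAt F t D s f B z → HasKltComplement f ω B N z

/-- **TOPS** -/
def TOPS : Prop := TRN → DATX → PLS → DIC → CTR → NBH → OFH → DGT → DGS

end Vale.Agent.P283R.Dg
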