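import Vale.Agent.P283R.Dg.St
import Vale.Agent.P283R.Br.Glue

/-!
# P283R, block DG: from the places to a complement
-/

open Set CategoryTheory AlgebraicGeometry

noncomputable section

namespace Vale.Agent.P283R.Dg

open Vale.Agent.P287D Vale.Agent.P283M Sl Sl.Var
open Vale.Agent.P283M.Br (Dom Is UnAt Base Dif Frm gam)

/-- the converse of `OFH` -/
theorem toh {n N : ℕ} {Y Z : Sl.Var} {f : Y.X ⟶ Z.X} {U : Z.X.Opens} {z : Pt Z.X}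
    {ω : Y.Form (n + 1)} {B : Y.QDiv} {φ h : Y.K} (hK : FF Y.K (n + 1)) (N1 : 1 ≤ N) (φ0 : φ ≠ 0)
    (h0 : h ≠ 0) (fr : Frm (X := Y.o) ω h) (hB : Pair (fun _ => True) (all Y.X) ω B) (zU : z ∈ U)
    (H : ∀ (Q : Pl Y.K) (y : Pt Y.X), y ∈ pre f U → Dom (X := Y.o) Q.ring y →
      -1 < dsc (n + 1) ((N : ℝ)⁻¹ • dv (φ / h ^ N)) Q ∧ ∀ (m : ℕ) (g : Y.K), 0 < m →
        LocalEq (logCan ω B) m g y → (Q.ord g : ℝ) / m ≤ (N : ℝ)⁻¹ * Q.ord φ) :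
    HasKltComplement f ω B N z := by
  refine (has_iff f ω B N z).2 (P283R.Br.cpl (X := Y.o) (Z := Z.o) hK fr h0
    (fun E => hB.1 E trivial) zU N1 (div_ne_zero φ0 (pow_ne_zero _ h0)) (fun E a P b => ?_)
    fun x a P b => (H P x a b).1)
  obtain ⟨m, g, m0, hg⟩ := hB.2.1 E.1 trivial
  have c := P283R.Br.coef' (X := Y.o) fr m0 h0 hg b
  have k := (H P E.1 a b).2 m g m0 hg
  rw [P283R.Br.dsc_eq (X := Y.o) m0 hg.1 h0] at c
  rw [P283R.Br.dsc_eq (X := Y.o) N1 φ0 h0, div_eq_inv_mul]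
  linarith

end Vale.Agent.P283R.Dg
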