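import Vale.Agent.P283R.Dg.St
import Vale.Agent.P287D.Iso.Can

/-!
# P283R, block DG: transport along an isomorphism
-/

noncomputable section

namespace Vale.Agent.P283R.Dg

open Vale.Agent.P287D

/-- **TRN** -/
theorem trn18 : TRN := by
  intro n L L' _ _ _ _ e hL
  have h := Semi.of_alg e
  refine ⟨h.ff_iff.1 hL, fun Q => ⟨h.pl.symm Q, h.lies_iff.2 (h.pl.apply_symm_apply Q).symm⟩,
    fun Q' => ⟨_, h.lies Q'⟩, fun Q Q' l => ?_, h.inv (h.cf n)⁻¹,
    (map_ne_zero _).2 (inv_ne_zero (h.cf_ne n)), fun Q Q' l => ?_⟩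
  · obtain rfl := h.lies_iff.1 l
    refine ⟨fun x => h.ord_pl Q' x, fun y => ?_⟩
    have k := congrFun (h.pb_kap y) (h.pl Q')
    rw [h.pb_pl] at k
    exact k.symm
  · obtain rfl := h.lies_iff.1 l
    have k := congrFun (h.pb_cn n) (h.pl Q')
    rw [h.pb_pl, Pi.add_apply, dv_apply] at k
    rw [← h.ord_pl Q', h.apply_inv, P297Z.Pl.ord_inv, k]
    push_cast
    ring

end Vale.Agent.P283R.Dg
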